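import Vale.Agent.P329.H81.Cover

/-!
P329: components with an abelian group of symmetries.
-/

set_option linter.all false

namespace Vale.Agent.P329.H81

open Vale.Agent.P329 Vale.Agent.P329.S4 Vale.Agent.P329.H112 Vale.Agent.P329.H157
  Vale.Agent.P329.H647 Vale.Agent.P329.H96 Vale.Agent.P329.H550

/-- The set `C` of states (of any size) has abelian symmetries: a finite abelian group `A` acts on
`C` and commutes with the letters where they do not lead out of `C` and with a map `f`, and each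
letter, where it does not lead out of `C`, acts on the orbits as the identity, as `f`, as a constant
or, if `f` permutes `C`, as the inverse of `f`. -/
def ActFor {α σ : Type} (δ : σ → α → σ) (C : Set σ) : Prop :=
  ∃ (A : Type) (_ : AddCommGroup A) (_ : Finite A) (_ : AddAction A σ) (f : σ → σ),
    (∀ (g : A), ∀ x ∈ C, g +ᵥ x ∈ C ∧ f (g +ᵥ x) = g +ᵥ f x ∧
      ∀ a, δ x a ∈ C → δ (g +ᵥ x) a = g +ᵥ δ x a) ∧
    ∀ a, (∀ x ∈ C, δ x a ∈ C → ∃ g : A, δ x a = g +ᵥ x) ∨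
      (∀ x ∈ C, δ x a ∈ C → ∃ g : A, δ x a = g +ᵥ f x) ∨
      (∃ y, ∀ x ∈ C, δ x a ∈ C → ∃ g : A, δ x a = g +ᵥ y) ∨
      (Set.BijOn f C C ∧ ∀ x ∈ C, δ x a ∈ C → ∃ g : A, f (δ x a) = g +ᵥ x)

/-- representatives of the orbits -/
theorem orbit_rep {A X : Type} [AddCommGroup A] [AddAction A X] :
    ∃ r : X → X, (∀ x, ∃ g : A, r x = g +ᵥ x) ∧ ∀ (g : A) x, r (g +ᵥ x) = r x := by
  classical
  refine ⟨fun x => @Classical.epsilon X ⟨x⟩ (fun y => ∃ g : A, y = g +ᵥ x), fun x => ?_,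
    fun g x => ?_⟩
  · exact Classical.epsilon_spec (p := fun y => ∃ g : A, y = g +ᵥ x)
      ⟨x, 0, (zero_vadd A x).symm⟩
  · have h : (fun y => ∃ g' : A, y = g' +ᵥ (g +ᵥ x)) = (fun y => ∃ g' : A, y = g' +ᵥ x) := by
      funext y
      apply propext
      constructor
      · rintro ⟨k, rfl⟩
        exact ⟨k + g, vadd_vadd k g x⟩
      · rintro ⟨k, rfl⟩
        exact ⟨k - g, by rw [vadd_vadd, sub_add_cancel]⟩
    exact congrArg (@Classical.epsilon X ⟨x⟩) h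

theorem act_cover {α X : Type} [Finite α] [Finite X] (δ : X → α → X) (C : Set X) (h : ActFor δ C) :
    Covered 1 δ C := by
  classical
  obtain ⟨A, i1, i2, i3, f, h1, h2⟩ := h
  obtain ⟨r, hr1, hr2⟩ := orbit_rep (A := A) (X := X)
  have hback : ∀ x, ∃ g : A, x = g +ᵥ r x := fun x => by
    obtain ⟨g, hg⟩ := hr1 x
    exact ⟨-g, by rw [hg, neg_vadd_vadd]⟩
  have hrr : ∀ x, r (r x) = r x := fun x => by
    obtain ⟨g, hg⟩ := hr1 x
    exact (congrArg r hg).trans (hr2 g x)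
  have hrC : ∀ x ∈ C, r x ∈ C := fun x hx => by
    obtain ⟨g, hg⟩ := hr1 x
    rw [hg]
    exact (h1 g x hx).1
  let Om := {x : X // x ∈ C ∧ r x = x}
  have iF : Finite Om := inferInstance
  let f' : Om → Om := fun ω => if h : f ω.1 ∈ C then ⟨r (f ω.1), hrC _ h, hrr _⟩ else ω
  have hf' : ∀ ω : Om, f ω.1 ∈ C → (f' ω).1 = r (f ω.1) := by
    intro ω h
    change (if h : f ω.1 ∈ C then (⟨r (f ω.1), hrC _ h, hrr _⟩ : Om) else ω).1 = _
    rw [dif_pos h]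
  have hinj : Set.BijOn f C C → Function.Injective f' := by
    intro hb ω1 ω2 h
    have e1 := hf' ω1 (hb.mapsTo ω1.2.1)
    have e2 := hf' ω2 (hb.mapsTo ω2.2.1)
    rw [h, e2] at e1
    obtain ⟨g1, hg1⟩ := hback (f ω1.1)
    obtain ⟨g2, hg2⟩ := hr1 (f ω2.1)
    rw [← e1, hg2, ← (h1 _ _ ω2.2.1).2.1, ← (h1 _ _ (h1 _ _ ω2.2.1).1).2.1] at hg1
    have h3 := hb.injOn ω1.2.1 (h1 _ _ (h1 _ _ ω2.2.1).1).1 hg1
    have h4 := congrArg r h3
    rw [hr2, hr2, ω1.2.2, ω2.2.2] at h4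
    exact Subtype.ext h4
  have key : ∀ a, ∃ t : Om → Om, ((∀ ω, t ω = ω) ∨ (∀ ω, t ω = f' ω) ∨ (∃ z, ∀ ω, t ω = z) ∨
      (Function.Injective f' ∧ ∀ ω, f' (t ω) = ω)) ∧
      ∀ ω : Om, δ ω.1 a ∈ C → ∃ g : A, δ ω.1 a = g +ᵥ (t ω).1 := by
    intro a
    rcases h2 a with h3 | h3 | ⟨y, h3⟩ | ⟨hb, h3⟩
    · exact ⟨id, Or.inl fun ω => rfl, fun ω hω => h3 _ ω.2.1 hω⟩
    · refine ⟨f', Or.inr (Or.inl fun ω => rfl), fun ω hω => ?_⟩
      obtain ⟨g, hg⟩ := h3 _ ω.2.1 hω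
      have h4 : f ω.1 ∈ C := by
        have h5 := (h1 (-g) _ hω).1
        rw [hg, neg_vadd_vadd] at h5
        exact h5
      obtain ⟨k, hk⟩ := hback (f ω.1)
      refine ⟨g + k, ?_⟩
      rw [hf' ω h4, ← vadd_vadd, ← hk]
      exact hg
    · by_cases hy : y ∈ C
      · refine ⟨fun _ => ⟨r y, hrC y hy, hrr y⟩, Or.inr (Or.inr (Or.inl ⟨_, fun ω => rfl⟩)),
          fun ω hω => ?_⟩
        obtain ⟨g, hg⟩ := h3 _ ω.2.1 hω
        obtain ⟨k, hk⟩ := hback y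
        refine ⟨g + k, ?_⟩
        rw [← vadd_vadd, ← hk]
        exact hg
      · refine ⟨id, Or.inl fun ω => rfl, fun ω hω => ?_⟩
        exfalso
        obtain ⟨g, hg⟩ := h3 _ ω.2.1 hω
        have h5 := (h1 (-g) _ hω).1
        rw [hg, neg_vadd_vadd] at h5
        exact hy h5
    · have hs : Function.Surjective f' := (Finite.injective_iff_surjective.1 (hinj hb))
      choose t ht using hs
      refine ⟨t, Or.inr (Or.inr (Or.inr ⟨hinj hb, ht⟩)), fun ω hω => ?_⟩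
      obtain ⟨g, hg⟩ := h3 _ ω.2.1 hω
      have h4 := hf' (t ω) (hb.mapsTo (t ω).2.1)
      rw [ht ω] at h4
      obtain ⟨k, hk⟩ := hr1 (f (t ω).1)
      have h6 : ω.1 = f (k +ᵥ (t ω).1) := h4.trans (hk.trans ((h1 k _ (t ω).2.1).2.1).symm)
      have h7 : f (δ ω.1 a) = f (g +ᵥ (k +ᵥ (t ω).1)) :=
        hg.trans ((congrArg (fun y => g +ᵥ y) h6).trans (h1 g _ (h1 k _ (t ω).2.1).1).2.1.symm)
      have h5 := hb.injOn hω (h1 _ _ (h1 _ _ (t ω).2.1).1).1 h7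
      refine ⟨g + k, ?_⟩
      rw [← vadd_vadd]
      exact h5
  choose t ht1 ht2 using key
  let s : Om → α → A := fun ω a => if h : δ ω.1 a ∈ C then (ht2 a ω h).choose else 0
  refine ⟨Om × A, inferInstance, fun x a => (t a x.1, x.2 + s x.1 a), fun x => x.2 +ᵥ x.1.1,
    fun p q => wreath_all (fun ω a => t a ω) f' ht1 s p q, fun x hx => ?_, fun y a hy hya => ?_⟩
  · obtain ⟨g, hg⟩ := hback x
    exact ⟨(⟨r x, hrC x hx, hrr x⟩, g), hg.symm⟩
  · obtain ⟨ω, g⟩ := y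
    change δ (g +ᵥ ω.1) a ∈ C at hya
    change (g + s ω a) +ᵥ (t a ω).1 = δ (g +ᵥ ω.1) a
    have h3 := (h1 (-g) _ (h1 g _ ω.2.1).1).2.2 a hya
    rw [neg_vadd_vadd] at h3
    have h4 : δ ω.1 a ∈ C := by
      rw [h3]
      exact (h1 (-g) _ hya).1
    have h5 : s ω a = (ht2 a ω h4).choose := dif_pos h4
    rw [h5, ← vadd_vadd, ← (ht2 a ω h4).choose_spec]
    exact ((h1 g _ ω.2.1).2.2 a h4).symm

/-- **Small components and components with abelian symmetries.** -/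
theorem small_act {α X : Type} [Finite α] [Finite X] (δ : X → α → X)
    (h : ∀ p, SmallFor δ (Cmp δ p) ∨ ActFor δ (Cmp δ p)) (p q : X) :
    SH 1 {w : List α | w.foldl δ p = q} :=
  small_cover δ (fun p => (h p).imp id (act_cover δ _)) p q

end Vale.Agent.P329.H81
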