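import Vale.Agent.P329.H550.Cl

/-!
P329: counting blocks.

A block starts with the letter `b` and is then read by an inner automaton, which starts in `q0`
and which has no nontrivial cycles off `q0`; the block ends with the first letter for which the
inner automaton is undefined.  We count the blocks with a given last state and a given last
letter, modulo any number.  An automaton which restarts at each visit of `q0` and at each such
block counts too much; the visits of `q0` are subtracted.
-/

set_option linter.all false

namespace Vale.Agent.P329.H81

open Vale.Agent.P329 Vale.Agent.P329.S4 Vale.Agent.P329.H550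

section bc

variable {α Q : Type} [DecidableEq α] [DecidableEq Q] (δ : Q → α → Option Q) (q0 : Q) (b : α)

/-- the inner automaton off `q0` -/
def ein (q : Q) (x : α) : Option Q :=
  match δ q x with
  | none => none
  | some q' => if q' = q0 then none else some q'

/-- the state of the inner automaton, `none` outside of blocks -/
def trk : Option Q → α → Option Q
  | none, x => if x = b then some q0 else none
  | some q, x => match δ q x with
    | none => if x = b then some q0 else none
    | some q' => some q'

/-- the sum of the weights of the blocks -/
def blk {A : Type} [AddCommMonoid A] (s : Q → α → A) : Option Q → List α → A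
  | _, [] => 0
  | none, x :: w => blk s (if x = b then some q0 else none) w
  | some q, x :: w => match δ q x with
    | none => s q x + blk s (if x = b then some q0 else none) w
    | some q' => blk s (some q') w

/-- the counting automaton; the state `none` is a delayed event -/
def ev1 (t : Option (Q × α)) : Option (Option Q) → α → Option (Option (Option Q))
  | none, x => if x = b then none else some none
  | some none, x => if x = b then some (some (some q0)) else some (some none)
  | some (some q), x => match δ q x with
    | none => if t = some (q, x) then (if x = b then none else some none)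
        else (if x = b then some (some (some q0)) else some (some none))
    | some q' => if q' = q0 then none else some (some (some q'))

variable {δ q0 b}

theorem ev1_in {t : Option (Q × α)} {q q' : Q} {x : α} (h : δ q x = some q') :
    ev1 δ q0 b t (some (some q)) x = if q' = q0 then none else some (some (some q')) := by
  simp only [ev1, h]

theorem ev1_out {t : Option (Q × α)} {q : Q} {x : α} (h : δ q x = none) :
    ev1 δ q0 b t (some (some q)) x =
      if t = some (q, x) then (if x = b then none else some none)
        else (if x = b then some (some (some q0)) else some (some none)) := by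
  simp only [ev1, h]

theorem ein_ev1 (t : Option (Q × α)) (z : List α) : ∀ q q' : Q,
    run (ein δ q0) q z = some q' →
      run (ev1 δ q0 b t) (some (some q)) z = some (some (some q')) := by
  induction z with
  | nil => intro q q' h; cases h; rfl
  | cons x z ih =>
    intro q q' h
    obtain ⟨q1, h1, h2⟩ := run_cons_eq_some h
    have h3 : ev1 δ q0 b t (some (some q)) x = some (some (some q1)) := by
      unfold ein at h1
      cases h4 : δ q x with
      | none => rw [h4] at h1; cases h1
      | some q2 =>
        rw [h4] at h1
        change (if q2 = q0 then none else some q2) = some q1 at h1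
        rw [ev1_in h4]
        by_cases h5 : q2 = q0
        · rw [if_pos h5] at h1; cases h1
        · rw [if_neg h5] at h1 ⊢
          cases h1
          rfl
    rw [run_cons_some z h3]
    exact ih q1 q' h2

/-- words without the letter `b` -/
theorem ev1_no (t : Option (Q × α)) (z : List α) (hz : b ∉ z) :
    run (ev1 δ q0 b t) none z = some none ∧
    run (ev1 δ q0 b t) (some none) z = some (some none) ∧
    ∀ q q', run (ev1 δ q0 b t) (some (some q)) z = some (some (some q')) →
      run (ein δ q0) q z = some q' := by
  induction z with
  | nil => exact ⟨rfl, rfl, fun q q' h => by cases h; rfl⟩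
  | cons x z ih =>
    have hx : x ≠ b := fun h => hz (by rw [h]; exact List.mem_cons_self)
    obtain ⟨h1, h2, h3⟩ := ih fun h => hz (List.mem_cons_of_mem _ h)
    refine ⟨?_, ?_, fun q q' h => ?_⟩
    · rw [run_cons_some z (show ev1 δ q0 b t none x = some none from if_neg hx)]
      exact h1
    · rw [run_cons_some z (show ev1 δ q0 b t (some none) x = some (some none) from if_neg hx)]
      exact h2
    · obtain ⟨y, h4, h5⟩ := run_cons_eq_some h
      cases h6 : δ q x with
      | none =>
        rw [ev1_out h6, if_neg hx, if_neg hx] at h4
        by_cases h7 : t = some (q, x)
        · rw [if_pos h7] at h4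
          cases h4
          rw [h1] at h5
          cases h5
        · rw [if_neg h7] at h4
          cases h4
          rw [h2] at h5
          cases h5
      | some q1 =>
        rw [ev1_in h6] at h4
        by_cases h7 : q1 = q0
        · rw [if_pos h7] at h4; cases h4
        · rw [if_neg h7] at h4
          cases h4
          have h8 : ein δ q0 q x = some q1 := by
            unfold ein
            rw [h6]
            exact if_neg h7
          rw [run_cons_some z h8]
          exact h3 q1 q' h5

/-- words with the letter `b` -/
theorem ev1_b (hb : ∀ q, δ q b = none) (t : Option (Q × α)) (z : List α) (hz : b ∈ z) :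
    ∃ y0, ∀ x y, run (ev1 δ q0 b t) x z = some y → y = y0 := by
  induction z with
  | nil => exact absurd hz (by simp)
  | cons a z ih =>
    by_cases h : b ∈ z
    · obtain ⟨y0, h1⟩ := ih h
      refine ⟨y0, fun x y h2 => ?_⟩
      obtain ⟨x', h3, h4⟩ := run_cons_eq_some h2
      exact h1 x' y h4
    · have hab : a = b := by
        rcases List.mem_cons.1 hz with h1 | h1
        · exact h1.symm
        · exact absurd h1 h
      subst hab
      have hstep : ∀ x x', ev1 δ q0 a t x a = some x' → x' = some (some q0) := by
        intro x x' h1
        match x with
        | none =>
          change (if a = a then none else some none) = some x' at h1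
          rw [if_pos rfl] at h1
          cases h1
        | some none =>
          change (if a = a then some (some (some q0)) else some (some none)) = some x' at h1
          rw [if_pos rfl] at h1
          cases h1
          rfl
        | some (some q) =>
          rw [ev1_out (hb q), if_pos rfl, if_pos rfl] at h1
          by_cases h2 : t = some (q, a)
          · rw [if_pos h2] at h1; cases h1
          · rw [if_neg h2] at h1
            cases h1
            rfl
      cases h2 : run (ev1 δ q0 a t) (some (some q0)) z with
      | none =>
        refine ⟨none, fun x y h3 => ?_⟩
        obtain ⟨x', h4, h5⟩ := run_cons_eq_some h3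
        rw [hstep x x' h4, h2] at h5
        cases h5
      | some y0 =>
        refine ⟨y0, fun x y h3 => ?_⟩
        obtain ⟨x', h4, h5⟩ := run_cons_eq_some h3
        rw [hstep x x' h4, h2] at h5
        cases h5
        rfl

theorem ev1_noCyc (hb : ∀ q, δ q b = none) (hc : NoCyc (ein δ q0)) (t : Option (Q × α)) :
    NoCyc (ev1 δ q0 b t) := by
  intro z s n hn hs
  obtain ⟨m, rfl⟩ : ∃ m, n = m + 1 := ⟨n - 1, by omega⟩
  by_cases hz : b ∈ z
  · obtain ⟨y0, h1⟩ := ev1_b hb t z hz
    have h2 := hs
    rw [List.replicate_succ, List.flatten_cons] at h2
    obtain ⟨s', h3, -⟩ := run_append_eq_some h2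
    have h4 := hs
    rw [List.replicate_succ', List.flatten_append, List.flatten_singleton] at h4
    obtain ⟨s'', -, h5⟩ := run_append_eq_some h4
    rw [h3, h1 _ _ h3, h1 _ _ h5]
  · have hz' : b ∉ (List.replicate (m + 1) z).flatten := by
      intro h
      rw [List.mem_flatten] at h
      obtain ⟨l, hl, h2⟩ := h
      rw [List.eq_of_mem_replicate hl] at h2
      exact hz h2
    match s with
    | none => exact (ev1_no t z hz).1
    | some none => exact (ev1_no t z hz).2.1
    | some (some q) =>
      have h1 := (ev1_no t _ hz').2.2 q q hs
      exact ein_ev1 t z q q (hc z q (m + 1) (by omega) h1)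

variable (δ q0 b)

/-- the number of visits of `q0` inside of blocks -/
def vis (x : Option Q) (w : List α) : ℤ := cnt (ev1 δ q0 b none) (some (some q0)) (some x) w

/-- the weight of the blocks which end with `t` -/
def ind1 (t : Q × α) (q : Q) (x : α) : ℤ := if (q, x) = t then 1 else 0

theorem ev1_cnt (t : Q × α) (w : List α) :
    (∀ x : Option Q, (cnt (ev1 δ q0 b (some t)) (some (some q0)) (some x) w : ℤ) +
      (if fin (ev1 δ q0 b (some t)) (some (some q0)) (some x) w = none then 1 else 0) =
        vis δ q0 b x w + blk δ q0 b (ind1 t) x w) ∧
    (cnt (ev1 δ q0 b (some t)) (some (some q0)) none w : ℤ) +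
      (if fin (ev1 δ q0 b (some t)) (some (some q0)) none w = none then 1 else 0) =
        1 + (vis δ q0 b none w + blk δ q0 b (ind1 t) none w) := by
  induction w with
  | nil =>
    refine ⟨fun x => ?_, ?_⟩
    · rw [cnt_nil, fin_nil, vis, cnt_nil, blk]
      simp
    · rw [cnt_nil, fin_nil, vis, cnt_nil, blk]
      simp
  | cons a w ih =>
    obtain ⟨ih1, ih2⟩ := ih
    have hnone : ∀ t' : Option (Q × α), ∀ y, y = (if a = b then some q0 else none) →
        ev1 δ q0 b t' (some none) a = some (some y) := by
      intro t' y hy
      change (if a = b then some (some (some q0)) else some (some none)) = _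
      rw [hy]
      by_cases h : a = b
      · rw [if_pos h, if_pos h]
      · rw [if_neg h, if_neg h]
    refine ⟨fun x => ?_, ?_⟩
    · cases x with
      | none =>
        have hv : vis δ q0 b none (a :: w) = vis δ q0 b (if a = b then some q0 else none) w := by
          rw [vis, cnt_cons_some w (hnone _ _ rfl)]
          rfl
        have hbl : blk δ q0 b (ind1 t) none (a :: w) =
            blk δ q0 b (ind1 t) (if a = b then some q0 else none) w := by
          rw [blk]
        rw [cnt_cons_some w (hnone _ _ rfl), fin_cons_some w (hnone _ _ rfl), ih1, hv, hbl]
      | some q =>
        cases h : δ q a with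
        | some q' =>
          have hbl : blk δ q0 b (ind1 t) (some q) (a :: w) =
              blk δ q0 b (ind1 t) (some q') w := by
            rw [blk, h]
          by_cases h1 : q' = q0
          · have h2 : ∀ t' : Option (Q × α), ev1 δ q0 b t' (some (some q)) a = none := by
              intro t'
              rw [ev1_in h]
              exact if_pos h1
            rw [cnt_cons_none w (h2 _), fin_cons_none w (h2 _), vis, cnt_cons_none w (h2 _), hbl,
              h1]
            have h3 := ih1 (some q0)
            rw [vis] at h3
            push_cast
            linarith only [h3]
          · have h2 : ∀ t' : Option (Q × α),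
                ev1 δ q0 b t' (some (some q)) a = some (some (some q')) := by
              intro t'
              rw [ev1_in h]
              exact if_neg h1
            rw [cnt_cons_some w (h2 _), fin_cons_some w (h2 _), vis, cnt_cons_some w (h2 _), hbl]
            exact ih1 (some q')
        | none =>
          have hbl : blk δ q0 b (ind1 t) (some q) (a :: w) = ind1 t q a +
              blk δ q0 b (ind1 t) (if a = b then some q0 else none) w := by
            rw [blk, h]
          have h0 : ev1 δ q0 b none (some (some q)) a =
              some (some (if a = b then some q0 else none)) := by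
            rw [ev1_out h, if_neg (by simp)]
            by_cases h2 : a = b
            · rw [if_pos h2, if_pos h2]
            · rw [if_neg h2, if_neg h2]
          have hv : vis δ q0 b (some q) (a :: w) =
              vis δ q0 b (if a = b then some q0 else none) w := by
            rw [vis, cnt_cons_some w h0]
            rfl
          rw [hv, hbl]
          by_cases h1 : (q, a) = t
          · have hi : ind1 t q a = 1 := if_pos h1
            rw [hi]
            by_cases h2 : a = b
            · have h3 : ev1 δ q0 b (some t) (some (some q)) a = none := by
                rw [ev1_out h, if_pos (by rw [h1]), if_pos h2]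
              rw [cnt_cons_none w h3, fin_cons_none w h3, if_pos h2]
              have h4 := ih1 (some q0)
              push_cast
              linarith only [h4]
            · have h3 : ev1 δ q0 b (some t) (some (some q)) a = some none := by
                rw [ev1_out h, if_pos (by rw [h1]), if_neg h2]
              rw [cnt_cons_some w h3, fin_cons_some w h3, if_neg h2, ih2]
              ring
          · have hi : ind1 t q a = 0 := if_neg h1
            have h3 : ev1 δ q0 b (some t) (some (some q)) a =
                some (some (if a = b then some q0 else none)) := by
              rw [ev1_out h, if_neg (by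
                intro h4
                exact h1 (Option.some.inj h4).symm)]
              by_cases h2 : a = b
              · rw [if_pos h2, if_pos h2]
              · rw [if_neg h2, if_neg h2]
            rw [hi, cnt_cons_some w h3, fin_cons_some w h3, ih1]
            ring
    · have hbl : blk δ q0 b (ind1 t) none (a :: w) =
          blk δ q0 b (ind1 t) (if a = b then some q0 else none) w := by
        rw [blk]
      have hv : vis δ q0 b none (a :: w) = vis δ q0 b (if a = b then some q0 else none) w := by
        rw [vis, cnt_cons_some w (hnone _ _ rfl)]
        rfl
      rw [hbl, hv]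
      by_cases h2 : a = b
      · have h3 : ev1 δ q0 b (some t) none a = none := if_pos h2
        rw [cnt_cons_none w h3, fin_cons_none w h3, if_pos h2]
        have h4 := ih1 (some q0)
        push_cast
        linarith only [h4]
      · have h3 : ev1 δ q0 b (some t) none a = some none := if_neg h2
        rw [cnt_cons_some w h3, fin_cons_some w h3, if_neg h2, ih2]

theorem ev1_fin (w : List α) : ∀ x : Option Q,
    fin (ev1 δ q0 b none) (some (some q0)) (some x) w = some (w.foldl (trk δ q0 b) x) := by
  induction w with
  | nil => intro x; rfl
  | cons a w ih =>
    intro x
    rw [List.foldl_cons]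
    cases x with
    | none =>
      have h1 : ev1 δ q0 b none (some none) a = some (some (trk δ q0 b none a)) := by
        change (if a = b then some (some (some q0)) else some (some none)) =
          some (some (if a = b then some q0 else none))
        by_cases h : a = b
        · rw [if_pos h, if_pos h]
        · rw [if_neg h, if_neg h]
      rw [fin_cons_some w h1, ih]
    | some q =>
      cases h : δ q a with
      | some q' =>
        have h2 : trk δ q0 b (some q) a = some q' := by
          rw [trk, h]
        rw [h2]
        by_cases h1 : q' = q0
        · have h3 : ev1 δ q0 b none (some (some q)) a = none := by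
            rw [ev1_in h]
            exact if_pos h1
          rw [fin_cons_none w h3, ih, h1]
        · have h3 : ev1 δ q0 b none (some (some q)) a = some (some (some q')) := by
            rw [ev1_in h]
            exact if_neg h1
          rw [fin_cons_some w h3, ih]
      | none =>
        have h2 : trk δ q0 b (some q) a = if a = b then some q0 else none := by
          rw [trk, h]
        have h3 : ev1 δ q0 b none (some (some q)) a =
            some (some (if a = b then some q0 else none)) := by
          rw [ev1_out h, if_neg (by simp)]
          by_cases h2 : a = b
          · rw [if_pos h2, if_pos h2]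
          · rw [if_neg h2, if_neg h2]
        rw [h2, fin_cons_some w h3, ih]

variable {δ q0 b}

/-- The state of the inner automaton. -/
theorem trk_kn [Finite α] [Finite Q] (hb : ∀ q, δ q b = none) (hc : NoCyc (ein δ q0))
    (x : Option Q) : Kn fun w : List α => w.foldl (trk δ q0 b) x := by
  have h1 := Kn.of_event (ev1_noCyc hb hc none) (some (some q0)) (some x)
  have h2 := h1.comp fun y => y.elim none id
  refine Eq.mp (congrArg Kn ?_) h2
  funext w
  rw [ev1_fin]
  rfl

/-- **Counting the blocks with a given end.** -/
theorem ind_kn [Finite α] [Finite Q] (hb : ∀ q, δ q b = none) (hc : NoCyc (ein δ q0))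
    (t : Q × α) (x : Option Q) : KnZ (blk δ q0 b (ind1 t) x) := by
  have h1 := KnZ.of_event (ev1_noCyc hb hc (some t)) (some (some q0)) (some x)
  have h2 : KnZ (vis δ q0 b x) :=
    KnZ.of_event (ev1_noCyc hb hc none) (some (some q0)) (some x)
  have h3 := KnZ.of_kn (Kn.of_event (ev1_noCyc hb hc (some t)) (some (some q0)) (some x))
    fun y => if y = none then (1 : ℤ) else 0
  refine ((h1.add h3).sub h2).congr fun w => ?_
  have h4 := (ev1_cnt δ q0 b t w).1 x
  linarith only [h4]

/-- weights in a finite abelian group -/
theorem blk_sum [Fintype α] [Fintype Q] {A : Type} [AddCommGroup A] (s : Q → α → A)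
    (w : List α) : ∀ x : Option Q,
    blk δ q0 b s x w = ∑ t : Q × α, blk δ q0 b (ind1 t) x w • s t.1 t.2 := by
  induction w with
  | nil =>
    intro x
    rw [blk]
    symm
    exact Finset.sum_eq_zero fun t _ => by rw [blk, zero_smul]
  | cons a w ih =>
    intro x
    cases x with
    | none =>
      rw [blk, ih]
      exact Finset.sum_congr rfl fun t _ => by rw [blk]
    | some q =>
      cases h : δ q a with
      | some q' =>
        have h1 : ∀ {A : Type} [AddCommMonoid A] (s : Q → α → A),
            blk δ q0 b s (some q) (a :: w) = blk δ q0 b s (some q') w := by
          intro A _ s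
          rw [blk, h]
        rw [h1, ih]
        exact Finset.sum_congr rfl fun t _ => by rw [h1]
      | none =>
        have h1 : ∀ {A : Type} [AddCommMonoid A] (s : Q → α → A),
            blk δ q0 b s (some q) (a :: w) = s q a +
              blk δ q0 b s (if a = b then some q0 else none) w := by
          intro A _ s
          rw [blk, h]
        have h3 : ∀ t : Q × α, blk δ q0 b (ind1 t) (some q) (a :: w) • s t.1 t.2 =
            ind1 t q a • s t.1 t.2 +
              blk δ q0 b (ind1 t) (if a = b then some q0 else none) w • s t.1 t.2 :=
          fun t => by rw [h1, add_smul]
        rw [h1, ih, Finset.sum_congr rfl fun t _ => h3 t, Finset.sum_add_distrib]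
        congr 1
        have h2 : ∀ t : Q × α, ind1 t q a • s t.1 t.2 =
            if t = (q, a) then s q a else 0 := by
          intro t
          unfold ind1
          by_cases h3 : (q, a) = t
          · rw [if_pos h3, if_pos h3.symm, one_smul, ← h3]
          · rw [if_neg h3, if_neg fun h4 => h3 h4.symm, zero_smul]
        rw [Finset.sum_congr rfl fun t _ => h2 t, Finset.sum_ite_eq' Finset.univ (q, a),
          if_pos (Finset.mem_univ _)]

/-- **Sums of weights of blocks in a finite abelian group.** -/
theorem blk_kn [Finite α] [Finite Q] (hb : ∀ q, δ q b = none) (hc : NoCyc (ein δ q0))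
    {A : Type} [AddCommGroup A] [Finite A] (s : Q → α → A) (x : Option Q) :
    Kn (blk δ q0 b s x) := by
  classical
  have := Fintype.ofFinite α
  have := Fintype.ofFinite Q
  have hA : 0 < Nat.card A := Nat.card_pos
  have : NeZero (Nat.card A) := ⟨hA.ne'⟩
  have h1 : Kn fun w => fun t : Q × α =>
      ((blk δ q0 b (ind1 t) x w : ℤ) : ZMod (Nat.card A)) :=
    Kn.pi fun t => ind_kn hb hc t x _ hA
  have h2 := h1.comp fun g => ∑ t : Q × α, (g t).val • s t.1 t.2
  refine Eq.mp (congrArg Kn ?_) h2
  funext w
  rw [blk_sum]
  refine Finset.sum_congr rfl fun t _ => ?_
  have h3 : ∀ (k : ℤ) (y : A), ((k : ZMod (Nat.card A)).val : ℕ) • y = k • y := by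
    intro k y
    have h4 : ((((k : ZMod (Nat.card A)).val : ℕ) : ℤ) : ZMod (Nat.card A)) = (k : ZMod _) := by
      rw [Int.cast_natCast, ZMod.natCast_zmod_val]
    rw [ZMod.intCast_eq_intCast_iff_dvd_sub] at h4
    obtain ⟨c, hc⟩ := h4
    have h5 : k = ((k : ZMod (Nat.card A)).val : ℤ) + (Nat.card A : ℤ) * c := by linarith
    have h6 : (Nat.card A : ℤ) • (c • y) = 0 := by
      rw [natCast_zsmul]
      exact card_nsmul_eq_zero'
    conv_rhs => rw [h5, add_smul, mul_smul, h6, add_zero, natCast_zsmul]
  exact h3 _ _

end bc

end Vale.Agent.P329.H81
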