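import Vale.Agent.P329.H81.Easy

/-!
P329: certificates: the automaton of two letters becomes aperiodic on the words which are
idempotent in two known automata.
-/

set_option linter.all false

namespace Vale.Agent.P329.H81

open Vale.Agent.P329 Vale.Agent.P329.S4 Vale.Agent.P329.H112 Vale.Agent.P329.H157
  Vale.Agent.P329.H647 Vale.Agent.P329.H96 Vale.Agent.P329.H550

/-- the map of the code is idempotent -/
def idm (c : ℕ) : Bool := (List.range 4).all fun s => dg 4 c (dg 4 c s) == dg 4 c s

/-- three codes in one -/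
def pk (x y z : ℕ) : ℕ := x + 256 * y + 65536 * z

/-- multiplication of three codes -/
def mk3 (c a b d : ℕ) : ℕ :=
  pk (ml 4 (c % 256) a 4) (ml 4 (c / 256 % 256) b 4) (ml 4 (c / 65536) d 4)

/-- the certificate -/
def crt (a b fa fb ga gb : ℕ) (L : List ℕ) : Bool :=
  Nat.blt a 256 && (Nat.blt b 256 && (Nat.blt fa 256 && (Nat.blt fb 256 &&
  (L.contains (pk a fa ga) && (L.contains (pk b fb gb) && L.all fun c =>
    L.contains (mk3 c a fa ga) && (L.contains (mk3 c b fb gb) &&
    (!(idm (c / 256 % 256) && idm (c / 65536)) || apc 4 (c % 256))))))))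

theorem idm_ev {c : ℕ} (h : ∀ x : Fin 4, ev 4 c (ev 4 c x) = ev 4 c x) : idm c = true := by
  unfold idm
  rw [List.all_eq_true]
  intro s hs
  have h1 := congrArg Fin.val (h ⟨s, List.mem_range.1 hs⟩)
  exact beq_iff_eq.2 h1

theorem pk_1 {x y z : ℕ} (hx : x < 256) : pk x y z % 256 = x := by unfold pk; omega
theorem pk_2 {x y z : ℕ} (hx : x < 256) (hy : y < 256) : pk x y z / 256 % 256 = y := by
  unfold pk; omega
theorem pk_3 {x y z : ℕ} (hx : x < 256) (hy : y < 256) : pk x y z / 65536 = z := by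
  unfold pk; omega

theorem ml4_lt (c d : ℕ) : ml 4 c d 4 < 256 := ml_lt (by omega) c d 4

theorem crt_gd (a b fa fb ga gb : ℕ) (L : List ℕ) (h : crt a b fa fb ga gb L = true)
    (h1 : Gd 4 fa fb) (h2 : Gd 4 ga gb) : Gd 4 a b := by
  unfold crt at h
  simp only [Bool.and_eq_true, List.contains_iff_mem, List.all_eq_true] at h
  obtain ⟨k1, k2, k3, k4, k5, k6, k7⟩ := h
  have ha : a < 256 := Nat.le_of_ble_eq_true k1
  have hb : b < 256 := Nat.le_of_ble_eq_true k2
  have hfa : fa < 256 := Nat.le_of_ble_eq_true k3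
  have hfb : fb < 256 := Nat.le_of_ble_eq_true k4
  have key : ∀ w : List (Option Bool), (∀ x, w.foldl (au 4 a b) x = x) ∧
      (∀ x, w.foldl (au 4 fa fb) x = x) ∧ (∀ x, w.foldl (au 4 ga gb) x = x) ∨
      ∃ c ∈ L, (∀ x, w.foldl (au 4 a b) x = ev 4 (c % 256) x) ∧
      (∀ x, w.foldl (au 4 fa fb) x = ev 4 (c / 256 % 256) x) ∧
      (∀ x, w.foldl (au 4 ga gb) x = ev 4 (c / 65536) x) := by
    intro w
    induction w using List.reverseRecOn with
    | nil => exact Or.inl ⟨fun x => rfl, fun x => rfl, fun x => rfl⟩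
    | append_singleton w l ih =>
      rcases ih with ⟨i1, i2, i3⟩ | ⟨c, h3, h4, h5, h6⟩
      · match l with
        | none =>
          exact Or.inl ⟨fun x => by rw [List.foldl_append, i1]; rfl,
            fun x => by rw [List.foldl_append, i2]; rfl,
            fun x => by rw [List.foldl_append, i3]; rfl⟩
        | some true =>
          refine Or.inr ⟨_, k5, ?_⟩
          rw [pk_1 ha, pk_2 ha hfa, pk_3 ha hfa]
          exact ⟨fun x => by rw [List.foldl_append, i1]; rfl,
            fun x => by rw [List.foldl_append, i2]; rfl,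
            fun x => by rw [List.foldl_append, i3]; rfl⟩
        | some false =>
          refine Or.inr ⟨_, k6, ?_⟩
          rw [pk_1 hb, pk_2 hb hfb, pk_3 hb hfb]
          exact ⟨fun x => by rw [List.foldl_append, i1]; rfl,
            fun x => by rw [List.foldl_append, i2]; rfl,
            fun x => by rw [List.foldl_append, i3]; rfl⟩
      · match l with
        | none =>
          exact Or.inr ⟨c, h3, fun x => by rw [List.foldl_append, h4]; rfl,
            fun x => by rw [List.foldl_append, h5]; rfl,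
            fun x => by rw [List.foldl_append, h6]; rfl⟩
        | some true =>
          refine Or.inr ⟨_, (k7 c h3).1, ?_⟩
          unfold mk3
          rw [pk_1 (ml4_lt _ _), pk_2 (ml4_lt _ _) (ml4_lt _ _), pk_3 (ml4_lt _ _) (ml4_lt _ _)]
          refine ⟨fun x => ?_, fun x => ?_, fun x => ?_⟩
          · rw [List.foldl_append, h4, ev_ml]; rfl
          · rw [List.foldl_append, h5, ev_ml]; rfl
          · rw [List.foldl_append, h6, ev_ml]; rfl
        | some false =>
          refine Or.inr ⟨_, (k7 c h3).2.1, ?_⟩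
          unfold mk3
          rw [pk_1 (ml4_lt _ _), pk_2 (ml4_lt _ _) (ml4_lt _ _), pk_3 (ml4_lt _ _) (ml4_lt _ _)]
          refine ⟨fun x => ?_, fun x => ?_, fun x => ?_⟩
          · rw [List.foldl_append, h4, ev_ml]; rfl
          · rw [List.foldl_append, h5, ev_ml]; rfl
          · rw [List.foldl_append, h6, ev_ml]; rfl
  have h3 : MapLe 1 (fun l => (H550.tr (au 4 fa fb) l, H550.tr (au 4 ga gb) l)) :=
    mapLe_prod (mapLe_tr _ h1) (mapLe_tr _ h2)
  have h4 : MapLe 1 (H550.tr (au 4 a b)) := by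
    refine H162.Str.straubing _ h3 _ (fun v hv hid => ⟨10, ?_⟩)
    rw [prod_pair] at hid
    have i1 := congrArg Prod.fst hid
    have i2 := congrArg Prod.snd hid
    simp only [Prod.fst_mul, Prod.snd_mul] at i1 i2
    rcases key v with ⟨e1, -, -⟩ | ⟨c, e0, e1, e2, e3⟩
    · have j5 : ((v.map (H550.tr (au 4 a b))).prod).f = id := by
        funext x; rw [H550.tr_prod, e1]; rfl
      refine Tr.ext' fun x => ?_
      rw [Tr.pow_f, Tr.pow_f, j5, Function.iterate_id, Function.iterate_id]
    have j1 : idm (c / 256 % 256) = true := idm_ev fun x => by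
      have := congrArg (fun m : Tr (Fin 4) => m.f x) i1
      simp only [Tr.mul_f, H550.tr_prod] at this
      rw [e2, e2] at this
      exact this
    have j2 : idm (c / 65536) = true := idm_ev fun x => by
      have := congrArg (fun m : Tr (Fin 4) => m.f x) i2
      simp only [Tr.mul_f, H550.tr_prod] at this
      rw [e3, e3] at this
      exact this
    have j3 := (k7 c e0).2.2
    rw [j1, j2] at j3
    have j4 : apc 4 (c % 256) = true := by simpa using j3
    have j5 : ((v.map (H550.tr (au 4 a b))).prod).f = ev 4 (c % 256) := by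
      funext x; rw [H550.tr_prod, e1]
    refine Tr.ext' fun x => ?_
    rw [Tr.pow_f, Tr.pow_f, j5]
    exact apc_iff 4 j4 x
  exact fun x y => H550.sh_of_mapLe (au 4 a b) h4 x y

/-! ### The last pair: the sum of three automata with eight states -/

/-- the vectors of the states -/
def vt (L : List ℕ) (x : Fin 8) : ℕ := L.getD x.val 0

theorem last_1 : Gd 8 2373624 5476000 :=
  clo_gd 8 2373624 5476000 14956536 15961760 7 (by decide +kernel) (by decide +kernel)
    [14956536, 15961760, 16529400, 15761400, 15699928, 14913152, 16547832, 15499256, 14712824,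
    16748536, 14913472] (by decide +kernel)

theorem last_2 : Gd 8 6422088 4336071 :=
  clo_gd 8 6422088 4336071 14810696 14821831 7 (by decide +kernel) (by decide +kernel)
    [14810696, 14821831, 14941768, 16678407, 14917575, 16610815, 16776711, 16613375, 16748543,
    16577535, 16777215, 16580607, 16544255, 16547839] (by decide +kernel)

theorem last_3 : Gd 8 6422088 15757474 :=
  clo_gd 8 6422088 15757474 14810696 15757474 7 (by decide +kernel) (by decide +kernel)
    [14810696, 15757474, 14941768, 15236898, 16543865, 16610490, 15466274, 14974969, 15302650,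
    16610620, 16577145, 15204345, 15466490, 15826940, 15007737, 16577535, 16610815, 16677180,
    15990780, 16580607, 16613375, 15892476, 16677375, 16777215, 16678911] (by decide +kernel)

theorem last_step : ∀ l : Option Bool, ∀ s1 s2 s3 : Fin 8, ∀ x : Fin 4,
    vt [1, 4, 8, 7, 11, 13, 14, 2] s1 ^^^ (vt [2, 4, 8, 7, 11, 13, 14, 1] s2 ^^^ vt [2, 4, 8, 7, 11, 13, 14, 1] s3) = 2 ^ x.val →
    vt [1, 4, 8, 7, 11, 13, 14, 2] (au 8 2373624 5476000 s1 l) ^^^ (vt [2, 4, 8, 7, 11, 13, 14, 1] (au 8 6422088 4336071 s2 l) ^^^ vt [2, 4, 8, 7, 11, 13, 14, 1] (au 8 6422088 15757474 s3 l)) =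
      2 ^ (au 4 88 19 x l).val := by
  decide +kernel

theorem last_ini : ∀ x : Fin 4, ∃ s1 s2 s3 : Fin 8,
    vt [1, 4, 8, 7, 11, 13, 14, 2] s1 ^^^ (vt [2, 4, 8, 7, 11, 13, 14, 1] s2 ^^^ vt [2, 4, 8, 7, 11, 13, 14, 1] s3) = 2 ^ x.val := by
  decide +kernel

theorem last_gd : Gd 4 88 19 := by
  intro p q
  obtain ⟨x1, x2, x3, hx⟩ := last_ini p
  have key : ∀ (w : List (Option Bool)) (s1 s2 s3 : Fin 8) (x : Fin 4),
      vt [1, 4, 8, 7, 11, 13, 14, 2] s1 ^^^ (vt [2, 4, 8, 7, 11, 13, 14, 1] s2 ^^^ vt [2, 4, 8, 7, 11, 13, 14, 1] s3) = 2 ^ x.val →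
      vt [1, 4, 8, 7, 11, 13, 14, 2] (w.foldl (au 8 2373624 5476000) s1) ^^^ (vt [2, 4, 8, 7, 11, 13, 14, 1] (w.foldl (au 8 6422088 4336071) s2) ^^^
        vt [2, 4, 8, 7, 11, 13, 14, 1] (w.foldl (au 8 6422088 15757474) s3)) = 2 ^ (w.foldl (au 4 88 19) x).val := by
    intro w
    induction w with
    | nil => intro s1 s2 s3 x h; exact h
    | cons l w ih =>
      intro s1 s2 s3 x h
      rw [List.foldl_cons, List.foldl_cons, List.foldl_cons, List.foldl_cons]
      exact ih _ _ _ _ (last_step l s1 s2 s3 x h)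
  have hU : SH 1 (⋃ z1 : Fin 8, ⋃ z2 : Fin 8, ⋃ z3 : Fin 8,
      ⋃ _ : vt [1, 4, 8, 7, 11, 13, 14, 2] z1 ^^^ (vt [2, 4, 8, 7, 11, 13, 14, 1] z2 ^^^ vt [2, 4, 8, 7, 11, 13, 14, 1] z3) = 2 ^ q.val,
        {w : List (Option Bool) | w.foldl (au 8 2373624 5476000) x1 = z1} ∩
        ({w : List (Option Bool) | w.foldl (au 8 6422088 4336071) x2 = z2} ∩
          {w : List (Option Bool) | w.foldl (au 8 6422088 15757474) x3 = z3})) :=
    SH.iUnion fun z1 => SH.iUnion fun z2 => SH.iUnion fun z3 => SH.iUnion_prop fun _ =>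
      (last_1 _ _).inter ((last_2 _ _).inter (last_3 _ _))
  refine Eq.mp (congrArg (SH 1) ?_) hU
  ext w
  simp only [Set.mem_iUnion, exists_prop, Set.mem_inter_iff, Set.mem_setOf_eq]
  have hk := key w x1 x2 x3 p hx
  constructor
  · rintro ⟨z1, z2, z3, h, e1, e2, e3⟩
    rw [e1, e2, e3, h] at hk
    exact (Fin.ext (Nat.pow_right_injective (le_refl 2) hk)).symm
  · intro h
    rw [h] at hk
    exact ⟨_, _, _, hk, rfl, rfl, rfl⟩

end Vale.Agent.P329.H81
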