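import Vale.Agent.P329.H550.SccFour

/-!
P329: automata over two letters with coded letters.

A map of the points `0, ..., B - 1` is coded by the number with the digits `f 0, f 1, ...` in
base `B`.
-/

set_option linter.all false

namespace Vale.Agent.P329.H81

open Vale.Agent.P329 Vale.Agent.P329.S4 Vale.Agent.P329.H112 Vale.Agent.P329.H157
  Vale.Agent.P329.H647 Vale.Agent.P329.H96 Vale.Agent.P329.H550

/-- Root elimination. -/
theorem root_sh {α X : Type} [Finite α] [Finite X] (step : X → α → X) (z : X)
    (h : NoCyc (eA step z)) (x y : X) : SH 1 {w : List α | w.foldl step x = y} := by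
  have h1 := Kn.of_event h z x
  have h2 : (fin (eA step z) z x) = fun w : List α => w.foldl step x :=
    funext fun w => fin_eA w x
  rw [h2] at h1
  exact h1 y

section off

variable {α X : Type} (step : X → α → X) (z : X)

open Classical in
/-- the automaton off the root, which becomes a sink -/
noncomputable def osk (x : X) (a : α) : X := if x = z then z else step x a

theorem osk_z (w : List α) : w.foldl (osk step z) z = z := by
  induction w with
  | nil => rfl
  | cons a w ih => rw [List.foldl_cons, osk, if_pos rfl, ih]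

theorem run_osk (w : List α) : ∀ s t : X, s ≠ z → run (eA step z) s w = some t →
    w.foldl (osk step z) s = t ∧ t ≠ z := by
  induction w with
  | nil => intro s t hs h; cases h; exact ⟨rfl, hs⟩
  | cons a w ih =>
    intro s t hs h
    obtain ⟨s', h1, h2⟩ := run_cons_eq_some h
    unfold eA at h1
    by_cases h0 : step s a = z
    · rw [if_pos h0] at h1; cases h1
    · rw [if_neg h0] at h1
      cases h1
      rw [List.foldl_cons, osk, if_neg hs]
      exact ih _ _ h0 h2

theorem osk_run (w : List α) : ∀ s t : X, t ≠ z → w.foldl (osk step z) s = t →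
    run (eA step z) s w = some t := by
  induction w with
  | nil => intro s t ht h; rw [← h]; rfl
  | cons a w ih =>
    intro s t ht h
    rw [List.foldl_cons] at h
    by_cases hs : s = z
    · subst hs
      rw [osk, if_pos rfl, osk_z] at h
      exact absurd h.symm ht
    · rw [osk, if_neg hs] at h
      have h0 : step s a ≠ z := by
        intro h0
        rw [h0, osk_z] at h
        exact ht h.symm
      have h1 : eA step z s a = some (step s a) := if_neg h0
      rw [run_cons_some w h1]
      exact ih _ _ ht h

theorem run_root (w : List α) (hw : w ≠ []) (s t : X)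
    (h : run (eA step z) s w = some t) : t ≠ z := by
  cases w with
  | nil => exact absurd rfl hw
  | cons a w =>
    obtain ⟨s', h1, h2⟩ := run_cons_eq_some h
    unfold eA at h1
    by_cases h0 : step s a = z
    · rw [if_pos h0] at h1; cases h1
    · rw [if_neg h0] at h1
      cases h1
      exact (run_osk step z w _ _ h0 h2).2

theorem foldl_iter {Y : Type} (f : Y → α → Y) (v : List α) (n : ℕ) (x : Y) :
    (List.replicate n v).flatten.foldl f x = (fun t => v.foldl f t)^[n] x := by
  induction n generalizing x with
  | zero => rfl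
  | succ n ih =>
    rw [List.replicate_succ, List.flatten_cons, List.foldl_append, ih,
      Function.iterate_succ_apply]

theorem noCyc_osk (K : ℕ) (h : ∀ w : List α, w ≠ [] → ∀ x,
    (fun t => w.foldl (osk step z) t)^[K + 1] x = (fun t => w.foldl (osk step z) t)^[K] x) :
    NoCyc (eA step z) := by
  intro v s n hn hs
  by_cases hv : v = []
  · rw [hv]; rfl
  have hne : (List.replicate n v).flatten ≠ [] := by
    intro h0
    obtain ⟨m, rfl⟩ : ∃ m, n = m + 1 := ⟨n - 1, by omega⟩
    rw [List.replicate_succ, List.flatten_cons, List.append_eq_nil_iff] at h0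
    exact hv h0.1
  have hsz : s ≠ z := run_root step z _ hne s s hs
  set f : X → X := fun t => v.foldl (osk step z) t with hf
  have h1 : f^[n] s = s := by
    rw [hf, ← foldl_iter]
    exact (run_osk step z _ s s hsz hs).1
  have h2 : ∀ k, f^[n * k] s = s := by
    intro k
    rw [Function.iterate_mul]
    exact Function.iterate_fixed h1 k
  have h3 : ∀ j x, f^[K + j + 1] x = f^[K + j] x := by
    intro j x
    have e1 : K + j + 1 = (K + 1) + j := by omega
    rw [e1, Function.iterate_add_apply f (K + 1) j, Function.iterate_add_apply f K j]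
    exact h v hv _
  have h4 : f s = s := by
    have hK : K ≤ n * K := Nat.le_mul_of_pos_left K hn
    obtain ⟨j, hj⟩ := Nat.exists_eq_add_of_le hK
    have h5 := h3 j s
    rw [← hj, Function.iterate_succ_apply', h2] at h5
    exact h5
  exact osk_run step z v s s hsz h4

end off

/-! ### Codes -/

/-- the digit -/
def dg (B c s : ℕ) : ℕ := c / B ^ s % B

/-- first `c`, then `d`, the first `k` digits -/
def ml (B c d : ℕ) : ℕ → ℕ
  | 0 => 0
  | k + 1 => ml B c d k + B ^ k * dg B d (dg B c k)

/-- iteration -/
def it (B c : ℕ) : ℕ → ℕ → ℕ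
  | 0, s => s
  | k + 1, s => dg B c (it B c k s)

theorem dg_lt {B : ℕ} (hB : 0 < B) (c s : ℕ) : dg B c s < B := Nat.mod_lt _ hB

theorem ml_lt {B : ℕ} (hB : 0 < B) (c d k : ℕ) : ml B c d k < B ^ k := by
  induction k with
  | zero => simp [ml]
  | succ k ih =>
    have h1 := dg_lt hB d (dg B c k)
    have h2 : B ^ k * dg B d (dg B c k) ≤ B ^ k * (B - 1) := Nat.mul_le_mul_left _ (by omega)
    have h3 : B ^ (k + 1) = B ^ k * (B - 1) + B ^ k := by
      obtain ⟨b, rfl⟩ : ∃ b, B = b + 1 := ⟨B - 1, by omega⟩
      rw [pow_succ, Nat.add_sub_cancel]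
      ring
    change ml B c d k + B ^ k * dg B d (dg B c k) < _
    omega

theorem dg_add {B : ℕ} (hB : 0 < B) {x k : ℕ} (y s : ℕ) (hs : s < k) :
    dg B (x + B ^ k * y) s = dg B x s := by
  obtain ⟨j, rfl⟩ : ∃ j, k = s + 1 + j := ⟨k - (s + 1), by omega⟩
  unfold dg
  have h1 : B ^ (s + 1 + j) * y = B ^ s * (B * (B ^ j * y)) := by
    rw [pow_add, pow_succ]; ring
  rw [h1, Nat.add_mul_div_left _ _ (Nat.pow_pos hB), Nat.add_mul_mod_self_left]

theorem dg_top {B : ℕ} (hB : 0 < B) {x k : ℕ} (y : ℕ) (hx : x < B ^ k) (hy : y < B) :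
    dg B (x + B ^ k * y) k = y := by
  unfold dg
  rw [Nat.add_mul_div_left _ _ (Nat.pow_pos hB), Nat.div_eq_of_lt hx, Nat.zero_add,
    Nat.mod_eq_of_lt hy]

theorem dg_ml {B : ℕ} (hB : 0 < B) (c d : ℕ) : ∀ k s, s < k →
    dg B (ml B c d k) s = dg B d (dg B c s) := by
  intro k
  induction k with
  | zero => intro s hs; omega
  | succ k ih =>
    intro s hs
    change dg B (ml B c d k + B ^ k * dg B d (dg B c k)) s = _
    rcases Nat.lt_succ_iff_lt_or_eq.1 hs with h | rfl
    · rw [dg_add hB _ _ h, ih s h]
    · exact dg_top hB _ (ml_lt hB c d s) (dg_lt hB _ _)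

section ev

variable (B : ℕ) [NeZero B]

/-- the map of a code -/
def ev (c : ℕ) (x : Fin B) : Fin B := ⟨dg B c x.val, dg_lt (Nat.pos_of_neZero B) _ _⟩

/-- the automaton of two codes; the letter `none` acts as the identity -/
def au (a b : ℕ) (x : Fin B) : Option Bool → Fin B
  | none => x
  | some l => ev B (cond l a b) x

/-- all languages of the automaton have height at most one -/
def Gd (a b : ℕ) : Prop :=
  ∀ x y : Fin B, SH 1 {w : List (Option Bool) | w.foldl (au B a b) x = y}

theorem ev_ml (c d : ℕ) (x : Fin B) : ev B (ml B c d B) x = ev B d (ev B c x) :=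
  Fin.ext (dg_ml (Nat.pos_of_neZero B) c d B x.val x.isLt)

theorem ev_it (c k : ℕ) (x : Fin B) : ((ev B c)^[k] x).val = it B c k x.val := by
  induction k with
  | zero => rfl
  | succ k ih =>
    rw [Function.iterate_succ_apply']
    change dg B c ((ev B c)^[k] x).val = dg B c (it B c k x.val)
    rw [ih]

/-- the map of the code is aperiodic -/
def apc (B c : ℕ) : Bool := (List.range B).all fun s => it B c 11 s == it B c 10 s

theorem apc_iff {c : ℕ} (h : apc B c = true) (x : Fin B) :
    (ev B c)^[10 + 1] x = (ev B c)^[10] x := by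
  apply Fin.ext
  rw [ev_it, ev_it]
  have h1 := List.all_eq_true.1 h x.val (List.mem_range.2 x.isLt)
  exact beq_iff_eq.1 h1

/-- The values of words in an invariant set of codes. -/
theorem word_inv (a b : ℕ) (P : ℕ → Prop) (ha : P a) (hb : P b)
    (hc : ∀ c, P c → P (ml B c a B) ∧ P (ml B c b B)) (w : List (Option Bool)) :
    (∀ x : Fin B, w.foldl (au B a b) x = x) ∨
      ∃ c, P c ∧ ∀ x : Fin B, w.foldl (au B a b) x = ev B c x := by
  induction w using List.reverseRecOn with
  | nil => exact Or.inl fun x => rfl
  | append_singleton w l ih =>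
    rcases ih with ih | ⟨c, h1, h2⟩
    · match l with
      | none => exact Or.inl fun x => by rw [List.foldl_append, ih]; rfl
      | some true => exact Or.inr ⟨a, ha, fun x => by rw [List.foldl_append, ih]; rfl⟩
      | some false => exact Or.inr ⟨b, hb, fun x => by rw [List.foldl_append, ih]; rfl⟩
    · match l with
      | none => exact Or.inr ⟨c, h1, fun x => by rw [List.foldl_append, h2]; rfl⟩
      | some true =>
        exact Or.inr ⟨_, (hc c h1).1, fun x => by rw [List.foldl_append, h2, ev_ml]; rfl⟩
      | some false =>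
        exact Or.inr ⟨_, (hc c h1).2, fun x => by rw [List.foldl_append, h2, ev_ml]; rfl⟩

/-- **Flat automata.** -/
theorem flat_gd (a b a' b' : ℕ) (z : Fin B)
    (h1 : ∀ x, x ≠ z → ev B a' x = ev B a x ∧ ev B b' x = ev B b x)
    (h2 : ev B a' z = z ∧ ev B b' z = z) (P : ℕ → Prop) (ha : P a') (hb : P b')
    (hc : ∀ c, P c → P (ml B c a' B) ∧ P (ml B c b' B)) (hP : ∀ c, P c → apc B c = true) :
    Gd B a b := by
  intro x y
  refine root_sh (au B a b) z (noCyc_osk _ z 10 fun w _ => ?_) x y
  have h3 : osk (au B a b) z = au B a' b' := by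
    funext x l
    unfold osk
    by_cases hx : x = z
    · rw [if_pos hx, hx]
      match l with
      | none => rfl
      | some true => exact h2.1.symm
      | some false => exact h2.2.symm
    · rw [if_neg hx]
      match l with
      | none => rfl
      | some true => exact (h1 x hx).1.symm
      | some false => exact (h1 x hx).2.symm
  rcases word_inv B a' b' P ha hb hc w with h4 | ⟨c, h4, h5⟩
  · have h6 : (fun t => w.foldl (osk (au B a b) z) t) = id := by
      funext t
      rw [h3, h4]
      rfl
    intro x
    rw [h6, Function.iterate_id, Function.iterate_id]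
  · have h6 : (fun t => w.foldl (osk (au B a b) z) t) = ev B c := by
      funext t
      rw [h3, h5]
    rw [h6]
    exact apc_iff B (hP c h4)

/-- closure under right multiplication, aperiodic -/
def clo (a b : ℕ) (L : List ℕ) : Bool :=
  L.contains a && (L.contains b && L.all fun c =>
    L.contains (ml B c a B) && (L.contains (ml B c b B) && apc B c))

theorem clo_gd (a b a' b' : ℕ) (z : Fin B)
    (h1 : ∀ x, x ≠ z → ev B a' x = ev B a x ∧ ev B b' x = ev B b x)
    (h2 : ev B a' z = z ∧ ev B b' z = z) (L : List ℕ) (hL : clo B a' b' L = true) :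
    Gd B a b := by
  unfold clo at hL
  simp only [Bool.and_eq_true, List.all_eq_true, List.contains_iff_mem] at hL
  exact flat_gd B a b a' b' z h1 h2 (fun c => c ∈ L) hL.1 hL.2.1
    (fun c hc => ⟨(hL.2.2 c hc).1, (hL.2.2 c hc).2.1⟩) (fun c hc => (hL.2.2 c hc).2.2)

/-- another name of the points -/
theorem gd_iso (a b a' b' : ℕ) (φ ψ : Fin B → Fin B) (h : ∀ x, ψ (φ x) = x)
    (ha : ∀ x, φ (ev B a x) = ev B a' (φ x)) (hb : ∀ x, φ (ev B b x) = ev B b' (φ x))
    (h1 : Gd B a' b') : Gd B a b := by
  intro x y
  have h2 : ∀ (w : List (Option Bool)) (x : Fin B),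
      φ (w.foldl (au B a b) x) = w.foldl (au B a' b') (φ x) := by
    intro w
    induction w with
    | nil => intro x; rfl
    | cons l w ih =>
      intro x
      rw [List.foldl_cons, List.foldl_cons, ih]
      congr 1
      match l with
      | none => rfl
      | some true => exact ha x
      | some false => exact hb x
  refine Eq.mp (congrArg (SH 1) ?_) (h1 (φ x) (φ y))
  ext w
  simp only [Set.mem_setOf_eq]
  rw [← h2]
  constructor
  · intro h3
    rw [← h (w.foldl (au B a b) x), h3, h]
  · intro h3
    rw [h3]

end ev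

/-! ### Letters -/

/-- languages under a map of the letters -/
theorem sh_map {α β : Type} [Finite α] (i : α → β) {h : ℕ} {L : Set (List β)} (hL : SH h L) :
    SH h {w : List α | w.map i ∈ L} := by
  obtain ⟨e, he, rfl⟩ := hL
  induction e generalizing h with
  | zero => exact SH.empty
  | one =>
    refine Eq.mp (congrArg (SH h) ?_) SH.eps
    ext w
    simp only [Set.mem_singleton_iff, Set.mem_setOf_eq]
    change w = [] ↔ w.map i ∈ ({[]} : Set (List β))
    rw [Set.mem_singleton_iff, List.map_eq_nil_iff]
  | letter b =>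
    have h1 : SH h (⋃ a : α, ⋃ _ : i a = b, {[a]}) :=
      SH.iUnion fun a => SH.iUnion_prop fun _ => SH.single a
    refine Eq.mp (congrArg (SH h) ?_) h1
    ext w
    simp only [Set.mem_iUnion, exists_prop, Set.mem_singleton_iff, Set.mem_setOf_eq]
    change (∃ a, i a = b ∧ w = [a]) ↔ w.map i ∈ ({[b]} : Set (List β))
    rw [Set.mem_singleton_iff]
    constructor
    · rintro ⟨a, rfl, rfl⟩; rfl
    · intro h2
      match w, h2 with
      | [a], h2 =>
        simp only [List.map_cons, List.map_nil, List.cons.injEq, and_true] at h2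
        exact ⟨a, h2, rfl⟩
  | union e f ihe ihf =>
    exact (ihe ((le_max_left _ _).trans he)).union (ihf ((le_max_right _ _).trans he))
  | concat e f ihe ihf =>
    refine Eq.mp (congrArg (SH h) ?_)
      ((ihe ((le_max_left _ _).trans he)).cat (ihf ((le_max_right _ _).trans he)))
    ext w
    constructor
    · rintro ⟨u, hu, v, hv, rfl⟩
      exact ⟨u.map i, hu, v.map i, hv, (List.map_append ..).symm⟩
    · rintro ⟨u', hu, v', hv, hw⟩
      obtain ⟨u, v, rfl, rfl, rfl⟩ := List.map_eq_append_iff.1 hw.symm
      exact ⟨u, hu, v, hv, rfl⟩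
  | compl e ih => exact (ih he).compl
  | star e ih =>
    obtain ⟨k, rfl⟩ : ∃ k, h = k + 1 := ⟨h - 1, by
      have : e.height + 1 ≤ h := he
      omega⟩
    refine Eq.mp (congrArg (SH (k + 1)) ?_) (ih (Nat.le_of_succ_le_succ he)).kst
    ext w
    constructor
    · rintro ⟨L, hL, rfl⟩
      refine ⟨L.map (List.map i), ?_, (List.map_flatten ..).symm⟩
      intro u hu
      obtain ⟨v, hv, rfl⟩ := List.mem_map.1 hu
      exact hL v hv
    · rintro ⟨L, hL, hw⟩
      change L.flatten = w.map i at hw
      induction L generalizing w with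
      | nil =>
        have h1 : w = [] := List.map_eq_nil_iff.1 hw.symm
        exact ⟨[], by simp, by rw [h1]; rfl⟩
      | cons u L ihL =>
        rw [List.flatten_cons] at hw
        obtain ⟨u', v', rfl, h1, h2⟩ := List.map_eq_append_iff.1 hw.symm
        obtain ⟨L', h3, h4⟩ := ihL v' (fun y hy => hL y (List.mem_cons_of_mem _ hy)) h2.symm
        refine ⟨u' :: L', ?_, by rw [List.flatten_cons, h4]⟩
        intro y hy
        rcases List.mem_cons.1 hy with rfl | hy
        · change y.map i ∈ e.lang
          rw [h1]
          exact hL u List.mem_cons_self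
        · exact h3 y hy

/-- exchange of the two letters -/
theorem gd_swap (B : ℕ) [NeZero B] (a b : ℕ) (h : Gd B b a) : Gd B a b := by
  intro x y
  refine Eq.mp (congrArg (SH 1) ?_) (sh_map (Option.map Bool.not) (h x y))
  ext w
  simp only [Set.mem_setOf_eq]
  have h1 : ∀ (w : List (Option Bool)) (x : Fin B),
      (w.map (Option.map Bool.not)).foldl (au B b a) x = w.foldl (au B a b) x := by
    intro w
    induction w with
    | nil => intro x; rfl
    | cons l w ih =>
      intro x
      rw [List.map_cons, List.foldl_cons, List.foldl_cons, ih]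
      congr 1
      match l with
      | none => rfl
      | some true => rfl
      | some false => rfl
  rw [h1]

end Vale.Agent.P329.H81
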