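import Vale.Agent.P329.H81.Pairs

/-!
P329: strongly connected components on which the letters act as one of two maps, as the identity,
or with at most one value.
-/

set_option linter.all false

namespace Vale.Agent.P329.H81

open Vale.Agent.P329 Vale.Agent.P329.S4 Vale.Agent.P329.H112 Vale.Agent.P329.H157
  Vale.Agent.P329.H647 Vale.Agent.P329.H96 Vale.Agent.P329.H550

/-- all languages of the two maps have height at most one -/
def Am {X : Type} (f g : X → X) : Prop :=
  ∀ x y : X, SH 1 {w : List (Option Bool) | w.foldl (am f g) x = y}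

theorem am_emb {X Y : Type} (e : X → Y) (he : Function.Injective e) (f g : X → X)
    (f' g' : Y → Y) (hf : ∀ x, e (f x) = f' (e x)) (hg : ∀ x, e (g x) = g' (e x))
    (h : Am f' g') : Am f g := by
  intro x y
  have h2 : ∀ (w : List (Option Bool)) (x : X),
      e (w.foldl (am f g) x) = w.foldl (am f' g') (e x) := by
    intro w
    induction w with
    | nil => intro x; rfl
    | cons l w ih =>
      intro x
      rw [List.foldl_cons, List.foldl_cons, ih]
      congr 1
      match l with
      | none => rfl
      | some true => exact hf x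
      | some false => exact hg x
  refine Eq.mp (congrArg (SH 1) ?_) (h (e x) (e y))
  ext w
  simp only [Set.mem_setOf_eq]
  rw [← h2]
  exact he.eq_iff

/-- at most four states -/
theorem am_four {X : Type} [Finite X] (hX : Nat.card X ≤ 4) (f g : X → X) : Am f g := by
  classical
  have := Fintype.ofFinite X
  obtain ⟨e⟩ : Nonempty (X ↪ Fin 4) := by
    refine Function.Embedding.nonempty_of_card_le ?_
    rw [Fintype.card_fin, ← Nat.card_eq_fintype_card]
    exact hX
  have h1 : ∀ f : X → X, ∃ f' : Fin 4 → Fin 4, ∀ x, e (f x) = f' (e x) := by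
    intro f
    refine ⟨fun y => if h : ∃ x, e x = y then e (f h.choose) else y, fun x => ?_⟩
    have h : ∃ x', e x' = e x := ⟨x, rfl⟩
    change _ = (if h : ∃ x', e x' = e x then e (f h.choose) else e x)
    rw [dif_pos h, e.injective h.choose_spec]
  obtain ⟨f', hf⟩ := h1 f
  obtain ⟨g', hg⟩ := h1 g
  exact am_emb e e.injective f g f' g' hf hg (four_two f' g')

/-- Up to letters which are the identity or have at most one value, where the letters do not lead
out of the set `C`, there are only two letters. -/
def Acts {α X : Type} (δ : X → α → X) (C : Set X) (f g : X → X) : Prop :=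
  ∀ a : α, (∀ x ∈ C, δ x a ∈ C → δ x a = f x) ∨ (∀ x ∈ C, δ x a ∈ C → δ x a = g x) ∨
    (∀ x ∈ C, δ x a ∈ C → δ x a = x) ∨ ∃ y, ∀ x ∈ C, δ x a ∈ C → δ x a = y

open Classical in
/-- the restriction of a map to a set -/
noncomputable def res {X : Type} (C : Set X) (f : X → X) (x : C) : C :=
  if h : f x ∈ C then ⟨f x, h⟩ else x

theorem comp_two {α X : Type} [Finite α] [Finite X] (δ : X → α → X) (p z : X)
    (hz : z ∈ Cmp δ p) (f g : X → X) (ha : Acts δ (Cmp δ p) f g)
    (hfg : Am (res (Cmp δ p) f) (res (Cmp δ p) g)) :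
    SH 1 {w : List α | w.foldl δ p = z} := by
  classical
  have hpp : p ∈ Cmp δ p := ⟨Rch.refl δ p, Rch.refl δ p⟩
  -- the letters
  have hκ : ∀ a : α, ∃ l : Option Bool,
      (∀ x y : Cmp δ p, δ x a = y → am (res (Cmp δ p) f) (res (Cmp δ p) g) x l = y) ∨
      ∃ y0 : Cmp δ p, ∀ x y : Cmp δ p, δ x a = y → y = y0 := by
    intro a
    have hr : ∀ f : X → X, (∀ x ∈ Cmp δ p, δ x a ∈ Cmp δ p → δ x a = f x) →
        ∀ x y : Cmp δ p, δ x a = y → res (Cmp δ p) f x = y := by
      intro f h x y hxy
      have h1 : δ x a ∈ Cmp δ p := by rw [hxy]; exact y.2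
      have h2 := h x x.2 h1
      rw [hxy] at h2
      unfold res
      rw [dif_pos (by rw [← h2]; exact y.2)]
      exact Subtype.ext h2.symm
    rcases ha a with h | h | h | ⟨y, h⟩
    · exact ⟨some true, Or.inl (hr f h)⟩
    · exact ⟨some false, Or.inl (hr g h)⟩
    · refine ⟨none, Or.inl fun x y hxy => Subtype.ext ?_⟩
      have h1 : δ x a ∈ Cmp δ p := by rw [hxy]; exact y.2
      exact (h x x.2 h1).symm.trans hxy
    · by_cases h0 : ∃ x : Cmp δ p, δ x a ∈ Cmp δ p
      · obtain ⟨x0, hx0⟩ := h0
        refine ⟨none, Or.inr ⟨⟨δ x0 a, hx0⟩, fun x y' hxy => Subtype.ext ?_⟩⟩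
        have h1 : δ x a ∈ Cmp δ p := by rw [hxy]; exact y'.2
        have h2 := h x x.2 h1
        have h3 := h x0 x0.2 hx0
        change (y' : X) = δ x0 a
        rw [← hxy, h2, h3]
      · refine ⟨none, Or.inl fun x y hxy => ?_⟩
        exact absurd ⟨x, by rw [hxy]; exact y.2⟩ h0
  choose κ hκ using hκ
  let F : Cmp δ p → α → Cmp δ p := fun x a =>
    am (res (Cmp δ p) f) (res (Cmp δ p) g) x (κ a)
  have hF : ∀ (w : List α) (x : Cmp δ p), w.foldl F x =
      (w.map κ).foldl (am (res (Cmp δ p) f) (res (Cmp δ p) g)) x := by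
    intro w x
    rw [List.foldl_map]
  have hψ : MapLe 1 (H550.tr F) := by
    refine mapLe_tr F fun x y => ?_
    refine Eq.mp (congrArg (SH 1) ?_) (sh_map κ (hfg x y))
    ext w
    simp only [Set.mem_setOf_eq]
    rw [hF]
  -- runs inside of the component
  have hrun : ∀ v : List α, (∀ x y : Cmp δ p,
      v.foldl (H550.off (dC δ (Cmp δ p))) (some x) = some y → v.foldl F x = y) ∨
      ∃ y0 : Cmp δ p, ∀ x y : Cmp δ p,
        v.foldl (H550.off (dC δ (Cmp δ p))) (some x) = some y → y = y0 := by
    intro v
    induction v with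
    | nil =>
      refine Or.inl fun x y h => ?_
      rw [List.foldl_nil, Option.some.injEq] at h
      exact h
    | cons a v ih =>
      have hstep : ∀ x y : Cmp δ p, (a :: v).foldl (H550.off (dC δ (Cmp δ p))) (some x) = some y →
          ∃ x1 : Cmp δ p, δ x a = x1 ∧
            v.foldl (H550.off (dC δ (Cmp δ p))) (some x1) = some y := by
        intro x y h
        rw [List.foldl_cons, H550.off_some] at h
        change v.foldl (H550.off (dC δ (Cmp δ p)))
          (if h : δ x a ∈ Cmp δ p then some ⟨δ x a, h⟩ else none) = some y at h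
        by_cases h1 : δ x a ∈ Cmp δ p
        · rw [dif_pos h1] at h
          exact ⟨_, rfl, h⟩
        · rw [dif_neg h1, H550.off_none] at h
          cases h
      rcases ih with ih | ⟨y0, ih⟩
      · rcases hκ a with h1 | ⟨y1, h1⟩
        · refine Or.inl fun x y h => ?_
          obtain ⟨x1, h2, h3⟩ := hstep x y h
          rw [List.foldl_cons]
          have h4 : F x a = x1 := h1 x x1 h2
          rw [h4]
          exact ih x1 y h3
        · refine Or.inr ⟨v.foldl F y1, fun x y h => ?_⟩
          obtain ⟨x1, h2, h3⟩ := hstep x y h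
          rw [← h1 x x1 h2]
          exact (ih x1 y h3).symm
      · refine Or.inr ⟨y0, fun x y h => ?_⟩
        obtain ⟨x1, h2, h3⟩ := hstep x y h
        exact ih x1 y h3
  have h1 : MapLe 1 (H550.tr (H550.off (dC δ (Cmp δ p)))) := by
    refine H162.Str.straubing (H550.tr F) hψ (H550.tr (H550.off (dC δ (Cmp δ p))))
      (fun v _ hv => ⟨2, ?_⟩)
    have hid : ∀ x : Cmp δ p, v.foldl F (v.foldl F x) = v.foldl F x := by
      intro x
      have := congrArg (fun m : Tr (Cmp δ p) => m.f x) hv
      simpa only [Tr.mul_f, H550.tr_prod] using this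
    have key : ∀ z : Option (Cmp δ p), v.foldl (H550.off (dC δ (Cmp δ p)))
        (v.foldl (H550.off (dC δ (Cmp δ p))) (v.foldl (H550.off (dC δ (Cmp δ p))) z)) =
        v.foldl (H550.off (dC δ (Cmp δ p))) (v.foldl (H550.off (dC δ (Cmp δ p))) z) := by
      intro z
      cases z with
      | none => rw [H550.off_none, H550.off_none, H550.off_none]
      | some z =>
        cases hz1 : v.foldl (H550.off (dC δ (Cmp δ p))) (some z) with
        | none => rw [H550.off_none, H550.off_none]
        | some z' =>
          cases hz2 : v.foldl (H550.off (dC δ (Cmp δ p))) (some z') with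
          | none => rw [H550.off_none]
          | some z'' =>
            have e3 : z'' = z' := by
              rcases hrun v with h | ⟨y0, h⟩
              · rw [← h z' z'' hz2, ← h z z' hz1, hid]
              · rw [h z' z'' hz2, h z z' hz1]
            rw [e3] at hz2 ⊢
            exact hz2
    refine Tr.ext' fun z => ?_
    have e3 : ((v.map (H550.tr (H550.off (dC δ (Cmp δ p))))).prod ^ (2 + 1)).f z =
        v.foldl (H550.off (dC δ (Cmp δ p)))
          (v.foldl (H550.off (dC δ (Cmp δ p))) (v.foldl (H550.off (dC δ (Cmp δ p))) z)) := by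
      rw [pow_succ, pow_succ, pow_one, Tr.mul_f, Tr.mul_f, H550.tr_prod, H550.tr_prod,
        H550.tr_prod]
    have e2 : ((v.map (H550.tr (H550.off (dC δ (Cmp δ p))))).prod ^ 2).f z =
        v.foldl (H550.off (dC δ (Cmp δ p))) (v.foldl (H550.off (dC δ (Cmp δ p))) z) := by
      rw [pow_succ, pow_one, Tr.mul_f, H550.tr_prod, H550.tr_prod]
    rw [e3, e2]
    exact key z
  have h2 := H550.sh_of_mapLe _ h1 (some ⟨p, hpp⟩) (some ⟨z, hz⟩)
  have key : ∀ (w : List α) (y : Cmp δ p), w.foldl (H550.off (dC δ (Cmp δ p))) (some y) =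
      some ⟨z, hz⟩ ↔ w.foldl δ y = z := by
    intro w
    induction w with
    | nil =>
      intro y
      rw [List.foldl_nil, List.foldl_nil, Option.some.injEq]
      exact ⟨fun h => by rw [h], fun h => Subtype.ext h⟩
    | cons a w ih =>
      intro y
      rw [List.foldl_cons, List.foldl_cons, H550.off_some]
      change w.foldl (H550.off (dC δ (Cmp δ p)))
        (if h : δ y a ∈ Cmp δ p then some ⟨δ y a, h⟩ else none) = some ⟨z, hz⟩ ↔ _
      by_cases h : δ y a ∈ Cmp δ p
      · rw [dif_pos h]
        exact ih ⟨δ y a, h⟩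
      · rw [dif_neg h, H550.off_none]
        constructor
        · intro h2; exact absurd h2 (by simp)
        · intro h2
          exfalso
          refine h ⟨y.2.1.trans (Rch.step _ _), ?_⟩
          exact Rch.trans (δ := δ) ⟨w, h2⟩ hz.2
  refine Eq.mp (congrArg (SH 1) ?_) h2
  ext w
  exact key w ⟨p, hpp⟩

/-- components with at most four states and two maps -/
theorem comp_two_four {α X : Type} [Finite α] [Finite X] (δ : X → α → X) (p z : X)
    (hz : z ∈ Cmp δ p) (hn : (Cmp δ p).ncard ≤ 4) (f g : X → X)
    (ha : Acts δ (Cmp δ p) f g) : SH 1 {w : List α | w.foldl δ p = z} :=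
  comp_two δ p z hz f g ha (am_four hn _ _)

/-- alphabets with at most two letters -/
theorem acts_two {α X : Type} [Finite α] (hα : Nat.card α ≤ 2) (δ : X → α → X) (C : Set X) :
    ∃ f g : X → X, Acts δ C f g := by
  classical
  by_cases h0 : Nonempty α
  · obtain ⟨a⟩ := h0
    have h1 : ∃ b : α, ∀ c : α, c = a ∨ c = b := by
      by_contra h
      push Not at h
      obtain ⟨b, hb1, hb2⟩ := h a
      obtain ⟨c, hc1, hc2⟩ := h b
      have := Fintype.ofFinite α
      have h3 : ({a, b, c} : Finset α).card ≤ Fintype.card α := Finset.card_le_univ _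
      rw [Finset.card_insert_of_notMem (by simp [Ne.symm hb1, Ne.symm hc1]),
        Finset.card_insert_of_notMem (by simp [Ne.symm hc2]), Finset.card_singleton] at h3
      rw [Nat.card_eq_fintype_card] at hα
      omega
    obtain ⟨b, hb⟩ := h1
    refine ⟨fun x => δ x a, fun x => δ x b, fun c => ?_⟩
    rcases hb c with rfl | rfl
    · exact Or.inl fun x _ _ => rfl
    · exact Or.inr (Or.inl fun x _ _ => rfl)
  · exact ⟨id, id, fun a => absurd ⟨a⟩ h0⟩

/-- at most two letters, all components with at most four states -/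
theorem two_sh_four {α X : Type} [Finite α] [Finite X] (hα : Nat.card α ≤ 2) (δ : X → α → X)
    (hC : ∀ p, (Cmp δ p).ncard ≤ 4) (p q : X) : SH 1 {w : List α | w.foldl δ p = q} :=
  scc_sh δ (fun p z hz => by
    obtain ⟨f, g, h⟩ := acts_two hα δ (Cmp δ p)
    exact comp_two_four δ p z hz (hC p) f g h) _ p q le_rfl

/-- at most two letters, `n + 4` states -/
theorem two_states {α : Type} [Finite α] (hα : Nat.card α ≤ 2) (n : ℕ) :
    ∀ (X : Type) [Finite X], Nat.card X ≤ n + 4 → ∀ (δ : X → α → X) (p q : X),
      SH (n + 1) {w : List α | w.foldl δ p = q} := by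
  have conj : ∀ {X Y : Type} (e : X ≃ Y) {h : ℕ} (δ : X → α → X),
      (∀ p q : Y, SH h {w : List α | w.foldl (fun y a => e (δ (e.symm y) a)) p = q}) →
      ∀ p q : X, SH h {w : List α | w.foldl δ p = q} := by
    intro X Y e h δ hY p q
    have hf : ∀ (w : List α) (p : X),
        w.foldl (fun y a => e (δ (e.symm y) a)) (e p) = e (w.foldl δ p) := by
      intro w
      induction w with
      | nil => intro p; rfl
      | cons a w ih =>
        intro p
        rw [List.foldl_cons, List.foldl_cons, Equiv.symm_apply_apply]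
        exact ih _
    refine Eq.mp (congrArg (SH h) ?_) (hY (e p) (e q))
    ext w
    simp only [Set.mem_setOf_eq]
    rw [hf, e.apply_eq_iff_eq]
  induction n with
  | zero =>
    intro X _ hX δ p q
    refine two_sh_four hα δ (fun p => ?_) p q
    exact (Set.ncard_le_card _).trans hX
  | succ n ih =>
    intro X _ hX δ p q
    by_cases h1 : Nat.card X ≤ n + 4
    · exact (ih X h1 δ p q).mono (by omega)
    · have e : X ≃ Option (Fin (n + 4)) :=
        (Finite.equivFinOfCardEq (by omega : Nat.card X = n + 4 + 1)).trans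
          (finSuccEquiv (n + 4))
      refine conj e δ (fun p q => ?_) p q
      refine reach_off _ (fun (y : Fin (n + 4)) a => ((e (δ (e.symm (some y)) a)).getD y)) ?_ ?_
        p q
      · intro x a y h
        simp only [h, Option.getD_some]
      · intro x y
        exact ih (Fin (n + 4)) (by simp) _ x y

/-- at most two letters, all components with at most `n + 4` states -/
theorem two_comp {α X : Type} [Finite α] [Finite X] (hα : Nat.card α ≤ 2) (n : ℕ)
    (δ : X → α → X) (hC : ∀ p, (Cmp δ p).ncard ≤ n + 4) (p q : X) :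
    SH (n + 1) {w : List α | w.foldl δ p = q} := by
  refine scc_sh δ (fun p z hz => ?_) _ p q le_rfl
  classical
  have hpp : p ∈ Cmp δ p := ⟨Rch.refl δ p, Rch.refl δ p⟩
  have hcard : Nat.card (Cmp δ p) ≤ n + 4 := hC p
  have h1 := off_sh (h := n + 1) (dC δ (Cmp δ p)) (eC δ (Cmp δ p)) (by
      intro x a y h
      change (if h : δ x a ∈ Cmp δ p then some ⟨δ x a, h⟩ else none) = some y at h
      unfold eC
      split_ifs at h ⊢ with h2
      · exact Option.some.inj h) (fun x y => two_states hα n _ hcard _ x y) ⟨p, hpp⟩ ⟨z, hz⟩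
  have key : ∀ (w : List α) (y : Cmp δ p), w.foldl (H550.off (dC δ (Cmp δ p))) (some y) =
      some ⟨z, hz⟩ ↔ w.foldl δ y = z := by
    intro w
    induction w with
    | nil =>
      intro y
      rw [List.foldl_nil, List.foldl_nil, Option.some.injEq]
      exact ⟨fun h => by rw [h], fun h => Subtype.ext h⟩
    | cons a w ih =>
      intro y
      rw [List.foldl_cons, List.foldl_cons, H550.off_some]
      change w.foldl (H550.off (dC δ (Cmp δ p)))
        (if h : δ y a ∈ Cmp δ p then some ⟨δ y a, h⟩ else none) = some ⟨z, hz⟩ ↔ _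
      by_cases h : δ y a ∈ Cmp δ p
      · rw [dif_pos h]
        exact ih ⟨δ y a, h⟩
      · rw [dif_neg h, H550.off_none]
        constructor
        · intro h2; exact absurd h2 (by simp)
        · intro h2
          exfalso
          refine h ⟨y.2.1.trans (Rch.step _ _), ?_⟩
          exact Rch.trans (δ := δ) ⟨w, h2⟩ hz.2
  refine Eq.mp (congrArg (SH (n + 1)) ?_) h1
  ext w
  exact key w ⟨p, hpp⟩

end Vale.Agent.P329.H81
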