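import Vale.Agent.P329.H81.Sym

/-!
P329: counting factors `b x c`.
-/

set_option linter.all false

namespace Vale.Agent.P329.H81

open Vale.Agent.P329 Vale.Agent.P329.S4 Vale.Agent.P329.H112 Vale.Agent.P329.H157
  Vale.Agent.P329.H647 Vale.Agent.P329.H96 Vale.Agent.P329.H550

section cb

variable {α Q : Type} (δ : Q → α → Option Q) (q0 : Q) (b : α) (t : Q × α)

/-- the places where a block starts -/
def pl (w : List α) : Set (List α) :=
  {u | ∃ x v, u ++ b :: (x ++ t.2 :: v) = w ∧ run δ q0 x = some t.1}

/-- the end of a block -/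
def hdb (q : Q) (w : List α) : Prop := ∃ x v, x ++ t.2 :: v = w ∧ run δ q x = some t.1

theorem pl_cons_eq {w : List α} (h : hdb δ t q0 w) :
    pl δ q0 b t (b :: w) = insert [] ((List.cons b) '' pl δ q0 b t w) := by
  ext u
  constructor
  · rintro ⟨x, v, h1, h2⟩
    cases u with
    | nil => exact Set.mem_insert _ _
    | cons a u =>
      right
      rw [List.cons_append, List.cons.injEq] at h1
      exact ⟨u, ⟨x, v, h1.2, h2⟩, by rw [h1.1]⟩
  · intro hu
    rcases hu with hu | ⟨u', ⟨x, v, h1, h2⟩, rfl⟩
    · obtain ⟨x, v, h1, h2⟩ := h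
      exact ⟨x, v, by rw [hu, h1]; rfl, h2⟩
    · exact ⟨x, v, by rw [List.cons_append, h1], h2⟩

theorem pl_cons_ne {w : List α} {a : α} (h : ¬ (a = b ∧ hdb δ t q0 w)) :
    pl δ q0 b t (a :: w) = (List.cons a) '' pl δ q0 b t w := by
  ext u
  constructor
  · rintro ⟨x, v, h1, h2⟩
    cases u with
    | nil =>
      rw [List.nil_append, List.cons.injEq] at h1
      exact absurd ⟨h1.1.symm, x, v, h1.2, h2⟩ h
    | cons a' u =>
      rw [List.cons_append, List.cons.injEq] at h1
      exact ⟨u, ⟨x, v, h1.2, h2⟩, by rw [h1.1]⟩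
  · rintro ⟨u', ⟨x, v, h1, h2⟩, rfl⟩
    exact ⟨x, v, by rw [List.cons_append, h1], h2⟩

theorem pl_nil : pl δ q0 b t [] = ∅ := by
  ext u
  constructor
  · rintro ⟨x, v, h1, -⟩
    exact absurd h1 (by simp)
  · intro h; exact absurd h id

theorem pl_fin (w : List α) : (pl δ q0 b t w).Finite := by
  induction w with
  | nil => rw [pl_nil]; exact Set.finite_empty
  | cons a w ih =>
    by_cases h : a = b ∧ hdb δ t q0 w
    · obtain ⟨rfl, h⟩ := h
      rw [pl_cons_eq δ q0 a t h]
      exact (ih.image _).insert _
    · rw [pl_cons_ne δ q0 b t h]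
      exact ih.image _

theorem pl_card_eq {w : List α} (h : hdb δ t q0 w) :
    (pl δ q0 b t (b :: w)).ncard = 1 + (pl δ q0 b t w).ncard := by
  rw [pl_cons_eq δ q0 b t h, Set.ncard_insert_of_notMem _ ((pl_fin δ q0 b t w).image _),
    Set.ncard_image_of_injective _ List.cons_injective, Nat.add_comm]
  rintro ⟨u, -, h1⟩
  cases h1

theorem pl_card_ne {w : List α} {a : α} (h : ¬ (a = b ∧ hdb δ t q0 w)) :
    (pl δ q0 b t (a :: w)).ncard = (pl δ q0 b t w).ncard := by
  rw [pl_cons_ne δ q0 b t h, Set.ncard_image_of_injective _ List.cons_injective]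

variable [DecidableEq α] [DecidableEq Q]

open Classical in
theorem blk_card (hb : ∀ q, δ q b = none) (ht : δ t.1 t.2 = none) (w : List α) :
    blk δ q0 b (ind1 t) none w = ((pl δ q0 b t w).ncard : ℤ) ∧
    ∀ q, blk δ q0 b (ind1 t) (some q) w =
      (if hdb δ t q w then 1 else 0) + ((pl δ q0 b t w).ncard : ℤ) := by
  induction w with
  | nil =>
    have h1 : ∀ q, ¬ hdb δ t q [] := by
      rintro q ⟨x, v, h1, -⟩
      exact absurd h1 (by simp)
    refine ⟨?_, fun q => ?_⟩
    · rw [blk, pl_nil, Set.ncard_empty]; rfl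
    · rw [blk, pl_nil, Set.ncard_empty, if_neg (h1 q)]; rfl
  | cons a w ih =>
    obtain ⟨ih1, ih2⟩ := ih
    have e1 : blk δ q0 b (ind1 t) (if a = b then some q0 else none) w =
        ((pl δ q0 b t (a :: w)).ncard : ℤ) := by
      by_cases h : a = b
      · subst h
        rw [if_pos rfl, ih2]
        by_cases h2 : hdb δ t q0 w
        · rw [if_pos h2, pl_card_eq δ q0 a t h2]
          push_cast
          ring
        · rw [if_neg h2, pl_card_ne δ q0 a t fun h3 => h2 h3.2, zero_add]
      · rw [if_neg h, ih1, pl_card_ne δ q0 b t fun h3 => h h3.1]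
    refine ⟨?_, fun q => ?_⟩
    · rw [blk]; exact e1
    · cases h : δ q a with
      | none =>
        have h1 : blk δ q0 b (ind1 t) (some q) (a :: w) = ind1 t q a +
            blk δ q0 b (ind1 t) (if a = b then some q0 else none) w := by
          rw [blk, h]
        rw [h1, e1]
        congr 1
        unfold ind1
        refine if_congr ⟨fun h2 => ?_, fun h2 => ?_⟩ rfl rfl
        · refine ⟨[], w, ?_, ?_⟩
          · rw [← h2]; rfl
          · rw [← h2]; rfl
        · obtain ⟨x, v, h3, h4⟩ := h2
          cases x with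
          | nil =>
            rw [List.nil_append, List.cons.injEq] at h3
            rw [run_nil, Option.some.injEq] at h4
            exact Prod.ext h4 h3.1.symm
          | cons a' x =>
            rw [List.cons_append, List.cons.injEq] at h3
            rw [h3.1, run_cons_none _ h] at h4
            cases h4
      | some q' =>
        have h1 : blk δ q0 b (ind1 t) (some q) (a :: w) =
            blk δ q0 b (ind1 t) (some q') w := by
          rw [blk, h]
        have hab : a ≠ b := by
          rintro rfl
          rw [hb] at h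
          cases h
        rw [h1, ih2, pl_card_ne δ q0 b t fun h3 => hab h3.1]
        congr 1
        refine if_congr ⟨fun h2 => ?_, fun h2 => ?_⟩ rfl rfl
        · obtain ⟨x, v, h3, h4⟩ := h2
          exact ⟨a :: x, v, by rw [List.cons_append, h3], by rw [run_cons_some _ h]; exact h4⟩
        · obtain ⟨x, v, h3, h4⟩ := h2
          cases x with
          | nil =>
            rw [List.nil_append, List.cons.injEq] at h3
            rw [run_nil, Option.some.injEq] at h4
            rw [← h4, h3.1, h] at ht
            cases ht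
          | cons a' x =>
            rw [List.cons_append, List.cons.injEq] at h3
            rw [h3.1, run_cons_some _ h] at h4
            exact ⟨x, v, h3.2, h4⟩

end cb

/-- counting blocks with a partial automaton -/
theorem count_gen {α Q : Type} [Finite α] [Finite Q] [DecidableEq α] [DecidableEq Q]
    (δ : Q → α → Option Q) (q0 : Q) (b : α)
    (hb : ∀ q, δ q b = none) (hc : NoCyc (ein δ q0)) (q : Q) (c : α) (hqc : δ q c = none)
    (K : List α → Prop) (hK : ∀ x, run δ q0 x = some q ↔ K x) (n k : ℕ) (hn : 0 < n) :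
    HeightLe 1 {w : List α |
      {u : List α | ∃ x v, u ++ b :: (x ++ c :: v) = w ∧ K x}.ncard % n = k} := by
  have : NeZero n := ⟨hn.ne'⟩
  have h1 := ind_kn hb hc (q, c) none n hn
  by_cases hk : k < n
  · refine Eq.mp (congrArg (SH 1) ?_) (h1 (k : ZMod n))
    ext w
    simp only [Set.mem_setOf_eq]
    rw [(blk_card δ q0 b (q, c) hb hqc w).1]
    have h2 : pl δ q0 b (q, c) w = {u : List α | ∃ x v, u ++ b :: (x ++ c :: v) = w ∧ K x} := by
      ext u
      exact exists_congr fun x => exists_congr fun v => and_congr_right fun _ => hK x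
    rw [h2, Int.cast_natCast, ZMod.natCast_eq_natCast_iff, Nat.ModEq, Nat.mod_eq_of_lt hk]
  · refine Eq.mp (congrArg (SH 1) ?_) SH.empty
    ext w
    simp only [Set.mem_empty_iff_false, Set.mem_setOf_eq, false_iff]
    intro h2
    have h3 := Nat.mod_lt ({u : List α | ∃ x v, u ++ b :: (x ++ c :: v) = w ∧ K x}.ncard) hn
    omega

section tot

variable {α Q : Type} (I : Set α) (δ : Q → α → Q) (q0 : Q)

open Classical in
/-- the automaton restricted to the letters in `I` -/
noncomputable def pI (q : Q) (a : α) : Option Q := if a ∈ I then some (δ q a) else none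

theorem pI_run (w : List α) : ∀ q q' : Q, run (pI I δ) q w = some q' ↔
    (∀ a ∈ w, a ∈ I) ∧ w.foldl δ q = q' := by
  classical
  induction w with
  | nil =>
    intro q q'
    rw [run_nil, Option.some.injEq]
    exact ⟨fun h => ⟨fun a ha => absurd ha (by simp), h⟩, fun h => h.2⟩
  | cons a w ih =>
    intro q q'
    by_cases h : a ∈ I
    · have h1 : pI I δ q a = some (δ q a) := if_pos h
      rw [run_cons_some _ h1, ih, List.foldl_cons]
      exact ⟨fun h2 => ⟨fun a' ha' => by
        rcases List.mem_cons.1 ha' with h3 | h3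
        · rw [h3]; exact h
        · exact h2.1 a' h3, h2.2⟩, fun h2 => ⟨fun a' ha' => h2.1 a' (List.mem_cons_of_mem _ ha'),
          h2.2⟩⟩
    · have h1 : pI I δ q a = none := if_neg h
      rw [run_cons_none _ h1]
      constructor
      · intro h2; cases h2
      · intro h2; exact absurd (h2.1 a List.mem_cons_self) h

theorem pI_ein [DecidableEq Q] (w : List α) : ∀ q q' : Q, run (ein (pI I δ) q0) q w = some q' →
    (∀ a ∈ w, a ∈ I) ∧ (∀ p, p <+: w → p ≠ [] → p.foldl δ q ≠ q0) ∧ w.foldl δ q = q' := by
  classical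
  induction w with
  | nil =>
    intro q q' h
    rw [run_nil, Option.some.injEq] at h
    exact ⟨fun a ha => absurd ha (by simp), fun p hp hp' => absurd (List.prefix_nil.1 hp) hp', h⟩
  | cons a w ih =>
    intro q q' h
    obtain ⟨q1, h1, h2⟩ := run_cons_eq_some h
    have h3 : a ∈ I ∧ δ q a ≠ q0 ∧ q1 = δ q a := by
      unfold ein at h1
      by_cases h3 : a ∈ I
      · have h4 : pI I δ q a = some (δ q a) := if_pos h3
        rw [h4] at h1
        change (if δ q a = q0 then none else some (δ q a)) = some q1 at h1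
        by_cases h5 : δ q a = q0
        · rw [if_pos h5] at h1; cases h1
        · rw [if_neg h5] at h1
          exact ⟨h3, h5, (Option.some.inj h1).symm⟩
      · have h4 : pI I δ q a = none := if_neg h3
        rw [h4] at h1
        cases h1
    obtain ⟨h3, h4, rfl⟩ := h3
    obtain ⟨g1, g2, g3⟩ := ih _ _ h2
    refine ⟨fun a' ha' => ?_, fun p hp hp' => ?_, g3⟩
    · rcases List.mem_cons.1 ha' with h5 | h5
      · rw [h5]; exact h3
      · exact g1 a' h5
    · cases p with
      | nil => exact absurd rfl hp'
      | cons a' p =>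
        obtain ⟨rfl, hp2⟩ := List.cons_prefix_cons.1 hp
        rw [List.foldl_cons]
        cases p with
        | nil => exact h4
        | cons a'' p => exact g2 _ hp2 (by simp)

end tot

/-- **Counting factors `b x c`.** -/
theorem count_fac {α Q : Type} [Finite α] [Finite Q] (I : Set α) (b c : α) (hb : b ∉ I)
    (hc : c ∉ I) (δ : Q → α → Q) (q0 q : Q)
    (hcl : ∀ (v : List α) (s : Q) (n : ℕ), (∀ a ∈ v, a ∈ I) → 0 < n →
      (∀ p, p <+: (List.replicate n v).flatten → p ≠ [] → p.foldl δ s ≠ q0) →
        (List.replicate n v).flatten.foldl δ s = s → v.foldl δ s = s)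
    (n k : ℕ) (hn : 0 < n) :
    HeightLe 1 {w : List α | {u : List α | ∃ x v, u ++ b :: (x ++ c :: v) = w ∧
      (∀ a ∈ x, a ∈ I) ∧ x.foldl δ q0 = q}.ncard % n = k} := by
  classical
  refine count_gen (pI I δ) q0 b (fun q => if_neg hb) ?_ q c (if_neg hc) _
    (fun x => pI_run I δ x q0 q) n k hn
  intro z s m hm h
  obtain ⟨h1, h2, h3⟩ := pI_ein I δ q0 _ _ _ h
  obtain ⟨j, rfl⟩ : ∃ j, m = j + 1 := ⟨m - 1, by omega⟩
  have h4 := h
  rw [List.replicate_succ, List.flatten_cons] at h4
  obtain ⟨s', h5, -⟩ := run_append_eq_some h4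
  have h6 := pI_ein I δ q0 _ _ _ h5
  have h7 := hcl z s (j + 1) h6.1 hm h2 h3
  rw [h5, ← h6.2.2, h7]

/-- **Counting factors `b x c` with a given sum of weights of the letters of `x`.** -/
theorem count_wt {α : Type} [Finite α] (I : Set α) (b c : α) (hb : b ∉ I) (hc : c ∉ I) (m : ℕ)
    (hm : 0 < m) (wt : α → ℕ) (hwt : (∀ a ∈ I, wt a ≤ 1) ∨ m.Prime)
    (r n k : ℕ) (hn : 0 < n) :
    HeightLe 1 {w : List α | {u : List α | ∃ x v, u ++ b :: (x ++ c :: v) = w ∧
      (∀ a ∈ x, a ∈ I) ∧ (x.map wt).sum % m = r}.ncard % n = k} := by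
  classical
  have : NeZero m := ⟨hm.ne'⟩
  by_cases hr : r < m
  · let κ : α → Option ℕ := fun a => if a ∈ I then some (wt a) else none
    have hκ0 : ∀ a, a ∈ I → κ a = some (wt a) := fun a h => if_pos h
    have hκ1 : ∀ a, a ∉ I → κ a = none := fun a h => if_neg h
    have h1 : NoCyc (ein (dm κ m) 0) := by
      refine dm_clean κ m hm ?_
      rcases hwt with h | h
      · refine Or.inl fun a j hj => ?_
        by_cases ha : a ∈ I
        · rw [hκ0 a ha] at hj
          cases hj
          exact h a ha
        · rw [hκ1 a ha] at hj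
          cases hj
      · exact Or.inr h
    have hrun : ∀ (x : List α) (s s' : ZMod m), run (dm κ m) s x = some s' ↔
        (∀ a ∈ x, a ∈ I) ∧ s + (((x.map wt).sum : ℕ) : ZMod m) = s' := by
      intro x
      induction x with
      | nil =>
        intro s s'
        rw [run_nil, Option.some.injEq, List.map_nil, List.sum_nil, Nat.cast_zero, add_zero]
        exact ⟨fun h => ⟨fun a ha => absurd ha (by simp), h⟩, fun h => h.2⟩
      | cons a x ih =>
        intro s s'
        by_cases h : a ∈ I
        · have h2 : dm κ m s a = some (s + (wt a : ZMod m)) := by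
            unfold dm
            rw [hκ0 a h]
          rw [run_cons_some _ h2, ih, List.map_cons, List.sum_cons, Nat.cast_add, add_assoc]
          exact ⟨fun h3 => ⟨fun a' ha' => by
            rcases List.mem_cons.1 ha' with h4 | h4
            · rw [h4]; exact h
            · exact h3.1 a' h4, h3.2⟩,
            fun h3 => ⟨fun a' ha' => h3.1 a' (List.mem_cons_of_mem _ ha'), h3.2⟩⟩
        · have h2 : dm κ m s a = none := by
            unfold dm
            rw [hκ1 a h]
          rw [run_cons_none _ h2]
          constructor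
          · intro h3; cases h3
          · intro h3; exact absurd (h3.1 a List.mem_cons_self) h
    refine count_gen (dm κ m) 0 b (fun q => by unfold dm; rw [hκ1 b hb]) h1 (r : ZMod m) c
      (by unfold dm; rw [hκ1 c hc]) _ (fun x => ?_) n k hn
    rw [hrun, zero_add, ZMod.natCast_eq_natCast_iff, Nat.ModEq, Nat.mod_eq_of_lt hr]
  · -- no word
    have h1 : ∀ w : List α, {u : List α | ∃ x v, u ++ b :: (x ++ c :: v) = w ∧
        (∀ a ∈ x, a ∈ I) ∧ (x.map wt).sum % m = r} = ∅ := by
      intro w
      ext u
      constructor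
      · rintro ⟨x, v, -, -, h2⟩
        have h3 := Nat.mod_lt (x.map wt).sum hm
        exact absurd (by omega) hr
      · intro h; exact absurd h id
    by_cases hk : k = 0
    · refine Eq.mp (congrArg (SH 1) ?_) SH.univ
      ext w
      simp only [Set.mem_univ, Set.mem_setOf_eq, true_iff]
      rw [h1, Set.ncard_empty, Nat.zero_mod, hk]
    · refine Eq.mp (congrArg (SH 1) ?_) SH.empty
      ext w
      simp only [Set.mem_empty_iff_false, Set.mem_setOf_eq, false_iff]
      rw [h1, Set.ncard_empty, Nat.zero_mod]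
      exact fun h => hk h.symm

end Vale.Agent.P329.H81
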