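import Vale.Agent.P329.H81.Over

/-!
P329: automata whose components are small or covered by automata of height one.
-/

set_option linter.all false

namespace Vale.Agent.P329.H81

open Vale.Agent.P329 Vale.Agent.P329.S4 Vale.Agent.P329.H112 Vale.Agent.P329.H157
  Vale.Agent.P329.H647 Vale.Agent.P329.H96 Vale.Agent.P329.H550

/-- The set `C` of states, with the letters where they do not lead out of `C`, is covered by an
automaton for which the languages of all words leading from one state to another have generalized
star height at most `h`. -/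
def Covered {α σ : Type} (h : ℕ) (δ : σ → α → σ) (C : Set σ) : Prop :=
  ∃ (Y : Type) (_ : Finite Y) (γ : Y → α → Y) (e : Y → σ), ReachLe h γ ∧
    (∀ x ∈ C, ∃ y, e y = x) ∧
      ∀ y a, e y ∈ C → δ (e y) a ∈ C → e (γ y a) = δ (e y) a

/-- a component with a cover -/
theorem comp_cover {α X : Type} [Finite α] [Finite X] {h : ℕ} (δ : X → α → X) (p z : X)
    (hz : z ∈ Cmp δ p) (hC : Covered h δ (Cmp δ p)) :
    SH h {w : List α | w.foldl δ p = z} := by
  classical
  obtain ⟨Y, i1, γ, e, hγ, hs, he⟩ := hC
  have hpp : p ∈ Cmp δ p := ⟨Rch.refl δ p, Rch.refl δ p⟩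
  obtain ⟨y0, hy0⟩ := hs p hpp
  let D : Option Y → α → Option Y := fun o a =>
    o.bind fun y => if δ (e y) a ∈ Cmp δ p then some (γ y a) else none
  have h1 : ∀ x y, SH h {w : List α | w.foldl (H550.off D) (some x) = some y} := fun x y =>
    off_sh D γ (by
      intro x a y h
      change (if δ (e x) a ∈ Cmp δ p then some (γ x a) else none) = some y at h
      by_cases h2 : δ (e x) a ∈ Cmp δ p
      · rw [if_pos h2] at h
        exact Option.some.inj h
      · rw [if_neg h2] at h
        cases h) hγ x y
  have key : ∀ (w : List α) (y : Y), e y ∈ Cmp δ p →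
      ((∃ y', e y' = z ∧ w.foldl (H550.off D) (some y) = some y') ↔ w.foldl δ (e y) = z) := by
    intro w
    induction w with
    | nil =>
      intro y hy
      constructor
      · rintro ⟨y', h2, h3⟩
        rw [List.foldl_nil, Option.some.injEq] at h3
        rw [List.foldl_nil, h3, h2]
      · intro h2
        exact ⟨y, h2, rfl⟩
    | cons a w ih =>
      intro y hy
      rw [List.foldl_cons, List.foldl_cons, H550.off_some]
      change (∃ y', e y' = z ∧ w.foldl (H550.off D)
        (if δ (e y) a ∈ Cmp δ p then some (γ y a) else none) = some y') ↔ _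
      by_cases h : δ (e y) a ∈ Cmp δ p
      · rw [if_pos h]
        have h3 := he y a hy h
        rw [← h3]
        exact ih (γ y a) (by rw [h3]; exact h)
      · rw [if_neg h, H550.off_none]
        constructor
        · rintro ⟨y', -, h2⟩
          exact absurd h2 (by simp)
        · intro h2
          exfalso
          refine h ⟨hy.1.trans (Rch.step _ _), ?_⟩
          exact Rch.trans (δ := δ) ⟨w, h2⟩ hz.2
  have h2 : SH h (⋃ y : Y, ⋃ _ : e y = z,
      {w : List α | w.foldl (H550.off D) (some y0) = some y}) :=
    SH.iUnion fun y => SH.iUnion_prop fun _ => h1 y0 y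
  refine Eq.mp (congrArg (SH h) ?_) h2
  ext w
  simp only [Set.mem_iUnion, exists_prop, Set.mem_setOf_eq]
  rw [key w y0 (by rw [hy0]; exact hpp), hy0]

/-- **Small and covered components.** -/
theorem small_cover {α X : Type} [Finite α] [Finite X] (δ : X → α → X)
    (h : ∀ p, SmallFor δ (Cmp δ p) ∨ Covered 1 δ (Cmp δ p)) (p q : X) :
    SH 1 {w : List α | w.foldl δ p = q} := by
  refine scc_sh δ (fun p z hz => ?_) _ p q le_rfl
  rcases h p with (h | h | ⟨f, g, h1, h2⟩ | ⟨f, h1⟩ | h1) | h
  · exact comp_sh δ 0 p z hz h
  · exact four_comp δ p z hz h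
  · refine comp_two δ p z hz f g h1 ?_
    rcases h2 with h2 | ⟨h2, h3, h4⟩ | h2
    · exact am_four h2 _ _
    · exact am_one _ h2 f g h3 h4
    · exact am_affine _ f g h2
  · exact comp_one δ p z hz f h1
  · exact comp_sym δ p z hz h1
  · exact comp_cover δ p z hz h

/-- **Two letters: components of bounded size or covered.** -/
theorem two_cover {α X : Type} [Finite α] [Finite X] (hα : Nat.card α ≤ 2) (n : ℕ)
    (δ : X → α → X) (hC : ∀ p, (Cmp δ p).ncard ≤ n + 4 ∨ Covered (n + 1) δ (Cmp δ p)) (p q : X) :
    SH (n + 1) {w : List α | w.foldl δ p = q} := by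
  refine scc_sh δ (fun p z hz => ?_) _ p q le_rfl
  classical
  rcases hC p with hC | hC
  · have hpp : p ∈ Cmp δ p := ⟨Rch.refl δ p, Rch.refl δ p⟩
    have hcard : Nat.card (Cmp δ p) ≤ n + 4 := hC
    have h1 := off_sh (h := n + 1) (dC δ (Cmp δ p)) (eC δ (Cmp δ p)) (by
        intro x a y h
        change (if h : δ x a ∈ Cmp δ p then some ⟨δ x a, h⟩ else none) = some y at h
        unfold eC
        split_ifs at h ⊢ with h2
        · exact Option.some.inj h) (fun x y => two_states hα n _ hcard _ x y) ⟨p, hpp⟩ ⟨z, hz⟩
    have key : ∀ (w : List α) (y : Cmp δ p), w.foldl (H550.off (dC δ (Cmp δ p))) (some y) =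
        some ⟨z, hz⟩ ↔ w.foldl δ y = z := by
      intro w
      induction w with
      | nil =>
        intro y
        rw [List.foldl_nil, List.foldl_nil, Option.some.injEq]
        exact ⟨fun h => by rw [h], fun h => Subtype.ext h⟩
      | cons a w ih =>
        intro y
        rw [List.foldl_cons, List.foldl_cons, H550.off_some]
        change w.foldl (H550.off (dC δ (Cmp δ p)))
          (if h : δ y a ∈ Cmp δ p then some ⟨δ y a, h⟩ else none) = some ⟨z, hz⟩ ↔ _
        by_cases h : δ y a ∈ Cmp δ p
        · rw [dif_pos h]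
          exact ih ⟨δ y a, h⟩
        · rw [dif_neg h, H550.off_none]
          constructor
          · intro h2; exact absurd h2 (by simp)
          · intro h2
            exfalso
            refine h ⟨y.2.1.trans (Rch.step _ _), ?_⟩
            exact Rch.trans (δ := δ) ⟨w, h2⟩ hz.2
    refine Eq.mp (congrArg (SH (n + 1)) ?_) h1
    ext w
    exact key w ⟨p, hpp⟩
  · exact comp_cover δ p z hz hC

end Vale.Agent.P329.H81
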