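import Vale.Agent.P329.H81.Code

/-!
P329: automata with four states over two letters, the easy pairs: one state can be removed, or
both maps are affine, or the automaton is not strongly connected.
-/

set_option linter.all false

namespace Vale.Agent.P329.H81

open Vale.Agent.P329 Vale.Agent.P329.S4 Vale.Agent.P329.H112 Vale.Agent.P329.H157
  Vale.Agent.P329.H647 Vale.Agent.P329.H96 Vale.Agent.P329.H550

/-- sets of codes of partial maps of three points, closed and aperiodic -/
def msk : List ℕ :=
  [18427040523362078729, 18230005032917446841, 18300902450261957017, 18428128919344945417,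
   18210829083321415865, 18374122365259919369, 18228879078523449529, 18282887814451927449,
   18446181113566105609]

/-- the points renamed such that `r` becomes `3` -/
def rot (r c : ℕ) : ℕ :=
  (dg 4 c ((1 + r) % 4) + 3 - r) % 4 + 4 * ((dg 4 c ((2 + r) % 4) + 3 - r) % 4) +
    16 * ((dg 4 c ((3 + r) % 4) + 3 - r) % 4) + 64 * ((dg 4 c ((4 + r) % 4) + 3 - r) % 4)

/-- the sum of the four values is zero -/
def xzb (c : ℕ) : Bool := (dg 4 c 0 ^^^ (dg 4 c 1 ^^^ (dg 4 c 2 ^^^ dg 4 c 3))) == 0

/-- the set `S` of points is closed -/
def cls (S c : ℕ) : Bool := (List.range 4).all fun s => !S.testBit s || S.testBit (dg 4 c s)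

/-- the properties of the letters -/
def pr (k c : ℕ) : Bool :=
  if k < 36 then (msk.getD (k % 9) 0).testBit (rot (k / 9) c % 64)
  else if k = 36 then xzb c else cls (k - 36) c

set_option maxRecDepth 100000 in
theorem msk_ok : (msk.all fun m => (List.range 64).all fun e => !m.testBit e ||
    (apc 4 (e + 192) && (List.range 64).all fun f => !m.testBit f ||
      (Nat.ble 192 (ml 4 (e + 192) (f + 192) 4) &&
        m.testBit (ml 4 (e + 192) (f + 192) 4 - 192)))) = true := by
  decide +kernel

theorem dg4 (p q r s k : ℕ) (hp : p < 4) (hq : q < 4) (hr : r < 4) (hs : s < 4) :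
    dg 4 (p + 4 * q + 16 * r + 64 * s) 0 = p ∧ dg 4 (p + 4 * q + 16 * r + 64 * s) 1 = q ∧
    dg 4 (p + 4 * q + 16 * r + 64 * s) 2 = r ∧ dg 4 (p + 4 * q + 16 * r + 64 * s) 3 = s := by
  unfold dg
  norm_num
  omega

theorem rot_dg (r c x : ℕ) (hr : r < 4) (hx : x < 4) :
    dg 4 (rot r c) ((x + 3 - r) % 4) = (dg 4 c x + 3 - r) % 4 := by
  have h1 := dg4 ((dg 4 c ((1 + r) % 4) + 3 - r) % 4) ((dg 4 c ((2 + r) % 4) + 3 - r) % 4)
    ((dg 4 c ((3 + r) % 4) + 3 - r) % 4) ((dg 4 c ((4 + r) % 4) + 3 - r) % 4) 0
    (Nat.mod_lt _ (by omega)) (Nat.mod_lt _ (by omega)) (Nat.mod_lt _ (by omega))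
    (Nat.mod_lt _ (by omega))
  change dg 4 (_ + 4 * _ + 16 * _ + 64 * _) _ = _
  obtain ⟨y, hy⟩ : ∃ y, y = (x + 3 - r) % 4 := ⟨_, rfl⟩
  rw [← hy]
  have hy4 : y < 4 := by omega
  have hxy : x = (y + 1 + r) % 4 := by omega
  match y, hy4, hxy with
  | 0, _, hxy => rw [h1.1, hxy]
  | 1, _, hxy => rw [h1.2.1, hxy]
  | 2, _, hxy => rw [h1.2.2.1, hxy]
  | 3, _, hxy => rw [h1.2.2.2, hxy]

theorem rot_gd (r a b : ℕ) (hr : r < 4) (h : Gd 4 (rot r a) (rot r b)) : Gd 4 a b := by
  refine gd_iso 4 a b _ _ (fun x => ⟨(x.val + 3 - r) % 4, Nat.mod_lt _ (by omega)⟩)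
    (fun y => ⟨(y.val + 1 + r) % 4, Nat.mod_lt _ (by omega)⟩) (fun x => ?_) (fun x => ?_)
    (fun x => ?_) h
  · apply Fin.ext
    change ((x.val + 3 - r) % 4 + 1 + r) % 4 = x.val
    have := x.isLt
    omega
  · apply Fin.ext
    exact (rot_dg r a x.val hr x.isLt).symm
  · apply Fin.ext
    exact (rot_dg r b x.val hr x.isLt).symm

theorem dg_off (c x : ℕ) (hx : x < 3) : dg 4 (c % 64 + 192) x = dg 4 c x := by
  unfold dg
  match x, hx with
  | 0, _ => norm_num; omega
  | 1, _ => norm_num; omega
  | 2, _ => norm_num; omega

theorem dg_off3 (c : ℕ) : dg 4 (c % 64 + 192) 3 = 3 := by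
  unfold dg
  norm_num
  omega

/-- removing the state three -/
theorem msk_gd (m a b : ℕ) (hm : m ∈ msk) (ha : m.testBit (a % 64) = true)
    (hb : m.testBit (b % 64) = true) : Gd 4 a b := by
  have h0 := List.all_eq_true.1 msk_ok m hm
  rw [List.all_eq_true] at h0
  have h1 : ∀ e, e < 64 → m.testBit e = true → apc 4 (e + 192) = true ∧
      ∀ f, f < 64 → m.testBit f = true → 192 ≤ ml 4 (e + 192) (f + 192) 4 ∧
        m.testBit (ml 4 (e + 192) (f + 192) 4 - 192) = true := by
    intro e he hme
    have h2 := h0 e (List.mem_range.2 he)
    rw [hme] at h2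
    simp only [Bool.not_true, Bool.false_or, Bool.and_eq_true, List.all_eq_true] at h2
    refine ⟨h2.1, fun f hf hmf => ?_⟩
    have h3 := h2.2 f (List.mem_range.2 hf)
    rw [hmf] at h3
    simp only [Bool.not_true, Bool.false_or, Bool.and_eq_true] at h3
    exact ⟨Nat.le_of_ble_eq_true h3.1, h3.2⟩
  have h64 : ∀ c, c % 64 < 64 := fun c => Nat.mod_lt _ (by omega)
  refine flat_gd 4 a b (a % 64 + 192) (b % 64 + 192) 3 (fun x hx => ?_)
    ⟨Fin.ext (dg_off3 a), Fin.ext (dg_off3 b)⟩
    (fun c => ∃ e, e < 64 ∧ c = e + 192 ∧ m.testBit e = true)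
    ⟨_, h64 a, rfl, ha⟩ ⟨_, h64 b, rfl, hb⟩ ?_ ?_
  · have hx3 : x.val < 3 := by
      have h4 := x.isLt
      have h5 : x.val ≠ 3 := fun h => hx (Fin.ext h)
      omega
    exact ⟨Fin.ext (dg_off a _ hx3), Fin.ext (dg_off b _ hx3)⟩
  · rintro c ⟨e, he, rfl, hme⟩
    have h2 : ∀ f, f < 64 → m.testBit f = true →
        ∃ e', e' < 64 ∧ ml 4 (e + 192) (f + 192) 4 = e' + 192 ∧ m.testBit e' = true := by
      intro f hf hmf
      obtain ⟨h3, h4⟩ := (h1 e he hme).2 f hf hmf
      have h5 := ml_lt (B := 4) (by omega) (e + 192) (f + 192) 4
      exact ⟨_, by omega, by omega, h4⟩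
    exact ⟨h2 _ (h64 a) ha, h2 _ (h64 b) hb⟩
  · rintro c ⟨e, he, rfl, hme⟩
    exact (h1 e he hme).1

theorem xor_c4 : ∀ p q r s : Fin 4, (p.val ^^^ (q.val ^^^ (r.val ^^^ s.val))) = 0 →
    c4 p + c4 q + c4 r + c4 s = 0 := by
  set_option maxRecDepth 100000 in decide

theorem xz_gd (a b : ℕ) (ha : xzb a = true) (hb : xzb b = true) : Gd 4 a b := by
  refine fun x y => xz_sh (au 4 a b) (fun l => ?_) x y
  unfold Xz
  match l with
  | none => exact (by decide : c4 0 + c4 1 + c4 2 + c4 3 = 0)
  | some true => exact xor_c4 _ _ _ _ (beq_iff_eq.1 ha)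
  | some false => exact xor_c4 _ _ _ _ (beq_iff_eq.1 hb)

theorem cls_gd (a b S : ℕ) (h0 : ∃ x < 4, S.testBit x = true) (h1 : ∃ x < 4, S.testBit x = false)
    (ha : cls S a = true) (hb : cls S b = true) : Gd 4 a b := by
  have hcl : ∀ (w : List (Option Bool)) (x : Fin 4), S.testBit x.val = true →
      S.testBit (w.foldl (au 4 a b) x).val = true := by
    intro w
    induction w with
    | nil => intro x hx; exact hx
    | cons l w ih =>
      intro x hx
      rw [List.foldl_cons]
      apply ih
      have h2 : ∀ c, cls S c = true → S.testBit (dg 4 c x.val) = true := by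
        intro c hc
        have h3 := List.all_eq_true.1 hc x.val (List.mem_range.2 x.isLt)
        rw [hx] at h3
        simpa using h3
      match l with
      | none => exact hx
      | some true => exact h2 a ha
      | some false => exact h2 b hb
  obtain ⟨x, hx, hx1⟩ := h0
  obtain ⟨y, hy, hy1⟩ := h1
  intro p q
  refine small_sh (au 4 a b) 0 (fun p => ?_) p q
  by_contra h2
  have h3 : (Cmp (au 4 a b) p).ncard = 4 := by
    have h4 := Set.ncard_le_card (Cmp (au 4 a b) p)
    rw [Nat.card_eq_fintype_card, Fintype.card_fin] at h4
    omega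
  have h5 : Cmp (au 4 a b) p = Set.univ := by
    refine Set.eq_of_subset_of_ncard_le (Set.subset_univ _) ?_ (Set.toFinite _)
    rw [Set.ncard_univ, Nat.card_eq_fintype_card, Fintype.card_fin, h3]
  have h6 : (⟨x, hx⟩ : Fin 4) ∈ Cmp (au 4 a b) p := by rw [h5]; trivial
  have h7 : (⟨y, hy⟩ : Fin 4) ∈ Cmp (au 4 a b) p := by rw [h5]; trivial
  obtain ⟨w, hw⟩ := Rch.trans (δ := au 4 a b) h6.2 h7.1
  have h8 := hcl w ⟨x, hx⟩ hx1
  rw [hw] at h8
  change S.testBit y = true at h8
  rw [hy1] at h8
  exact absurd h8 (by simp)

/-- **The easy pairs.** -/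
theorem pr_gd (a b k : ℕ) (hk : k < 51) (ha : pr k a = true) (hb : pr k b = true) :
    Gd 4 a b := by
  unfold pr at ha hb
  by_cases h1 : k < 36
  · rw [if_pos h1] at ha hb
    refine rot_gd (k / 9) a b (by omega) (msk_gd (msk.getD (k % 9) 0) _ _ ?_ ha hb)
    have h2 : k % 9 < msk.length := Nat.mod_lt _ (by decide)
    rw [List.getD_eq_getElem _ _ h2]
    exact List.getElem_mem h2
  · rw [if_neg h1] at ha hb
    by_cases h2 : k = 36
    · rw [if_pos h2] at ha hb
      exact xz_gd a b ha hb
    · rw [if_neg h2] at ha hb
      refine cls_gd a b (k - 36) ?_ ?_ ha hb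
      · have h3 : ∀ j < 15, 0 < j → ∃ x < 4, j.testBit x = true := by decide
        exact h3 _ (by omega) (by omega)
      · have h3 : ∀ j < 15, 0 < j → ∃ x < 4, j.testBit x = false := by decide
        exact h3 _ (by omega) (by omega)

/-- easy pairs, as a test -/
def bas (a b : ℕ) : Bool := (List.range 51).any fun k => pr k a && pr k b

theorem bas_gd (a b : ℕ) (h : bas a b = true) : Gd 4 a b := by
  obtain ⟨k, hk, h1⟩ := List.any_eq_true.1 h
  rw [Bool.and_eq_true] at h1
  exact pr_gd a b k (List.mem_range.1 hk) h1.1 h1.2

/-- the table of the properties -/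
def zt : List (ℕ × ℕ) :=
  [(0, 750691563864063), (1, 150083337453567), (2, 573945203655167), (3, 738940399124991),
   (4, 750857818734591), (5, 150438016450559), (6, 574220040667647), (7, 739175414366719),
   (8, 609285805441023), (9, 8796171141119), (10, 574013923131903), (11, 598155263476223),
   (12, 741276883091455), (13, 140752789438463), (14, 565149006561791), (15, 739009118601727),
   (16, 185424744022015), (17, 150152056930303), (18, 8796227058175), (19, 175942395757055),
   (20, 190175473827839), (21, 154824922890239), (22, 13482532354559), (23, 180663370121727),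
   (24, 48516084792832), (25, 13194217651712), (26, 13194273568768), (27, 39651138076672),
   (28, 176087909531434), (29, 140806073876266), (30, 84318697770), (31, 175990445703466),
   (32, 751706786700287), (33, 151182849022975), (34, 575149136747007), (35, 740024341496319),
   (36, 756395239480319), (37, 155903496494079), (38, 579765648824831), (39, 744781554647551),
   (40, 614886576954367), (41, 14332518145023), (42, 579511347124735), (43, 603700468908543),
   (44, 742376394660710), (45, 141953366956902), (46, 566317103520102), (47, 740039910752614),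
   (48, 739627727995903), (49, 141287244321791), (50, 562990084260351), (51, 739009118601727),
   (52, 739902565008269), (53, 141630783247245), (54, 563341693813133), (55, 739215277031821),
   (56, 598325183005481), (57, 108660151081), (58, 563018672636201), (59, 598202910769449),
   (60, 739146579198975), (61, 140806073766911), (62, 563018568565247), (63, 738940399124991),
   (64, 152488411135999), (65, 150152056930303), (66, 10995146686975), (67, 140806073674239),
   (68, 223160957665279), (69, 220738099347455), (70, 81638872318463), (71, 211409902823935),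
   (72, 11151439822450), (73, 8796227239538), (74, 10995250233458), (75, 89735620722),
   (76, 213511280262656), (77, 211121533615616), (78, 72636486909952), (79, 211174817851392),
   (80, 150308983668735), (81, 150083337453567), (82, 8796123693055), (83, 140758023929855),
   (84, 1351191034068991), (85, 1351162351583231), (86, 1209751224451071),
   (87, 1341747719045119), (88, 1139231579438592), (89, 1139094180593152),
   (90, 1139162900069888), (91, 1130298031734272), (92, 1337172166966784),
   (93, 1337074724896256), (94, 1196284220538368), (95, 1337143444372992), (96, 153572353507030),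
   (97, 151182849081046), (98, 12130360491734), (99, 141958735571670), (100, 1354529565834966),
   (101, 1352172205768406), (102, 1213153106984662), (103, 1342847230520022),
   (104, 1142583398760018), (105, 1140301200621138), (106, 1142461300735570),
   (107, 1131466128468562), (108, 1340579418209792), (109, 1338153298558464),
   (110, 1199635771424256), (111, 1338174236371456), (112, 141493294778012),
   (113, 141287244431004), (114, 108746826908), (115, 140806073876124), (116, 1338036891338380),
   (117, 1337899492572812), (118, 1196591712887948), (119, 1337418392010380),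
   (120, 1126159443740160), (121, 1125939903725056), (122, 1125968626115584),
   (123, 1125968570482176), (124, 1337212163769856), (125, 1337143444372992),
   (126, 1196337236337664), (127, 1337074724896256), (128, 574700983817727),
   (129, 9345848989183), (130, 574013923131903), (131, 563018578788863), (132, 574935999059157),
   (133, 9631866705109), (134, 574220081561813), (135, 563322376945877), (136, 574170152703487),
   (137, 8796227130879), (138, 573945203655167), (139, 562971025342975), (140, 565355057124468),
   (141, 84061344884), (142, 565149110632564), (143, 563018672636020), (144, 9502883518105),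
   (145, 9345849097881), (146, 8796227239577), (147, 89294975641), (148, 1140084841584273),
   (149, 1139987399573137), (150, 1139451199749777), (151, 1130641520145041),
   (152, 1139231619487232), (153, 1139162900069888), (154, 1139094180593152),
   (155, 1130298087387648), (156, 1126134709949952), (157, 1125968533257728),
   (158, 1125915610316288), (159, 1125968626135552), (160, 857328622442495),
   (161, 291920337436671), (162, 856555394170879), (163, 845577497945087),
   (164, 1987848303482581), (165, 1422609669422805), (166, 1987140573462229),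
   (167, 1976165961900757), (168, 1987008368941055), (169, 1421707457855487),
   (170, 1986954950344703), (171, 1975891114402815), (172, 1973829452371556),
   (173, 1408522083630692), (174, 1973692091334244), (175, 1971561787368036),
   (176, 845180844113920), (177, 282093452001280), (178, 844465060970496),
   (179, 844493555499008), (180, 1971424348340224), (181, 1408268236488704),
   (182, 1970647898783744), (183, 1970668403687424), (184, 1970515694321664),
   (185, 1407414880174080), (186, 1970393556189184), (187, 1970462275665920),
   (188, 1970530917285888), (189, 1407443509706752), (190, 1970462275665920),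
   (191, 1970393556189184), (192, 768214952234495), (193, 167675523419647),
   (194, 591537311580671), (195, 756601342708223), (196, 838818789772799),
   (197, 238330255429119), (198, 662249731260927), (199, 827136448186879),
   (200, 626877991406947), (201, 26457102798179), (202, 591537389699427), (203, 615747583527267),
   (204, 829306567314943), (205, 228713756282367), (206, 653110040855039),
   (207, 826901463353855), (208, 203016851947403), (209, 167675523497867), (210, 26457054489995),
   (211, 193534620073867), (212, 1403967632310155), (213, 1368685788266379),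
   (214, 1227343410343307), (215, 1394593030471563), (216, 1192076897156608),
   (217, 1156686336753152), (218, 1156686366485504), (219, 1183074645704192),
   (220, 1389948781199114), (221, 1354735667117834), (222, 1213876540386570),
   (223, 1389851416985354), (224, 1050773871394815), (225, 450318731313151),
   (226, 874147501944319), (227, 1039091542371327), (228, 2251799813685247),
   (229, 1651239338639359), (230, 2075101503532543), (231, 2240048752602111),
   (232, 2039784927133539), (233, 1439299614015331), (234, 2004478416760163),
   (235, 2028736392047459), (236, 2237712243097446), (237, 1637220498014054),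
   (238, 2061721740881254), (239, 2235375858592614), (240, 1038763532142591),
   (241, 440354407186431), (242, 862057168938495), (243, 1038007600152575),
   (244, 2235238419711885), (245, 1637035344920461), (246, 2058608829048205),
   (247, 2234551194615693), (248, 2023292252636961), (249, 1425007036596001),
   (250, 1988054461752609), (251, 2023170114584353), (252, 2234413708134399),
   (253, 1636141924351999), (254, 2058354486453759), (255, 2234345066594303)]

set_option maxRecDepth 100000 in
theorem zt_ok : (zt.all fun p => Nat.blt p.2 (2 ^ 51) &&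
    (List.range 51).all fun k => !p.2.testBit k || pr k p.1) = true := by
  decide +kernel

set_option maxRecDepth 100000 in
theorem zt_fst : zt.map Prod.fst = List.range 256 := by
  decide +kernel

theorem zt_gd (p q : ℕ × ℕ) (hp : p ∈ zt) (hq : q ∈ zt) (h : p.2 &&& q.2 ≠ 0) :
    Gd 4 p.1 q.1 := by
  have h1 : ∀ p ∈ zt, p.2 < 2 ^ 51 ∧ ∀ k, k < 51 → p.2.testBit k = true → pr k p.1 = true := by
    intro p hp
    have h2 := List.all_eq_true.1 zt_ok p hp
    rw [Bool.and_eq_true, List.all_eq_true] at h2
    refine ⟨Nat.le_of_ble_eq_true h2.1, fun k hk h3 => ?_⟩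
    have h4 := h2.2 k (List.mem_range.2 hk)
    rw [h3] at h4
    simpa using h4
  obtain ⟨k, hk⟩ := Nat.exists_testBit_of_ne_zero h
  rw [Nat.testBit_and, Bool.and_eq_true] at hk
  have hk51 : k < 51 := by
    by_contra h2
    have h3 := Nat.testBit_lt_two_pow (x := p.2) (i := k)
      (lt_of_lt_of_le (h1 p hp).1 (Nat.pow_le_pow_right (by omega) (by omega)))
    rw [hk.1] at h3
    exact absurd h3 (by simp)
  exact pr_gd _ _ k hk51 ((h1 p hp).2 k hk51 hk.1) ((h1 q hq).2 k hk51 hk.2)

end Vale.Agent.P329.H81
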