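import Vale.Agent.P329.H81.Five

/-!
P329: five states: from codes to maps.
-/

set_option linter.all false

namespace Vale.Agent.P329.H81

open Vale.Agent.P329 Vale.Agent.P329.S4 Vale.Agent.P329.H112 Vale.Agent.P329.H157
  Vale.Agent.P329.H647 Vale.Agent.P329.H96 Vale.Agent.P329.H550


/-- the code of a map -/
def cod5 (f : Fin 5 → Fin 5) : ℕ :=
  (f 0).val + 5 * (f 1).val + 25 * (f 2).val + 125 * (f 3).val + 625 * (f 4).val

theorem dg5 (p q r s t : ℕ) (hp : p < 5) (hq : q < 5) (hr : r < 5) (hs : s < 5) (ht : t < 5) :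
    dg 5 (p + 5 * q + 25 * r + 125 * s + 625 * t) 0 = p ∧
    dg 5 (p + 5 * q + 25 * r + 125 * s + 625 * t) 1 = q ∧
    dg 5 (p + 5 * q + 25 * r + 125 * s + 625 * t) 2 = r ∧
    dg 5 (p + 5 * q + 25 * r + 125 * s + 625 * t) 3 = s ∧
    dg 5 (p + 5 * q + 25 * r + 125 * s + 625 * t) 4 = t := by
  unfold dg
  norm_num
  omega

theorem ev_cod5 (f : Fin 5 → Fin 5) (x : Fin 5) : ev 5 (cod5 f) x = f x := by
  have h2 := dg5 (f 0).val (f 1).val (f 2).val (f 3).val (f 4).val (f 0).isLt (f 1).isLt
    (f 2).isLt (f 3).isLt (f 4).isLt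
  apply Fin.ext
  change dg 5 (cod5 f) x.val = _
  match x with
  | 0 => exact h2.1
  | 1 => exact h2.2.1
  | 2 => exact h2.2.2.1
  | 3 => exact h2.2.2.2.1
  | 4 => exact h2.2.2.2.2

theorem cod5_lt (f : Fin 5 → Fin 5) : cod5 f < 3125 := by
  have e0 := (f 0).isLt
  have e1 := (f 1).isLt
  have e2 := (f 2).isLt
  have e3 := (f 3).isLt
  have e4 := (f 4).isLt
  unfold cod5
  omega

theorem am_of_gd (f g : Fin 5 → Fin 5) (h : Gd 5 (cod5 f) (cod5 g)) : Am f g := by
  have h1 : au 5 (cod5 f) (cod5 g) = am f g := by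
    rw [au_am]
    congr 1
    · funext x; exact ev_cod5 f x
    · funext x; exact ev_cod5 g x
  intro x y
  rw [← h1]
  exact h x y

/-- a permutation with at most one cycle of length at least two, as a test -/
def oc (c : ℕ) : Bool :=
  ((List.range 5).all fun s => (List.range 5).all fun t => s == t || !(dg 5 c s == dg 5 c t)) &&
  (List.range 5).any fun x => (List.range 5).all fun y => dg 5 c y == y ||
    (List.range 5).any fun k => it 5 c k x == y

set_option maxRecDepth 100000 in
theorem oc_ok : ((List.range 3125).all fun c => !oc c || l5.contains c) = true := by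
  decide +kernel

theorem oc_of (f : Fin 5 → Fin 5) (hf : Function.Injective f)
    (h : ∃ x, ∀ y, f y ≠ y → ∃ k : ℕ, f^[k] x = y) : cod5 f ∈ l5 := by
  have he : ∀ (k : ℕ) (x : Fin 5), (f^[k] x).val = it 5 (cod5 f) k x.val := by
    intro k x
    have h1 : f = ev 5 (cod5 f) := funext fun x => (ev_cod5 f x).symm
    rw [← ev_it, ← h1]
  have hd : ∀ x : Fin 5, dg 5 (cod5 f) x.val = (f x).val := fun x =>
    congrArg Fin.val (ev_cod5 f x)
  have hk : ∀ x y : Fin 5, (∃ k : ℕ, f^[k] x = y) → ∃ k < 5, f^[k] x = y := by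
    intro x y hxy
    obtain ⟨k, hk, hmin⟩ : ∃ k, f^[k] x = y ∧ ∀ j < k, f^[j] x ≠ y :=
      ⟨Nat.find hxy, Nat.find_spec hxy, fun j hj => Nat.find_min hxy hj⟩
    refine ⟨k, ?_, hk⟩
    by_contra h5
    have key : ∀ i j, i < j → j ≤ k → f^[i] x = f^[j] x → False := by
      intro i j hij hjk h6
      apply hmin (k - (j - i)) (by omega)
      have e1 : k - (j - i) = (k - j) + i := by omega
      rw [e1, Function.iterate_add_apply, h6, ← Function.iterate_add_apply,
        show k - j + j = k by omega]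
      exact hk
    have h6 : Function.Injective (fun i : Fin (k + 1) => f^[i.val] x) := by
      intro i j hij
      have hi := i.isLt
      have hj := j.isLt
      rcases lt_trichotomy i.val j.val with h | h | h
      · exact (key i.val j.val h (by omega) hij).elim
      · exact Fin.ext h
      · exact (key j.val i.val h (by omega) hij.symm).elim
    have h7 := Fintype.card_le_of_injective _ h6
    rw [Fintype.card_fin, Fintype.card_fin] at h7
    omega
  have h1 : oc (cod5 f) = true := by
    unfold oc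
    rw [Bool.and_eq_true]
    constructor
    · rw [List.all_eq_true]
      intro s hs
      rw [List.all_eq_true]
      intro t ht
      rw [List.mem_range] at hs ht
      by_cases hst : s = t
      · rw [hst]; simp
      · have h2 : dg 5 (cod5 f) s ≠ dg 5 (cod5 f) t := by
          intro h3
          have h4 := hd ⟨s, hs⟩
          have h5 := hd ⟨t, ht⟩
          have h6 : f ⟨s, hs⟩ = f ⟨t, ht⟩ := Fin.ext (by rw [← h4, ← h5]; exact h3)
          exact hst (congrArg Fin.val (hf h6))
        simp [h2]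
    · obtain ⟨x, hx⟩ := h
      rw [List.any_eq_true]
      refine ⟨x.val, List.mem_range.2 x.isLt, ?_⟩
      rw [List.all_eq_true]
      intro y hy
      rw [List.mem_range] at hy
      by_cases h2 : f ⟨y, hy⟩ = ⟨y, hy⟩
      · have h3 := hd ⟨y, hy⟩
        rw [h2] at h3
        simp only [Bool.or_eq_true, beq_iff_eq]
        exact Or.inl h3
      · obtain ⟨k, hk5, h3⟩ := hk x ⟨y, hy⟩ (hx ⟨y, hy⟩ h2)
        simp only [Bool.or_eq_true, beq_iff_eq, List.any_eq_true, List.mem_range]
        refine Or.inr ⟨k, hk5, ?_⟩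
        rw [← he, h3]
  have h2 := List.all_eq_true.1 oc_ok (cod5 f) (List.mem_range.2 (cod5_lt f))
  rw [h1] at h2
  simpa using h2

/-- two permutations with one cycle each -/
theorem am_cyc (f g : Fin 5 → Fin 5) (hf : Function.Injective f) (hg : Function.Injective g)
    (h : ∃ x, ∀ y, f y ≠ y → ∃ k : ℕ, f^[k] x = y)
    (h' : ∃ x, ∀ y, g y ≠ y → ∃ k : ℕ, g^[k] x = y) : Am f g :=
  am_of_gd f g (l5_gd _ _ (oc_of f hf h) (oc_of g hg h'))

theorem aff_mem : ∀ m s : Fin 5, m ≠ 0 → cod5 (fun x => m * x + s) ∈ a5 := by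
  decide +kernel

/-- two affine permutations -/
theorem am_aff (m s m' s' : Fin 5) (h : m ≠ 0) (h' : m' ≠ 0) :
    Am (fun x : Fin 5 => m * x + s) (fun x : Fin 5 => m' * x + s') :=
  am_of_gd _ _ (a5_gd _ _ (aff_mem m s h) (aff_mem m' s' h'))

end Vale.Agent.P329.H81
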