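import Vale.Agent.P329.H81.GBlk

/-!
P329: automata with an abelian group of symmetries whose letters act on the orbits as one map, as
the identity or as constants.
-/

set_option linter.all false

namespace Vale.Agent.P329.H81

open Vale.Agent.P329 Vale.Agent.P329.S4 Vale.Agent.P329.H550 Vale.Agent.P329.H211
  Vale.Agent.P329.H112 Vale.Agent.P329.H157 Vale.Agent.P329.H647 Vale.Agent.P329.H96

section act

variable {α X A : Type} [Finite α] [Finite X] [AddCommGroup A] [Finite A] [AddAction A X]

/-- **One map on the orbits.** -/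
theorem sym_map (δ : X → α → X) (hδ : ∀ (g : A) (x : X) (a : α), δ (g +ᵥ x) a = g +ᵥ δ x a)
    (f : X → X) (hf : ∀ (g : A) (x : X), f (g +ᵥ x) = g +ᵥ f x)
    (h : ∀ a, (∀ x, ∃ g : A, δ x a = g +ᵥ x) ∨ (∀ x, ∃ g : A, δ x a = g +ᵥ f x) ∨
      ∃ y : X, ∀ x, ∃ g : A, δ x a = g +ᵥ y)
    (p q : X) : SH 1 {w : List α | w.foldl δ p = q} := by
  classical
  obtain ⟨t, m, hm, hper⟩ := exists_per f
  have : NeZero m := ⟨hm.ne'⟩
  have hmul : ∀ k i, t ≤ i → f^[i + m * k] = f^[i] := by
    intro k
    induction k with
    | zero => intro i _; rfl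
    | succ k ih =>
      intro i hi
      have e1 : i + m * (k + 1) = (i + m * k) + m := by ring
      rw [e1, hper _ (by omega), ih i hi]
  have hcong : ∀ i j, t ≤ i → t ≤ j → (i : ZMod m) = (j : ZMod m) → f^[i] = f^[j] := by
    have h1 : ∀ i j, i ≤ j → t ≤ i → (i : ZMod m) = (j : ZMod m) → f^[i] = f^[j] := by
      intro i j hij hi h
      rw [ZMod.natCast_eq_natCast_iff] at h
      obtain ⟨k, hk⟩ := (Nat.modEq_iff_dvd' hij).1 h
      have e1 : j = i + m * k := by omega
      rw [e1, hmul k i hi]
    intro i j hi hj h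
    rcases Nat.le_total i j with h2 | h2
    · exact h1 i j h2 hi h
    · exact (h1 j i h2 hj h.symm).symm
  have key : ∀ a, ∃ (e : Option ℕ) (y : X),
      (∀ k, e = some k → k ≤ 1 ∧ ∀ x, ∃ g : A, δ x a = g +ᵥ f^[k] x) ∧
      (e = none → ∀ x, ∃ g : A, δ x a = g +ᵥ y) := by
    intro a
    rcases h a with h1 | h1 | ⟨y, h1⟩
    · refine ⟨some 0, p, fun k hk => ?_, fun h => (by cases h)⟩
      cases hk
      exact ⟨Nat.zero_le _, h1⟩
    · refine ⟨some 1, p, fun k hk => ?_, fun h => (by cases h)⟩
      cases hk
      exact ⟨le_rfl, h1⟩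
    · exact ⟨none, y, fun k hk => (by cases hk), fun _ => h1⟩
  choose e y he1 he2 using key
  let κ : Option α → Option ℕ := fun l => l.elim none e
  let y' : Option α → X := fun l => l.elim p y
  have hκ : ∀ l k, κ l = some k → k ≤ 1 := by
    intro l k hl
    cases l with
    | none => cases hl
    | some a => exact (he1 a k hl).1
  -- the target of a letter
  let tg : X → α → X := fun z a => match e a with
    | none => y a
    | some k => f^[k] z
  have step : ∀ (z : X) (a : α), ∃ g : A, δ z a = g +ᵥ tg z a := by
    intro z a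
    cases h1 : e a with
    | none =>
      have h2 : tg z a = y a := by
        change (match e a with | none => y a | some k => f^[k] z) = y a
        rw [h1]
      rw [h2]
      exact he2 a h1 z
    | some k =>
      have h2 : tg z a = f^[k] z := by
        change (match e a with | none => y a | some k => f^[k] z) = f^[k] z
        rw [h1]
      rw [h2]
      exact (he1 a k h1).2 z
  choose G hG using step
  let g' : Option α → ℕ → Option α → A := fun b i l => l.elim 0 (G (f^[i] (y' b)))
  let s1 : Option α → ZMod m → Option α → A := fun b r c => g' b (r.val + m * t) c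
  let s2 : Option α → Fin (t + 1) → Option α → A := fun b i c =>
    if i.val < t then g' b i.val c - s1 b (i.val : ZMod m) c else 0
  have hg0 : ∀ i j, t ≤ i → t ≤ j → (i : ZMod m) = (j : ZMod m) → ∀ b c, g' b i c = g' b j c := by
    intro i j hi hj h b c
    cases c with
    | none => rfl
    | some a =>
      change G (f^[i] (y' b)) a = G (f^[j] (y' b)) a
      rw [hcong i j hi hj h]
  have hs : ∀ b i c, g' b i c = s1 b (i : ZMod m) c + s2 b ⟨min i t, by omega⟩ c := by
    intro b i c
    by_cases h : i < t
    · change g' b i c = s1 b (i : ZMod m) c +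
        (if min i t < t then g' b (min i t) c - s1 b ((min i t : ℕ) : ZMod m) c else 0)
      rw [min_eq_left h.le, if_pos h]
      abel
    · change g' b i c = s1 b (i : ZMod m) c +
        (if min i t < t then g' b (min i t) c - s1 b ((min i t : ℕ) : ZMod m) c else 0)
      rw [min_eq_right (by omega), if_neg (lt_irrefl t), add_zero]
      change g' b i c = g' b ((i : ZMod m).val + m * t) c
      have ht' : t ≤ m * t := Nat.le_mul_of_pos_left t hm
      exact hg0 i ((i : ZMod m).val + m * t) (by omega) (by omega) (by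
        rw [Nat.cast_add, Nat.cast_mul, ZMod.natCast_self, zero_mul, add_zero,
          ZMod.natCast_zmod_val]) b c
  have hw : ∀ (w : List α) (g : A) (x : X), w.foldl δ (g +ᵥ x) = g +ᵥ w.foldl δ x := by
    intro w
    induction w with
    | nil => intro g x; rfl
    | cons a w ih => intro g x; rw [List.foldl_cons, List.foldl_cons, hδ, ih]
  have htg : ∀ (x : Option α × ℕ) (a : α), tg (f^[x.2] (y' x.1)) a =
      f^[(lt κ x (some a)).2] (y' (lt κ x (some a)).1) := by
    intro x a
    cases h1 : e a with
    | none =>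
      have h2 : lt κ x (some a) = (some a, 0) := by
        have h3 : κ (some a) = none := h1
        rw [lt, h3]
      rw [h2]
      change (match e a with | none => y a | some k => f^[k] (f^[x.2] (y' x.1))) = y a
      rw [h1]
    | some k =>
      have h2 : lt κ x (some a) = (x.1, x.2 + k) := by
        have h3 : κ (some a) = some k := h1
        rw [lt, h3]
      rw [h2]
      change (match e a with | none => y a | some k => f^[k] (f^[x.2] (y' x.1))) =
        f^[x.2 + k] (y' x.1)
      rw [h1]
      change f^[k] (f^[x.2] (y' x.1)) = f^[x.2 + k] (y' x.1)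
      rw [← Function.iterate_add_apply, Nat.add_comm]
  have hst : ∀ (w : List α) (x : Option α × ℕ), w.foldl δ (f^[x.2] (y' x.1)) =
      t2 κ g' x (w.map some) +ᵥ f^[((w.map some).foldl (lt κ) x).2]
        (y' ((w.map some).foldl (lt κ) x).1) := by
    intro w
    induction w with
    | nil => intro x; rw [List.map_nil, t2, zero_vadd]; rfl
    | cons a w ih =>
      intro x
      rw [List.foldl_cons, List.map_cons, List.foldl_cons, t2, hG, hw, htg, ih, vadd_vadd]
      rfl
  -- the state from the trackers
  let Fr : ZMod m → Fin (t + 1) → X → X := fun r j =>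
    if j.val < t then f^[j.val] else f^[r.val + m * t]
  have hFr : ∀ i : ℕ, Fr (i : ZMod m) ⟨min i t, by omega⟩ = f^[i] := by
    intro i
    change (if min i t < t then f^[min i t] else f^[(i : ZMod m).val + m * t]) = f^[i]
    by_cases h : i < t
    · rw [min_eq_left h.le, if_pos h]
    · rw [min_eq_right (by omega), if_neg (lt_irrefl t)]
      have ht' : t ≤ m * t := Nat.le_mul_of_pos_left t hm
      exact hcong _ _ (by omega) (by omega) (by
        rw [Nat.cast_add, Nat.cast_mul, ZMod.natCast_self, zero_mul, add_zero,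
          ZMod.natCast_zmod_val])
  have k1 : ∀ b : Option α, κ b = none → ∀ r : ZMod m, SH 1 {w : List (Option α) |
      sm m b (w.foldl (lt κ) (none, 0)) = some r} := by
    intro b hb r
    have h1 := trk_kn (δ := dm κ m) (q0 := 0) (b := b) (fun q => by unfold dm; rw [hb])
      (dm_clean κ m hm (Or.inl hκ)) (sm m b (none, 0)) (some r)
    refine Eq.mp (congrArg (SH 1) ?_) h1
    ext w
    simp only [Set.mem_setOf_eq]
    rw [sm_fold κ m b hb]
  have k2 : ∀ b : Option α, κ b = none → ∀ j : Fin (t + 1), SH 1 {w : List (Option α) |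
      st t b (w.foldl (lt κ) (none, 0)) = some j} := by
    intro b hb j
    have h1 := trk_kn (δ := dt κ t) (q0 := 0) (b := b) (fun q => by unfold dt; rw [hb])
      (dt_clean κ t) (st t b (none, 0)) (some j)
    refine Eq.mp (congrArg (SH 1) ?_) h1
    ext w
    simp only [Set.mem_setOf_eq]
    rw [st_fold κ t b hb]
  have h1 : SH 1 (⋃ b : {b : Option α // κ b = none}, ⋃ r : ZMod m, ⋃ j : Fin (t + 1), ⋃ T : A,
      ⋃ _ : T +ᵥ Fr r j (y' b.1) = q,
      ({w : List (Option α) | sm m b.1 (w.foldl (lt κ) (none, 0)) = some r} ∩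
        {w : List (Option α) | st t b.1 (w.foldl (lt κ) (none, 0)) = some j}) ∩
        {w : List (Option α) | t2 κ g' (none, 0) w = T}) :=
    SH.iUnion fun b => SH.iUnion fun r => SH.iUnion fun j => SH.iUnion fun T =>
      SH.iUnion_prop fun _ => SH.inter (SH.inter (k1 b.1 b.2 r) (k2 b.1 b.2 j))
        (t2_kn κ hκ m t g' s1 s2 hs none rfl T)
  refine Eq.mp (congrArg (SH 1) ?_) (sh_map (α := α) some h1)
  ext w
  simp only [Set.mem_iUnion, exists_prop, Set.mem_inter_iff, Set.mem_setOf_eq]
  have h2 := hst w (none, 0)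
  change w.foldl δ p = _ at h2
  have hinv : ∀ (W : List (Option α)) (x : Option α × ℕ), κ x.1 = none →
      κ (W.foldl (lt κ) x).1 = none := by
    intro W
    induction W with
    | nil => intro x hx; exact hx
    | cons c W ih =>
      intro x hx
      rw [List.foldl_cons]
      refine ih _ ?_
      unfold lt
      cases h3 : κ c with
      | none => exact h3
      | some k => exact hx
  rw [h2]
  constructor
  · rintro ⟨b, r, j, T, h4, ⟨h5, h6⟩, h7⟩
    have h8 : ((w.map some).foldl (lt κ) (none, 0)).1 = b.1 := by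
      by_contra h9
      unfold sm at h5
      rw [if_neg h9] at h5
      cases h5
    unfold sm at h5
    unfold st at h6
    rw [if_pos h8] at h5 h6
    rw [← Option.some.inj h5, ← Option.some.inj h6, hFr] at h4
    rw [h7, h8]
    exact h4
  · intro h4
    refine ⟨⟨_, hinv (w.map some) (none, 0) rfl⟩, _, _, _, ?_, ⟨if_pos rfl, if_pos rfl⟩, rfl⟩
    rw [hFr]
    exact h4

end act

/-- **Wreath products of an abelian group with one map and constants.** -/
theorem wreath_map {α Y A : Type} [Finite α] [Finite Y] [AddCommGroup A] [Finite A]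
    (δ : Y → α → Y) (f : Y → Y)
    (h : ∀ a, (∀ y, δ y a = y) ∨ (∀ y, δ y a = f y) ∨ ∃ z, ∀ y, δ y a = z)
    (s : Y → α → A) (p q : Y × A) :
    SH 1 {w : List α | w.foldl (fun (x : Y × A) a => (δ x.1 a, x.2 + s x.1 a)) p = q} := by
  letI act : AddAction A (Y × A) :=
    { vadd := fun g x => (x.1, g + x.2)
      zero_vadd := fun x => by
        change (x.1, 0 + x.2) = x
        rw [zero_add]
      add_vadd := fun g g' x => by
        change (x.1, g + g' + x.2) = (x.1, g + (g' + x.2))
        rw [add_assoc] }
  refine sym_map (A := A) _ (fun g x a => by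
      obtain ⟨v, u⟩ := x
      change (δ v a, g + u + s v a) = (δ v a, g + (u + s v a))
      rw [add_assoc]) (fun x => (f x.1, x.2)) (fun g x => rfl) (fun a => by
      rcases h a with h2 | h2 | ⟨z, h2⟩
      · refine Or.inl fun x => ⟨s x.1 a, ?_⟩
        obtain ⟨v, u⟩ := x
        change (δ v a, u + s v a) = (v, s v a + u)
        rw [h2, add_comm]
      · refine Or.inr (Or.inl fun x => ⟨s x.1 a, ?_⟩)
        obtain ⟨v, u⟩ := x
        change (δ v a, u + s v a) = (f v, s v a + u)
        rw [h2, add_comm]
      · refine Or.inr (Or.inr ⟨(z, 0), fun x => ⟨x.2 + s x.1 a, ?_⟩⟩)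
        obtain ⟨v, u⟩ := x
        change (δ v a, u + s v a) = (z, u + s v a + 0)
        rw [h2, add_zero]) p q

end Vale.Agent.P329.H81
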