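import Vale.Agent.P329.H81.One

/-!
P329: automata in which each letter acts as one fixed map, as the identity, or has at most two
values, the main theorem.
-/

set_option linter.all false

namespace Vale.Agent.P329.H81

open Vale.Agent.P329 Vale.Agent.P329.S4 Vale.Agent.P329.H112 Vale.Agent.P329.H157
  Vale.Agent.P329.H647 Vale.Agent.P329.H96 Vale.Agent.P329.H550

section main

variable {B X : Type}

/-- the automaton of one map `f` and of letters `c` with the values `e c 0`, `e c 1` -/
def dd (f : X → X) (e : B → ZMod 2 → X) (o : B → X → ZMod 2) (x : X) :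
    Option (Option B) → X
  | none => x
  | some none => f x
  | some (some c) => e c (o c x)

/-- the last letter with two values and the number of letters `f` since then -/
def ls : Option (B × ℕ) → Option (Option B) → Option (B × ℕ)
  | x, none => x
  | none, some none => none
  | some (b, i), some none => some (b, i + 1)
  | _, some (some c) => some (c, 0)

/-- the sum of weights along a word -/
def tot (wt : Option (B × ℕ) → Option (Option B) → ZMod 2) :
    Option (B × ℕ) → List (Option (Option B)) → ZMod 2
  | _, [] => 0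
  | x, l :: w => wt x l + tot wt (ls x l) w

/-- the weight of a block -/
def wtf (s : B → ℕ → B → ZMod 2) : Option (B × ℕ) → Option (Option B) → ZMod 2
  | some (b, i), some (some c) => s b i c
  | _, _ => 0

variable [DecidableEq B]

/-- the weight of a block which starts with `b` -/
def wtb (s : B → ℕ → B → ZMod 2) (b : B) : Option (B × ℕ) → Option (Option B) → ZMod 2
  | some (b', i), some (some c) => if b' = b then s b i c else 0
  | _, _ => 0

/-- the state of `n1` -/
def st1 (m : ℕ) (b : B) : Option (B × ℕ) → Option (ZMod m)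
  | none => none
  | some (b', i) => if b' = b then some (i : ZMod m) else none

/-- the state of `n2` -/
def st2 (t : ℕ) (b : B) : Option (B × ℕ) → Option (Fin (t + 1))
  | none => none
  | some (b', i) => if b' = b then some ⟨min i t, by omega⟩ else none

theorem n1_step (m : ℕ) [NeZero m] (b : B) (s : ZMod m → B → ZMod 2) (x : Option (B × ℕ))
    (p : ZMod 2) (l : Option (Option B)) :
    n1 m 0 b s (st1 m b x, p) l =
      (st1 m b (ls x l), p + wtb (fun _ i c => s (i : ZMod m) c) b x l) := by
  match x, l with
  | none, none => simp [n1, st1, ls, wtb]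
  | some (b', i), none => simp [n1, ls, wtb]
  | none, some none => simp [n1, st1, ls, wtb]
  | some (b', i), some none =>
    by_cases h : b' = b
    · simp [n1, st1, ls, wtb, h]
    · simp [n1, st1, ls, wtb, h]
  | none, some (some c) => simp [n1, st1, ls, wtb]
  | some (b', i), some (some c) =>
    by_cases h : b' = b
    · simp [n1, st1, ls, wtb, h]
    · simp [n1, st1, ls, wtb, h]

theorem n2_step (t : ℕ) (b : B) (s : Fin (t + 1) → B → ZMod 2) (x : Option (B × ℕ))
    (p : ZMod 2) (l : Option (Option B)) :
    n2 t b s (st2 t b x, p) l =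
      (st2 t b (ls x l), p + wtb (fun _ i c => s ⟨min i t, by omega⟩ c) b x l) := by
  match x, l with
  | none, none => simp [n2, st2, ls, wtb]
  | some (b', i), none => simp [n2, ls, wtb]
  | none, some none => simp [n2, st2, ls, wtb]
  | some (b', i), some none =>
    by_cases h : b' = b
    · simp only [n2, st2, ls, wtb, h, if_true, add_zero, Prod.mk.injEq, Option.some.injEq,
        Fin.mk.injEq, and_true]
      omega
    · simp [n2, st2, ls, wtb, h]
  | none, some (some c) => simp [n2, st2, ls, wtb]
  | some (b', i), some (some c) =>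
    by_cases h : b' = b
    · simp [n2, st2, ls, wtb, h]
    · simp [n2, st2, ls, wtb, h]

theorem n1_fold (m : ℕ) [NeZero m] (b : B) (s : ZMod m → B → ZMod 2)
    (w : List (Option (Option B))) : ∀ (x : Option (B × ℕ)) (p : ZMod 2),
    w.foldl (n1 m 0 b s) (st1 m b x, p) =
      (st1 m b (w.foldl ls x), p + tot (wtb (fun _ i c => s (i : ZMod m) c) b) x w) := by
  induction w with
  | nil => intro x p; simp [tot]
  | cons l w ih =>
    intro x p
    rw [List.foldl_cons, n1_step, ih, List.foldl_cons, tot, add_assoc]

theorem n2_fold (t : ℕ) (b : B) (s : Fin (t + 1) → B → ZMod 2)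
    (w : List (Option (Option B))) : ∀ (x : Option (B × ℕ)) (p : ZMod 2),
    w.foldl (n2 t b s) (st2 t b x, p) =
      (st2 t b (w.foldl ls x),
        p + tot (wtb (fun _ i c => s ⟨min i t, by omega⟩ c) b) x w) := by
  induction w with
  | nil => intro x p; simp [tot]
  | cons l w ih =>
    intro x p
    rw [List.foldl_cons, n2_step, ih, List.foldl_cons, tot, add_assoc]

theorem tot_sum [Fintype B] (s : B → ℕ → B → ZMod 2) (s1 s2 : B → ℕ → B → ZMod 2)
    (h : ∀ b i c, s b i c = s1 b i c + s2 b i c) (w : List (Option (Option B))) :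
    ∀ x : Option (B × ℕ), tot (wtf s) x w =
      ∑ b : B, (tot (wtb s1 b) x w + tot (wtb s2 b) x w) := by
  induction w with
  | nil => intro x; simp [tot]
  | cons l w ih =>
    intro x
    have h1 : wtf s x l = ∑ b : B, (wtb s1 b x l + wtb s2 b x l) := by
      match x, l with
      | none, none => simp [wtf, wtb]
      | some (b', i), none => simp [wtf, wtb]
      | none, some none => simp [wtf, wtb]
      | some (b', i), some none => simp [wtf, wtb]
      | none, some (some c) => simp [wtf, wtb]
      | some (b', i), some (some c) =>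
        simp only [wtf, wtb]
        rw [Finset.sum_congr rfl fun b _ => show ((if b' = b then s1 b i c else 0) +
          if b' = b then s2 b i c else 0) = if b' = b then s b' i c else 0 by
            by_cases hb : b' = b
            · rw [if_pos hb, if_pos hb, if_pos hb, hb, h]
            · rw [if_neg hb, if_neg hb, if_neg hb, add_zero]]
        rw [Finset.sum_ite_eq Finset.univ b' fun _ => s b' i c, if_pos (Finset.mem_univ _)]
    rw [tot, h1, ih, ← Finset.sum_add_distrib]
    refine Finset.sum_congr rfl fun b _ => ?_
    rw [tot, tot]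
    ring

omit [DecidableEq B] in
/-- words without letters with two values -/
theorem no_res (f : X → X) (e : B → ZMod 2 → X) (o : B → X → ZMod 2)
    (w : List (Option (Option B))) (hw : ∀ c, some (some c) ∉ w) :
    ∃ k : ℕ, (∀ z, w.foldl (dd f e o) z = f^[k] z) ∧
      ∀ b i, w.foldl ls (some (b, i)) = some (b, i + k) := by
  induction w with
  | nil => exact ⟨0, fun z => rfl, fun b i => rfl⟩
  | cons l w ih =>
    obtain ⟨k, h1, h2⟩ := ih fun c hc => hw c (List.mem_cons_of_mem _ hc)
    match l, hw with
    | none, _ => exact ⟨k, fun z => h1 z, fun b i => h2 b i⟩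
    | some none, _ =>
      refine ⟨k + 1, fun z => ?_, fun b i => ?_⟩
      · rw [List.foldl_cons, h1]; rfl
      · rw [List.foldl_cons]
        change w.foldl ls (some (b, i + 1)) = _
        rw [h2]
        congr 2
        omega
    | some (some c), hw => exact absurd List.mem_cons_self (hw c)

omit [DecidableEq B] in
/-- words with a letter with two values -/
theorem res_end (f : X → X) (e : B → ZMod 2 → X) (o : B → X → ZMod 2)
    (w : List (Option (Option B))) (hw : ∃ c, some (some c) ∈ w) :
    ∃ (b : B) (i : ℕ), (∀ x, w.foldl ls x = some (b, i)) ∧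
      ∀ z, ∃ j, w.foldl (dd f e o) z = f^[i] (e b j) := by
  induction w with
  | nil =>
    obtain ⟨c, hc⟩ := hw
    exact absurd hc (by simp)
  | cons l w ih =>
    by_cases h : ∃ c, some (some c) ∈ w
    · obtain ⟨b, i, h1, h2⟩ := ih h
      exact ⟨b, i, fun x => h1 _, fun z => h2 _⟩
    · push Not at h
      obtain ⟨k, h1, h2⟩ := no_res f e o w h
      obtain ⟨c, hc⟩ := hw
      rcases List.mem_cons.1 hc with hc | hc
      · subst hc
        refine ⟨c, k, fun x => ?_, fun z => ⟨o c z, h1 _⟩⟩
        rw [List.foldl_cons]
        have h3 : ls x (some (some c)) = some (c, 0) := by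
          cases x <;> rfl
        rw [h3, h2, Nat.zero_add]
      · exact absurd hc (h c)

omit [DecidableEq B] in
/-- the two runs from the two values of a letter -/
theorem pair_run (f : X → X) (e : B → ZMod 2 → X) (o : B → X → ZMod 2)
    (w : List (Option (Option B))) : ∀ (b : B) (i : ℕ),
    ∃ (b' : B) (i' : ℕ), w.foldl ls (some (b, i)) = some (b', i') ∧
      ((∀ j j', w.foldl (dd f e o) (f^[i] (e b j)) = w.foldl (dd f e o) (f^[i] (e b j'))) ∨
      ∀ j, w.foldl (dd f e o) (f^[i] (e b j)) = f^[i'] (e b' (j +
        tot (wtf fun b i c => o c (f^[i] (e b 0))) (some (b, i)) w))) := by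
  induction w with
  | nil => exact fun b i => ⟨b, i, rfl, Or.inr fun j => by simp [tot]⟩
  | cons l w ih =>
    intro b i
    match l with
    | none =>
      obtain ⟨b', i', h1, h2⟩ := ih b i
      refine ⟨b', i', h1, ?_⟩
      rcases h2 with h2 | h2
      · exact Or.inl h2
      · refine Or.inr fun j => ?_
        rw [tot]
        change w.foldl (dd f e o) (f^[i] (e b j)) = f^[i'] (e b' (j + (0 +
          tot (wtf fun b i c => o c (f^[i] (e b 0))) (some (b, i)) w)))
        rw [zero_add, h2]
    | some none =>
      obtain ⟨b', i', h1, h2⟩ := ih b (i + 1)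
      refine ⟨b', i', h1, ?_⟩
      have h3 : ∀ j, (some none :: w).foldl (dd f e o) (f^[i] (e b j)) =
          w.foldl (dd f e o) (f^[i + 1] (e b j)) := by
        intro j
        rw [List.foldl_cons, Function.iterate_succ_apply']
        rfl
      rcases h2 with h2 | h2
      · exact Or.inl fun j j' => by rw [h3, h3]; exact h2 j j'
      · refine Or.inr fun j => ?_
        rw [h3, h2, tot]
        change _ = f^[i'] (e b' (j + (0 +
          tot (wtf fun b i c => o c (f^[i] (e b 0))) (some (b, i + 1)) w)))
        rw [zero_add]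
    | some (some c) =>
      obtain ⟨b', i', h1, h2⟩ := ih c 0
      refine ⟨b', i', h1, ?_⟩
      have h3 : ∀ j, (some (some c) :: w).foldl (dd f e o) (f^[i] (e b j)) =
          w.foldl (dd f e o) (e c (o c (f^[i] (e b j)))) := by
        intro j
        rfl
      by_cases h4 : o c (f^[i] (e b 0)) = o c (f^[i] (e b 1))
      · refine Or.inl fun j j' => ?_
        rw [h3, h3]
        have h5 : ∀ j, o c (f^[i] (e b j)) = o c (f^[i] (e b 0)) := by
          intro j
          rcases z2 j with rfl | rfl
          · rfl
          · exact h4.symm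
        rw [h5 j, h5 j']
      · have h5 : ∀ j, o c (f^[i] (e b j)) = j + o c (f^[i] (e b 0)) := by
          intro j
          have h6 : ∀ u v : ZMod 2, u ≠ v → v = 1 + u := by decide
          rcases z2 j with rfl | rfl
          · rw [zero_add]
          · exact h6 _ _ h4
        rcases h2 with h2 | h2
        · refine Or.inl fun j j' => ?_
          rw [h3, h3]
          exact h2 _ _
        · refine Or.inr fun j => ?_
          rw [h3, h5, tot]
          change _ = f^[i'] (e b' (j + (o c (f^[i] (e b 0)) +
            tot (wtf fun b i c => o c (f^[i] (e b 0))) (some (c, 0)) w)))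
          rw [← add_assoc]
          exact h2 _

omit [DecidableEq B] in
theorem exists_per [Finite X] (f : X → X) :
    ∃ t m : ℕ, 0 < m ∧ ∀ i, t ≤ i → f^[i + m] = f^[i] := by
  obtain ⟨i, j, hne, hij⟩ := Finite.exists_ne_map_eq_of_infinite (fun n : ℕ => f^[n])
  have key : ∀ i j : ℕ, i < j → f^[i] = f^[j] → ∃ t m : ℕ, 0 < m ∧ ∀ i, t ≤ i →
      f^[i + m] = f^[i] := by
    intro i j hlt hij
    refine ⟨i, j - i, by omega, fun k hk => ?_⟩
    have e1 : k + (j - i) = (k - i) + j := by omega
    have e2 : k = (k - i) + i := by omega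
    rw [e1, Function.iterate_add, ← hij, ← Function.iterate_add, ← e2]
  rcases lt_or_gt_of_ne hne with h | h
  · exact key i j h hij
  · exact key j i h hij.symm

end main

/-- **One map, and letters with at most two values.** -/
theorem one_map {B X : Type} [Finite B] [Nonempty B] [Finite X] (f : X → X)
    (e : B → ZMod 2 → X) (o : B → X → ZMod 2) (x y : X) :
    SH 1 {w : List (Option (Option B)) | w.foldl (dd f e o) x = y} := by
  classical
  have := Fintype.ofFinite B
  obtain ⟨t, m, hm, hper⟩ := exists_per f
  have : NeZero m := ⟨hm.ne'⟩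
  -- weights
  let s : B → ℕ → B → ZMod 2 := fun b i c => o c (f^[i] (e b 0))
  have hmul : ∀ k i, t ≤ i → f^[i + m * k] = f^[i] := by
    intro k
    induction k with
    | zero => intro i _; rfl
    | succ k ih =>
      intro i hi
      have e1 : i + m * (k + 1) = (i + m * k) + m := by ring
      rw [e1, hper _ (by omega), ih i hi]
  have hcong : ∀ i j, t ≤ i → t ≤ j → (i : ZMod m) = (j : ZMod m) → f^[i] = f^[j] := by
    have h1 : ∀ i j, i ≤ j → t ≤ i → (i : ZMod m) = (j : ZMod m) → f^[i] = f^[j] := by
      intro i j hij hi h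
      rw [ZMod.natCast_eq_natCast_iff] at h
      obtain ⟨k, hk⟩ := (Nat.modEq_iff_dvd' hij).1 h
      have e1 : j = i + m * k := by omega
      rw [e1, hmul k i hi]
    intro i j hi hj h
    rcases Nat.le_total i j with h2 | h2
    · exact h1 i j h2 hi h
    · exact (h1 j i h2 hj h.symm).symm
  let s1 : B → ZMod m → B → ZMod 2 := fun b r c => s b (r.val + m * t) c
  let s2 : B → Fin (t + 1) → B → ZMod 2 := fun b i c =>
    if i.val < t then s b i.val c - s1 b (i.val : ZMod m) c else 0
  have hs : ∀ b i c, s b i c = s1 b (i : ZMod m) c + s2 b ⟨min i t, by omega⟩ c := by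
    intro b i c
    by_cases h : i < t
    · change s b i c = s1 b (i : ZMod m) c +
        (if min i t < t then s b (min i t) c - s1 b ((min i t : ℕ) : ZMod m) c else 0)
      rw [min_eq_left h.le, if_pos h]
      ring
    · change s b i c = s1 b (i : ZMod m) c +
        (if min i t < t then s b (min i t) c - s1 b ((min i t : ℕ) : ZMod m) c else 0)
      rw [min_eq_right (by omega), if_neg (lt_irrefl t), add_zero]
      change o c (f^[i] (e b 0)) = o c (f^[(i : ZMod m).val + m * t] (e b 0))
      have ht : t ≤ m * t := Nat.le_mul_of_pos_left t hm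
      rw [hcong i ((i : ZMod m).val + m * t) (by omega) (by omega) (by
        rw [Nat.cast_add, Nat.cast_mul, ZMod.natCast_self, zero_mul, add_zero,
          ZMod.natCast_zmod_val])]
  -- the known automata
  let D1 : B × (Option (ZMod m) × ZMod 2) → Option (Option B) →
      B × (Option (ZMod m) × ZMod 2) := fun x l => (x.1, n1 m 0 x.1 (s1 x.1) x.2 l)
  let D2 : B × (Option (Fin (t + 1)) × ZMod 2) → Option (Option B) →
      B × (Option (Fin (t + 1)) × ZMod 2) := fun x l => (x.1, n2 t x.1 (s2 x.1) x.2 l)
  have hD1 : ∀ (w : List (Option (Option B))) (b : B) (x : Option (ZMod m) × ZMod 2),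
      w.foldl D1 (b, x) = (b, w.foldl (n1 m 0 b (s1 b)) x) := by
    intro w
    induction w with
    | nil => intro b x; rfl
    | cons l w ih => intro b x; rw [List.foldl_cons, List.foldl_cons]; exact ih b _
  have hD2 : ∀ (w : List (Option (Option B))) (b : B) (x : Option (Fin (t + 1)) × ZMod 2),
      w.foldl D2 (b, x) = (b, w.foldl (n2 t b (s2 b)) x) := by
    intro w
    induction w with
    | nil => intro b x; rfl
    | cons l w ih => intro b x; rw [List.foldl_cons, List.foldl_cons]; exact ih b _
  have m1 : MapLe 1 (H550.tr D1) := by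
    refine mapLe_tr D1 fun p q => ?_
    by_cases h : p.1 = q.1
    · refine Eq.mp (congrArg (SH 1) ?_) (n1_sh m p.1 (s1 p.1) p.2 q.2)
      ext w
      simp only [Set.mem_setOf_eq]
      rw [show w.foldl D1 p = (p.1, w.foldl (n1 m 0 p.1 (s1 p.1)) p.2) from hD1 w p.1 p.2]
      constructor
      · intro h2; rw [h2, h]
      · intro h2; exact congrArg Prod.snd h2
    · refine Eq.mp (congrArg (SH 1) ?_) SH.empty
      ext w
      simp only [Set.mem_empty_iff_false, Set.mem_setOf_eq, false_iff]
      rw [show w.foldl D1 p = (p.1, w.foldl (n1 m 0 p.1 (s1 p.1)) p.2) from hD1 w p.1 p.2]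
      intro h2
      have h3 := congrArg Prod.fst h2
      exact h h3
  have m2 : MapLe 1 (H550.tr D2) := by
    refine mapLe_tr D2 fun p q => ?_
    by_cases h : p.1 = q.1
    · refine Eq.mp (congrArg (SH 1) ?_) (n2_sh t p.1 (s2 p.1) p.2 q.2)
      ext w
      simp only [Set.mem_setOf_eq]
      rw [show w.foldl D2 p = (p.1, w.foldl (n2 t p.1 (s2 p.1)) p.2) from hD2 w p.1 p.2]
      constructor
      · intro h2; rw [h2, h]
      · intro h2; exact congrArg Prod.snd h2
    · refine Eq.mp (congrArg (SH 1) ?_) SH.empty
      ext w
      simp only [Set.mem_empty_iff_false, Set.mem_setOf_eq, false_iff]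
      rw [show w.foldl D2 p = (p.1, w.foldl (n2 t p.1 (s2 p.1)) p.2) from hD2 w p.1 p.2]
      intro h2
      have h3 := congrArg Prod.fst h2
      exact h h3
  have h0 : MapLe 1 (H550.tr (dd f e o)) := by
    refine H162.Str.straubing _ (mapLe_prod m1 m2) _ fun v hv hid => ?_
    rw [prod_pair] at hid
    have i1 := congrArg Prod.fst hid
    have i2 := congrArg Prod.snd hid
    simp only [Prod.fst_mul, Prod.snd_mul] at i1 i2
    have j1 : ∀ (b : B) (x : Option (ZMod m) × ZMod 2),
        v.foldl (n1 m 0 b (s1 b)) (v.foldl (n1 m 0 b (s1 b)) x) =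
          v.foldl (n1 m 0 b (s1 b)) x := by
      intro b x
      have h3 := congrArg (fun g : Tr (B × (Option (ZMod m) × ZMod 2)) => g.f (b, x)) i1
      simp only [Tr.mul_f, H550.tr_prod] at h3
      rw [hD1, hD1] at h3
      exact congrArg Prod.snd h3
    have j2 : ∀ (b : B) (x : Option (Fin (t + 1)) × ZMod 2),
        v.foldl (n2 t b (s2 b)) (v.foldl (n2 t b (s2 b)) x) =
          v.foldl (n2 t b (s2 b)) x := by
      intro b x
      have h3 := congrArg (fun g : Tr (B × (Option (Fin (t + 1)) × ZMod 2)) => g.f (b, x)) i2
      simp only [Tr.mul_f, H550.tr_prod] at h3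
      rw [hD2, hD2] at h3
      exact congrArg Prod.snd h3
    have hpf : ∀ (k : ℕ) (z : X), ((v.map (H550.tr (dd f e o))).prod ^ k).f z =
        (fun z => v.foldl (dd f e o) z)^[k] z := by
      intro k z
      rw [Tr.pow_f]
      congr 2
      funext z
      exact H550.tr_prod _ v z
    by_cases hr : ∃ c, some (some c) ∈ v
    · -- a letter with two values
      refine ⟨2, Tr.ext' fun z => ?_⟩
      rw [hpf, hpf]
      change v.foldl (dd f e o) (v.foldl (dd f e o) (v.foldl (dd f e o) z)) =
        v.foldl (dd f e o) (v.foldl (dd f e o) z)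
      obtain ⟨b', i', h1, h2⟩ := res_end f e o v hr
      have t1 : ∀ b, tot (wtb (fun b i c => s1 b (i : ZMod m) c) b) (some (b', i')) v = 0 := by
        intro b
        have h3 := j1 b (st1 m b none, 0)
        rw [n1_fold, h1, n1_fold, h1, Prod.mk.injEq] at h3
        have h4 := h3.2
        rw [add_eq_left] at h4
        exact h4
      have t2 : ∀ b, tot (wtb (fun b i c => s2 b ⟨min i t, by omega⟩ c) b)
          (some (b', i')) v = 0 := by
        intro b
        have h3 := j2 b (st2 t b none, 0)
        rw [n2_fold, h1, n2_fold, h1, Prod.mk.injEq] at h3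
        have h4 := h3.2
        rw [add_eq_left] at h4
        exact h4
      have t3 : tot (wtf s) (some (b', i')) v = 0 := by
        rw [tot_sum s (fun b i c => s1 b (i : ZMod m) c)
          (fun b i c => s2 b ⟨min i t, by omega⟩ c) hs]
        exact Finset.sum_eq_zero fun b _ => by rw [t1, t2, add_zero]
      obtain ⟨b2, i2', h3, h4⟩ := pair_run f e o v b' i'
      rw [h1, Option.some.injEq, Prod.mk.injEq] at h3
      obtain ⟨rfl, rfl⟩ := h3
      obtain ⟨j, hj⟩ := h2 z
      rw [hj]
      rcases h4 with h4 | h4
      · obtain ⟨j', hj'⟩ := h2 (f^[i'] (e b' j))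
        rw [hj', h4 j' j, hj']
      · have h5 := h4 j
        change v.foldl (dd f e o) (f^[i'] (e b' j)) =
          f^[i'] (e b' (j + tot (wtf s) (some (b', i')) v)) at h5
        rw [t3, add_zero] at h5
        rw [h5, h5]
    · -- only the map `f`
      push Not at hr
      obtain ⟨k, h1, h2⟩ := no_res f e o v hr
      obtain ⟨b⟩ := ‹Nonempty B›
      have h3 : (k : ZMod m) = 0 := by
        have h4 := j1 b (st1 m b (some (b, 0)), 0)
        rw [n1_fold, h2, n1_fold, h2, Prod.mk.injEq] at h4
        have h5 := h4.1
        simp only [st1, if_true, Option.some.injEq, Nat.zero_add, Nat.cast_add] at h5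
        exact add_eq_left.1 h5
      have h4 : ∀ (j : ℕ) (z : X), (fun z => v.foldl (dd f e o) z)^[j] z = f^[k * j] z := by
        intro j z
        have h5 : (fun z => v.foldl (dd f e o) z) = f^[k] := funext h1
        rw [h5, ← Function.iterate_mul]
      refine ⟨t, Tr.ext' fun z => ?_⟩
      rw [hpf, hpf, h4, h4]
      rcases Nat.eq_zero_or_pos k with hk | hk
      · rw [hk, Nat.zero_mul, Nat.zero_mul]
      · have h5 : t ≤ k * t := Nat.le_mul_of_pos_left t hk
        have h6 : k * (t + 1) = k * t + k := by ring
        rw [hcong (k * (t + 1)) (k * t) (by omega) h5 (by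
          rw [h6, Nat.cast_add, h3, add_zero])]
  exact H550.sh_of_mapLe _ h0 x y

end Vale.Agent.P329.H81
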