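import Vale.Agent.P329.H81.Block
import Vale.Agent.P329.H81.OneMap

/-!
P329: sums of weights of blocks in an abelian group, where a block is a reset letter followed by
letters which act as powers of one fixed map.
-/

set_option linter.all false

namespace Vale.Agent.P329.H81

open Vale.Agent.P329 Vale.Agent.P329.S4 Vale.Agent.P329.H112 Vale.Agent.P329.H157
  Vale.Agent.P329.H647 Vale.Agent.P329.H96 Vale.Agent.P329.H550

section inner

variable {α : Type} (κ : α → Option ℕ)

/-- residues; a letter `a` with `κ a = some k` adds `k`, a letter with `κ a = none` ends the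
block -/
def dm (m : ℕ) (r : ZMod m) (a : α) : Option (ZMod m) :=
  match κ a with
  | none => none
  | some k => some (r + k)

/-- numbers up to `t` -/
def dt (t : ℕ) (i : Fin (t + 1)) (a : α) : Option (Fin (t + 1)) :=
  match κ a with
  | none => none
  | some k => some ⟨min (i.val + k) t, by omega⟩

/-- the sum of a word -/
def ks (w : List α) : ℕ := (w.map fun a => (κ a).getD 0).sum

theorem ks_cons (a : α) (w : List α) : ks κ (a :: w) = (κ a).getD 0 + ks κ w := by
  unfold ks
  rw [List.map_cons, List.sum_cons]

theorem ks_rep (z : List α) (i : ℕ) : ks κ (List.replicate i z).flatten = i * ks κ z := by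
  unfold ks
  induction i with
  | zero => simp
  | succ i ih =>
    rw [List.replicate_succ, List.flatten_cons, List.map_append, List.sum_append, ih]
    ring

theorem dm_ein (m : ℕ) (w : List α) : ∀ s s' : ZMod m,
    run (ein (dm κ m) 0) s w = some s' →
      (∀ p, p <+: w → p ≠ [] → s + (ks κ p : ZMod m) ≠ 0) ∧ s + (ks κ w : ZMod m) = s' := by
  induction w with
  | nil =>
    intro s s' h
    rw [run_nil, Option.some.injEq] at h
    refine ⟨fun p hp hp' => absurd (List.prefix_nil.1 hp) hp', ?_⟩
    change s + ((0 : ℕ) : ZMod m) = s'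
    rw [Nat.cast_zero, add_zero, h]
  | cons a w ih =>
    intro s s' h
    obtain ⟨s1, h1, h2⟩ := run_cons_eq_some h
    have h3 : ∃ k, κ a = some k ∧ s + (k : ZMod m) ≠ 0 ∧ s1 = s + k := by
      unfold ein dm at h1
      cases h3 : κ a with
      | none => rw [h3] at h1; cases h1
      | some k =>
        rw [h3] at h1
        change (if s + (k : ZMod m) = 0 then none else some (s + (k : ZMod m))) = some s1 at h1
        by_cases h5 : s + (k : ZMod m) = 0
        · rw [if_pos h5] at h1; cases h1
        · rw [if_neg h5] at h1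
          exact ⟨k, rfl, h5, (Option.some.inj h1).symm⟩
    obtain ⟨k, h3, h4, rfl⟩ := h3
    obtain ⟨g1, g2⟩ := ih _ _ h2
    refine ⟨fun p hp hp' => ?_, ?_⟩
    · cases p with
      | nil => exact absurd rfl hp'
      | cons a' p =>
        obtain ⟨rfl, hp2⟩ := List.cons_prefix_cons.1 hp
        rw [ks_cons, h3, Option.getD_some, Nat.cast_add, ← add_assoc]
        cases p with
        | nil =>
          change s + (k : ZMod m) + ((0 : ℕ) : ZMod m) ≠ 0
          rw [Nat.cast_zero, add_zero]
          exact h4
        | cons a'' p => exact g1 _ hp2 (by simp)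
    · rw [ks_cons, h3, Option.getD_some, Nat.cast_add, ← add_assoc, g2]

theorem dm_clean_prime (m : ℕ) (hp : m.Prime) : NoCyc (ein (dm κ m) 0) := by
  have : Fact m.Prime := ⟨hp⟩
  have : NeZero m := ⟨hp.ne_zero⟩
  intro z s j hj h
  obtain ⟨h2, h3⟩ := dm_ein κ m _ _ _ h
  have h4 : (ks κ z : ZMod m) = 0 := by
    by_contra hg
    rw [ks_rep, Nat.cast_mul, add_eq_left, mul_eq_zero] at h3
    have h5 := (ZMod.natCast_eq_zero_iff _ _).1 (h3.resolve_right hg)
    have h6 : m ≤ j := Nat.le_of_dvd hj h5
    have hz : z ≠ [] := by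
      rintro rfl
      exact hg (by simp [ks])
    have key : ∃ i, 0 < i ∧ i ≤ m ∧ s + (i : ZMod m) * (ks κ z : ZMod m) = 0 := by
      by_cases hs : s = 0
      · exact ⟨m, hp.pos, le_rfl, by rw [hs, ZMod.natCast_self, zero_mul, add_zero]⟩
      · refine ⟨(-s / (ks κ z : ZMod m)).val, ?_, (ZMod.val_lt _).le, ?_⟩
        · rw [Nat.pos_iff_ne_zero]
          intro h7
          rw [ZMod.val_eq_zero, div_eq_zero_iff, neg_eq_zero] at h7
          rcases h7 with h7 | h7
          · exact hs h7
          · exact hg h7
        · rw [ZMod.natCast_zmod_val, div_mul_cancel₀ _ hg, add_neg_cancel]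
    obtain ⟨i, hi0, him, hi⟩ := key
    refine h2 (List.replicate i z).flatten ?_ ?_ ?_
    · refine ⟨(List.replicate (j - i) z).flatten, ?_⟩
      rw [← List.flatten_append, ← List.replicate_add, show i + (j - i) = j by omega]
    · obtain ⟨i', rfl⟩ : ∃ i', i = i' + 1 := ⟨i - 1, by omega⟩
      rw [List.replicate_succ, List.flatten_cons]
      intro h7
      exact hz (List.append_eq_nil_iff.1 h7).1
    · rw [ks_rep, Nat.cast_mul]
      exact hi
  obtain ⟨j', rfl⟩ : ∃ j', j = j' + 1 := ⟨j - 1, by omega⟩
  rw [List.replicate_succ, List.flatten_cons] at h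
  obtain ⟨s', h5, -⟩ := run_append_eq_some h
  have h6 := (dm_ein κ m _ _ _ h5).2
  rw [h5, ← h6, h4, add_zero]

theorem dm_clean_one (m : ℕ) [NeZero m] (hκ : ∀ a k, κ a = some k → k ≤ 1) :
    NoCyc (ein (dm κ m) 0) := by
  have hm : 0 < m := Nat.pos_of_neZero m
  refine noCyc_cl (ρ := fun r : ZMod m => m - r.val) fun a => Or.inl fun x y h => ?_
  unfold ein dm at h
  cases h0 : κ a with
  | none =>
    rw [h0] at h
    cases h
  | some k =>
    rw [h0] at h
    change (if x + (k : ZMod m) = 0 then none else some (x + (k : ZMod m))) = some y at h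
    by_cases h1 : x + (k : ZMod m) = 0
    · rw [if_pos h1] at h; cases h
    · rw [if_neg h1] at h
      cases h
      rcases Nat.eq_zero_or_pos k with hk | hk
      · right
        rw [hk, Nat.cast_zero, add_zero]
      · have hk1 : k = 1 := by
          have := hκ a k h0
          omega
        subst hk1
        rw [Nat.cast_one] at h1 ⊢
        left
        have h2 := ZMod.val_lt x
        have h3 : (x + 1).val = x.val + 1 := by
          have h4 : x + 1 = ((x.val + 1 : ℕ) : ZMod m) := by
            rw [Nat.cast_add, Nat.cast_one, ZMod.natCast_zmod_val]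
          rcases Nat.lt_or_ge (x.val + 1) m with h5 | h5
          · rw [h4, ZMod.val_natCast_of_lt h5]
          · exfalso
            apply h1
            rw [h4, show x.val + 1 = m by omega, ZMod.natCast_self]
        change m - (x + 1).val < m - x.val
        omega

theorem dm_clean (m : ℕ) (hm : 0 < m)
    (h : (∀ a k, κ a = some k → k ≤ 1) ∨ m.Prime) : NoCyc (ein (dm κ m) 0) := by
  have : NeZero m := ⟨hm.ne'⟩
  rcases h with h | h
  · exact dm_clean_one κ m h
  · exact dm_clean_prime κ m h

theorem dt_clean (t : ℕ) : NoCyc (ein (dt κ t) 0) := by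
  refine noCyc_cl (ρ := fun i : Fin (t + 1) => t - i.val) fun a => Or.inl fun x y h => ?_
  unfold ein dt at h
  cases h0 : κ a with
  | none =>
    rw [h0] at h
    cases h
  | some k =>
    rw [h0] at h
    change (if (⟨min (x.val + k) t, _⟩ : Fin (t + 1)) = 0 then none else
      some (⟨min (x.val + k) t, _⟩ : Fin (t + 1))) = some y at h
    by_cases h1 : (⟨min (x.val + k) t, by omega⟩ : Fin (t + 1)) = 0
    · rw [if_pos h1] at h; cases h
    · rw [if_neg h1] at h
      cases h
      have h2 := x.isLt
      by_cases h3 : x.val = t ∨ k = 0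
      · right
        apply Fin.ext
        change min (x.val + k) t = x.val
        omega
      · left
        change t - min (x.val + k) t < t - x.val
        omega

end inner

section sym

variable {α X A : Type} [DecidableEq α] [AddCommGroup A] (κ : α → Option ℕ)

/-- the last reset letter and the sum of the numbers of the letters since then -/
def lt (x : α × ℕ) (a : α) : α × ℕ :=
  match κ a with
  | none => (a, 0)
  | some k => (x.1, x.2 + k)

/-- the weight of a letter -/
def w1 (s : α → ℕ → α → A) (x : α × ℕ) (a : α) : A :=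
  match κ a with
  | none => s x.1 x.2 a
  | some _ => 0

/-- the sum of the weights -/
def tw (s : α → ℕ → α → A) : α × ℕ → List α → A
  | _, [] => 0
  | x, a :: w => w1 κ s x a + tw s (lt κ x a) w

/-- the state of a tracker of residues -/
def sm (m : ℕ) (c : α) (x : α × ℕ) : Option (ZMod m) := if x.1 = c then some (x.2 : ZMod m) else none

/-- the state of a tracker of numbers -/
def st (t : ℕ) (c : α) (x : α × ℕ) : Option (Fin (t + 1)) :=
  if x.1 = c then some ⟨min x.2 t, by omega⟩ else none

theorem sm_fold (m : ℕ) (c : α) (hc : κ c = none) (w : List α) :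
    ∀ x : α × ℕ, w.foldl (trk (dm κ m) 0 c) (sm m c x) = sm m c (w.foldl (lt κ) x) := by
  induction w with
  | nil => intro x; rfl
  | cons a w ih =>
    intro x
    rw [List.foldl_cons, List.foldl_cons, ← ih]
    congr 1
    unfold sm
    by_cases hx : x.1 = c
    · rw [if_pos hx, trk]
      cases h : κ a with
      | some k =>
        have e1 : lt κ x a = (x.1, x.2 + k) := by rw [lt, h]
        rw [e1, if_pos hx]
        unfold dm
        rw [h]
        change some ((x.2 : ZMod m) + k) = some ((x.2 + k : ℕ) : ZMod m)
        rw [Nat.cast_add]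
      | none =>
        have e1 : lt κ x a = (a, 0) := by rw [lt, h]
        rw [e1]
        unfold dm
        rw [h]
        change (if a = c then some (0 : ZMod m) else none) =
          if a = c then some ((0 : ℕ) : ZMod m) else none
        rw [Nat.cast_zero]
    · rw [if_neg hx, trk]
      cases h : κ a with
      | some k =>
        have e1 : lt κ x a = (x.1, x.2 + k) := by rw [lt, h]
        rw [e1, if_neg hx, if_neg]
        intro h1
        rw [h1, hc] at h
        cases h
      | none =>
        have e1 : lt κ x a = (a, 0) := by rw [lt, h]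
        rw [e1]
        change (if a = c then some (0 : ZMod m) else none) =
          if a = c then some ((0 : ℕ) : ZMod m) else none
        rw [Nat.cast_zero]

theorem st_fold (t : ℕ) (c : α) (hc : κ c = none) (w : List α) :
    ∀ x : α × ℕ, w.foldl (trk (dt κ t) 0 c) (st t c x) = st t c (w.foldl (lt κ) x) := by
  induction w with
  | nil => intro x; rfl
  | cons a w ih =>
    intro x
    rw [List.foldl_cons, List.foldl_cons, ← ih]
    congr 1
    unfold st
    by_cases hx : x.1 = c
    · rw [if_pos hx, trk]
      cases h : κ a with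
      | some k =>
        have e1 : lt κ x a = (x.1, x.2 + k) := by rw [lt, h]
        rw [e1, if_pos hx]
        unfold dt
        rw [h]
        change some (⟨min (min x.2 t + k) t, _⟩ : Fin (t + 1)) =
          some (⟨min (x.2 + k) t, _⟩ : Fin (t + 1))
        congr 2
        omega
      | none =>
        have e1 : lt κ x a = (a, 0) := by rw [lt, h]
        rw [e1]
        unfold dt
        rw [h]
        change (if a = c then some (0 : Fin (t + 1)) else none) =
          if a = c then some (⟨min 0 t, _⟩ : Fin (t + 1)) else none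
        congr 2
    · rw [if_neg hx, trk]
      cases h : κ a with
      | some k =>
        have e1 : lt κ x a = (x.1, x.2 + k) := by rw [lt, h]
        rw [e1, if_neg hx, if_neg]
        intro h1
        rw [h1, hc] at h
        cases h
      | none =>
        have e1 : lt κ x a = (a, 0) := by rw [lt, h]
        rw [e1]
        change (if a = c then some (0 : Fin (t + 1)) else none) =
          if a = c then some (⟨min 0 t, _⟩ : Fin (t + 1)) else none
        congr 2

/-- the weights are the sum of the weights of the trackers -/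
theorem tw_sum [Fintype α] (m t : ℕ) (s : α → ℕ → α → A) (s1 : α → ZMod m → α → A)
    (s2 : α → Fin (t + 1) → α → A)
    (hs : ∀ c i d, s c i d = s1 c (i : ZMod m) d + s2 c ⟨min i t, by omega⟩ d)
    (w : List α) : ∀ x : α × ℕ, κ x.1 = none →
    tw κ s x w = ∑ c : {c : α // κ c = none},
      (blk (dm κ m) 0 c.1 (s1 c.1) (sm m c.1 x) w +
        blk (dt κ t) 0 c.1 (s2 c.1) (st t c.1 x) w) := by
  induction w with
  | nil =>
    intro x _
    rw [tw]
    symm
    exact Finset.sum_eq_zero fun c _ => by rw [blk, blk, add_zero]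
  | cons a w ih =>
    intro x hx
    have key : ∀ c : {c : α // κ c = none},
        blk (dm κ m) 0 c.1 (s1 c.1) (sm m c.1 x) (a :: w) +
          blk (dt κ t) 0 c.1 (s2 c.1) (st t c.1 x) (a :: w) =
        (if c.1 = x.1 then w1 κ s x a else 0) +
          (blk (dm κ m) 0 c.1 (s1 c.1) (sm m c.1 (lt κ x a)) w +
            blk (dt κ t) 0 c.1 (s2 c.1) (st t c.1 (lt κ x a)) w) := by
      intro c
      have t1 := sm_fold κ m c.1 c.2 [a] x
      have t2 := st_fold κ t c.1 c.2 [a] x
      change trk (dm κ m) 0 c.1 (sm m c.1 x) a = sm m c.1 (lt κ x a) at t1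
      change trk (dt κ t) 0 c.1 (st t c.1 x) a = st t c.1 (lt κ x a) at t2
      by_cases hcx : c.1 = x.1
      · have e1 : sm m c.1 x = some (x.2 : ZMod m) := if_pos hcx.symm
        have e2 : st t c.1 x = some ⟨min x.2 t, by omega⟩ := if_pos hcx.symm
        rw [e1] at t1 ⊢
        rw [e2] at t2 ⊢
        rw [if_pos hcx]
        cases h : κ a with
        | some k =>
          have g1 : dm κ m (x.2 : ZMod m) a = some ((x.2 : ZMod m) + k) := by rw [dm, h]
          have g2 : dt κ t ⟨min x.2 t, by omega⟩ a =
              some ⟨min (min x.2 t + k) t, by omega⟩ := by rw [dt, h]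
          rw [trk, g1] at t1
          rw [trk, g2] at t2
          rw [blk, g1, blk, g2, w1, h, zero_add, ← t1, ← t2]
        | none =>
          have g1 : dm κ m (x.2 : ZMod m) a = none := by rw [dm, h]
          have g2 : dt κ t ⟨min x.2 t, by omega⟩ a = none := by rw [dt, h]
          rw [trk, g1] at t1
          rw [trk, g2] at t2
          rw [blk, g1, blk, g2, w1, h, ← t1, ← t2]
          change s1 c.1 (x.2 : ZMod m) a + _ + (s2 c.1 ⟨min x.2 t, _⟩ a + _) = s x.1 x.2 a + _
          rw [← hcx, hs c.1 x.2 a]
          abel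
      · have e1 : sm m c.1 x = none := if_neg fun h => hcx h.symm
        have e2 : st t c.1 x = none := if_neg fun h => hcx h.symm
        rw [e1] at t1 ⊢
        rw [e2] at t2 ⊢
        rw [trk] at t1 t2
        rw [if_neg hcx, zero_add, blk, blk, t1, t2]
    have hx' : κ (lt κ x a).1 = none := by
      unfold lt
      cases h : κ a with
      | some k => exact hx
      | none => exact h
    have h3 : ∀ c : {c : α // κ c = none}, (if c.1 = x.1 then w1 κ s x a else 0) =
        if c = ⟨x.1, hx⟩ then w1 κ s x a else 0 := by
      intro c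
      by_cases h4 : c.1 = x.1
      · rw [if_pos h4, if_pos (Subtype.ext h4)]
      · rw [if_neg h4, if_neg fun h5 => h4 (congrArg Subtype.val h5)]
    have h5 : ∑ c : {c : α // κ c = none}, (if c.1 = x.1 then w1 κ s x a else 0) =
        w1 κ s x a := by
      rw [Finset.sum_congr rfl fun c _ => h3 c, Finset.sum_ite_eq' Finset.univ,
        if_pos (Finset.mem_univ _)]
    calc tw κ s x (a :: w) = w1 κ s x a + tw κ s (lt κ x a) w := rfl
      _ = (∑ c : {c : α // κ c = none}, (if c.1 = x.1 then w1 κ s x a else 0)) +
            ∑ c : {c : α // κ c = none},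
              (blk (dm κ m) 0 c.1 (s1 c.1) (sm m c.1 (lt κ x a)) w +
                blk (dt κ t) 0 c.1 (s2 c.1) (st t c.1 (lt κ x a)) w) := by rw [h5, ih _ hx']
      _ = _ := by
          rw [← Finset.sum_add_distrib]
          exact Finset.sum_congr rfl fun c _ => (key c).symm

/-- the automaton with an additional sink -/
def bd (P : X → α → Option X) (x : Option X) (a : α) : Option X := x.bind fun y => P y a

omit [DecidableEq α] in
theorem bd_none (P : X → α → Option X) (w : List α) : w.foldl (bd P) none = none := by
  induction w with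
  | nil => rfl
  | cons a w ih => rw [List.foldl_cons]; exact ih

omit [DecidableEq α] in
theorem bd_cons (P : X → α → Option X) (a : α) (w : List α) (z y : X)
    (h : (a :: w).foldl (bd P) (some z) = some y) :
    ∃ z1, P z a = some z1 ∧ w.foldl (bd P) (some z1) = some y := by
  rw [List.foldl_cons] at h
  change w.foldl (bd P) (P z a) = some y at h
  cases h1 : P z a with
  | none => rw [h1, bd_none] at h; cases h
  | some z1 => rw [h1] at h; exact ⟨z1, rfl, h⟩

variable (P : X → α → Option X) (f : X → X) (e : α → A → X)
  (h1 : ∀ a k, κ a = some k → ∀ x y, P x a = some y → y = f^[k] x)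

include h1

omit [DecidableEq α] in
/-- the runs of the automaton -/
theorem sym_run (s : α → ℕ → α → A)
    (h2 : ∀ b, κ b = none → ∀ c, κ c = none → ∀ i : ℕ,
      (∀ j y, P (f^[i] (e b j)) c = some y → y = e c (j + s b i c)) ∨
      (∀ j j' y y', P (f^[i] (e b j)) c = some y →
        P (f^[i] (e b j')) c = some y' → y = y')) (w : List α) :
    ∀ x : α × ℕ, κ x.1 = none →
    (∀ j j' y y',
      w.foldl (bd P) (some (f^[x.2] (e x.1 j))) = some y →
      w.foldl (bd P) (some (f^[x.2] (e x.1 j'))) = some y' → y = y') ∨
    (∀ j y, w.foldl (bd P) (some (f^[x.2] (e x.1 j))) = some y →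
      y = f^[(w.foldl (lt κ) x).2] (e (w.foldl (lt κ) x).1 (j + tw κ s x w))) := by
  induction w with
  | nil =>
    intro x _
    refine Or.inr fun j y h => ?_
    rw [tw, add_zero]
    exact (Option.some.inj h).symm
  | cons a w ih =>
    intro x hx
    cases h : κ a with
    | some k =>
      have e1 : lt κ x a = (x.1, x.2 + k) := by rw [lt, h]
      have e2 : w1 κ s x a = 0 := by rw [w1, h]
      have e3 : ∀ j y, (a :: w).foldl (bd P) (some (f^[x.2] (e x.1 j))) = some y →
          w.foldl (bd P) (some (f^[x.2 + k] (e x.1 j))) = some y := by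
        intro j y hy
        obtain ⟨z1, h3, h4⟩ := bd_cons P a w _ y hy
        have h5 : z1 = f^[x.2 + k] (e x.1 j) := by
          rw [h1 a k h _ z1 h3, ← Function.iterate_add_apply, Nat.add_comm]
        rw [h5] at h4
        exact h4
      rw [List.foldl_cons, e1, tw, e1, e2, zero_add]
      rcases ih (x.1, x.2 + k) hx with h3 | h3
      · exact Or.inl fun j j' y y' g1 g2 => h3 j j' y y' (e3 j y g1) (e3 j' y' g2)
      · exact Or.inr fun j y g1 => h3 j y (e3 j y g1)
    | none =>
      have e1 : lt κ x a = (a, 0) := by rw [lt, h]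
      have e2 : w1 κ s x a = s x.1 x.2 a := by rw [w1, h]
      rw [List.foldl_cons, e1, tw, e1, e2]
      rcases h2 x.1 hx a h x.2 with h3 | h3
      · have e3 : ∀ j y, (a :: w).foldl (bd P) (some (f^[x.2] (e x.1 j))) = some y →
            w.foldl (bd P) (some (f^[0] (e a (j + s x.1 x.2 a)))) = some y := by
          intro j y hy
          obtain ⟨z1, h4, h5⟩ := bd_cons P a w _ y hy
          rw [h3 j z1 h4] at h5
          exact h5
        rcases ih (a, 0) h with h4 | h4
        · exact Or.inl fun j j' y y' g1 g2 => h4 _ _ y y' (e3 j y g1) (e3 j' y' g2)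
        · refine Or.inr fun j y g1 => ?_
          rw [← add_assoc]
          exact h4 _ y (e3 j y g1)
      · refine Or.inl fun j j' y y' g1 g2 => ?_
        obtain ⟨z1, h4, h5⟩ := bd_cons P a w _ y g1
        obtain ⟨z2, h6, h7⟩ := bd_cons P a w _ y' g2
        rw [h3 j j' z1 z2 h4 h6, h7] at h5
        exact (Option.some.inj h5).symm

omit [DecidableEq α] [AddCommGroup A] in
/-- words without reset letters -/
theorem sym_no (w : List α) (hw : ∀ c ∈ w, κ c ≠ none) :
    ∃ k : ℕ, (∀ x : α × ℕ, w.foldl (lt κ) x = (x.1, x.2 + k)) ∧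
      ∀ z y, w.foldl (bd P) (some z) = some y → y = f^[k] z := by
  induction w with
  | nil =>
    exact ⟨0, fun x => rfl, fun z y h => (Option.some.inj h).symm⟩
  | cons a w ih =>
    obtain ⟨k, g1, g2⟩ := ih fun c hc => hw c (List.mem_cons_of_mem _ hc)
    cases h : κ a with
    | none => exact absurd h (hw a List.mem_cons_self)
    | some k0 =>
      have e1 : ∀ x, lt κ x a = (x.1, x.2 + k0) := by intro x; rw [lt, h]
      refine ⟨k0 + k, fun x => ?_, fun z y hy => ?_⟩
      · rw [List.foldl_cons, e1, g1]
        congr 1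
        change x.2 + k0 + k = _
        omega
      · obtain ⟨z1, h3, h4⟩ := bd_cons P a w z y hy
        rw [g2 z1 y h4, h1 a k0 h z z1 h3, ← Function.iterate_add_apply, Nat.add_comm k k0]

omit [DecidableEq α] [AddCommGroup A] in
/-- words with reset letters -/
theorem sym_end (hr : ∀ a, κ a = none → ∀ x y, P x a = some y → ∃ j, y = e a j)
    (w : List α) (hw : ∃ c ∈ w, κ c = none) :
    ∃ (b : α) (i : ℕ), κ b = none ∧ (∀ x, w.foldl (lt κ) x = (b, i)) ∧
      ∀ z y, w.foldl (bd P) (some z) = some y → ∃ j, y = f^[i] (e b j) := by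
  induction w with
  | nil =>
    obtain ⟨c, hc, -⟩ := hw
    exact absurd hc (by simp)
  | cons a w ih =>
    by_cases hw' : ∃ c ∈ w, κ c = none
    · obtain ⟨b, i, g1, g2, g3⟩ := ih hw'
      refine ⟨b, i, g1, fun x => g2 _, fun z y hy => ?_⟩
      obtain ⟨z1, h3, h4⟩ := bd_cons P a w z y hy
      exact g3 z1 y h4
    · push Not at hw'
      obtain ⟨k, g1, g2⟩ := sym_no κ P f h1 w hw'
      obtain ⟨c, hc, hc'⟩ := hw
      rcases List.mem_cons.1 hc with hc | hc
      · subst hc
        refine ⟨c, k, hc', fun x => ?_, fun z y hy => ?_⟩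
        · have e1 : lt κ x c = (c, 0) := by rw [lt, hc']
          rw [List.foldl_cons, e1, g1]
          change (c, 0 + k) = (c, k)
          rw [Nat.zero_add]
        · obtain ⟨z1, h3, h4⟩ := bd_cons P c w z y hy
          obtain ⟨j, hj⟩ := hr c hc' z z1 h3
          have h5 := g2 z1 y h4
          rw [hj] at h5
          exact ⟨j, h5⟩
      · exact absurd hc' (hw' c hc)

end sym

end Vale.Agent.P329.H81
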