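import Vale.Agent.P329.H81.WCore
import Vale.Agent.P329.H81.Code

/-!
P329: the wreath product of a finite abelian group and an automaton whose letters act as powers
`1`, `-1`, `0` of one permutation or as constants.
-/

set_option linter.all false

namespace Vale.Agent.P329.H81

open Vale.Agent.P329 Vale.Agent.P329.S4 Vale.Agent.P329.H550 Vale.Agent.P329.H211
  Vale.Agent.P329.H112 Vale.Agent.P329.H157 Vale.Agent.P329.H647 Vale.Agent.P329.H96

/-- sums with values in a finite abelian group -/
theorem kn_of_sum {α ι A : Type} [Fintype ι] [AddCommGroup A] [Finite A] (N : ι → List α → ℤ)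
    (hN : ∀ i, KnZ (N i)) (s : ι → A) : Kn fun w => ∑ i, N i w • s i := by
  classical
  have hA : 0 < Nat.card A := Nat.card_pos
  have : NeZero (Nat.card A) := ⟨hA.ne'⟩
  have h1 : Kn fun w => fun t : ι => ((N t w : ℤ) : ZMod (Nat.card A)) :=
    Kn.pi fun t => hN t _ hA
  have h2 := h1.comp fun g => ∑ t : ι, (g t).val • s t
  refine Eq.mp (congrArg Kn ?_) h2
  funext w
  refine Finset.sum_congr rfl fun t _ => ?_
  have h3 : ∀ (k : ℤ) (y : A), ((k : ZMod (Nat.card A)).val : ℕ) • y = k • y := by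
    intro k y
    have h4 : ((((k : ZMod (Nat.card A)).val : ℕ) : ℤ) : ZMod (Nat.card A)) = (k : ZMod _) := by
      rw [Int.cast_natCast, ZMod.natCast_zmod_val]
    rw [ZMod.intCast_eq_intCast_iff_dvd_sub] at h4
    obtain ⟨c, hc⟩ := h4
    have h5 : k = ((k : ZMod (Nat.card A)).val : ℤ) + (Nat.card A : ℤ) * c := by linarith
    have h6 : (Nat.card A : ℤ) • (c • y) = 0 := by
      rw [natCast_zsmul]
      exact card_nsmul_eq_zero'
    conv_rhs => rw [h5, add_smul, mul_smul, h6, add_zero, natCast_zsmul]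
  exact h3 _ _

section iw

variable {α : Type} [DecidableEq α] (Rs : α → Prop) [DecidablePred Rs] {n : ℕ} (φ : α → ℤ)
  (b0 : α)

/-- the residue in the blocks which start with `b0` -/
def rt : Option (ZMod n) → α → Option (ZMod n)
  | none, c => if c = b0 then some 0 else none
  | some v, c => if Rs c then (if c = b0 then some 0 else none) else some (v + (φ c : ZMod n))

/-- the sum of the weights of the letters read in the blocks which start with `b0` -/
def iw {A : Type} [AddCommMonoid A] (g : ZMod n → α → A) : Option (ZMod n) → List α → A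
  | _, [] => 0
  | none, c :: w => iw g (rt Rs φ b0 none c) w
  | some v, c :: w => g v c + iw g (rt Rs φ b0 (some v) c) w

/-- the indicator weight -/
def jd (v0 : ZMod n) (c0 : α) (v : ZMod n) (c : α) : ℤ := if v = v0 ∧ c = c0 then 1 else 0

variable [NeZero n]

open Classical in
/-- the inner automaton with memory -/
noncomputable def dmm : ZMod n × Mem n → α → Option (ZMod n × Mem n) :=
  dn Rs (tot φ (me n) (mu φ b0))

variable {Rs φ b0}

theorem dmm_res {q : ZMod n × Mem n} {c : α} (h : Rs c) : dmm Rs φ b0 q c = none := if_pos h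

theorem dmm_inn {q : ZMod n × Mem n} {c : α} (h : ¬ Rs c) :
    ∃ m, dmm Rs φ b0 q c = some (q.1 + (φ c : ZMod n), m) := by
  have h1 : dmm Rs φ b0 q c = some (tot φ (me n) (mu φ b0) q c) := if_neg h
  rw [h1]
  unfold tot
  by_cases h2 : q.1 + (φ c : ZMod n) = 0
  · rw [if_pos h2, h2]; exact ⟨_, rfl⟩
  · rw [if_neg h2]; exact ⟨_, rfl⟩

theorem rt_kn_aux [Finite α] (hb0 : Rs b0) (hφ : ∀ x, φ x = 0 ∨ φ x = 1 ∨ φ x = -1)
    (y : Option (ZMod n × Mem n)) :
    Kn fun w : List α => w.foldl (rt Rs φ b0) (y.map Prod.fst) := by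
  classical
  have hc : NoCyc (ein (dmm Rs φ b0) (0, me n)) := tot_ein (noCyc_false hφ)
  have h1 := trk_kn (b := b0) (fun q => dmm_res (Rs := Rs) (φ := φ) (b0 := b0) (q := q) hb0) hc y
  have h2 := h1.comp fun y => y.map Prod.fst
  refine Eq.mp (congrArg Kn ?_) h2
  funext w
  induction w generalizing y with
  | nil => rfl
  | cons c w ih =>
    have h1' := trk_kn (b := b0)
      (fun q => dmm_res (Rs := Rs) (φ := φ) (b0 := b0) (q := q) hb0) hc
    rw [List.foldl_cons, List.foldl_cons]
    have key : (trk (dmm Rs φ b0) (0, me n) b0 y c).map Prod.fst =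
        rt Rs φ b0 (y.map Prod.fst) c := by
      cases y with
      | none =>
        rw [trk]
        change _ = if c = b0 then some 0 else none
        by_cases h : c = b0
        · rw [if_pos h, if_pos h]; rfl
        · rw [if_neg h, if_neg h]; rfl
      | some q =>
        rw [Option.map_some, rt]
        by_cases h : Rs c
        · rw [trk, dmm_res h, if_pos h]
          by_cases h2 : c = b0
          · rw [if_pos h2, if_pos h2]; rfl
          · rw [if_neg h2, if_neg h2]; rfl
        · obtain ⟨m, hm⟩ := dmm_inn (q := q) (b0 := b0) (φ := φ) h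
          rw [trk, hm, if_neg h]; rfl
    rw [← key]
    exact ih _ (h1' _) ((h1' _).comp _)

theorem rt_kn [Finite α] (hb0 : Rs b0) (hφ : ∀ x, φ x = 0 ∨ φ x = 1 ∨ φ x = -1)
    (y : Option (ZMod n)) : Kn fun w : List α => w.foldl (rt Rs φ b0) y := by
  have h := rt_kn_aux (n := n) hb0 hφ (y.map fun v => (v, me n))
  have e : (y.map fun v => (v, me n)).map Prod.fst = y := by
    cases y <;> rfl
  rw [e] at h
  exact h

/-- reset letters -/
theorem iw_blk {c0 : α} (hc0 : Rs c0) (v0 : ZMod n) (w : List α) :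
    iw Rs φ b0 (jd v0 c0) none w =
      blk (dmm Rs φ b0) (0, me n) b0 (fun q c => jd v0 c0 q.1 c) none w ∧
    ∀ q : ZMod n × Mem n, iw Rs φ b0 (jd v0 c0) (some q.1) w =
      blk (dmm Rs φ b0) (0, me n) b0 (fun q c => jd v0 c0 q.1 c) (some q) w := by
  induction w with
  | nil => exact ⟨rfl, fun q => rfl⟩
  | cons c w ih =>
    obtain ⟨ih1, ih2⟩ := ih
    have hif : iw Rs φ b0 (jd v0 c0) (if c = b0 then some (0 : ZMod n) else none) w =
        blk (dmm Rs φ b0) (0, me n) b0 (fun q c => jd v0 c0 q.1 c)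
          (if c = b0 then some (0, me n) else none) w := by
      by_cases h : c = b0
      · rw [if_pos h, if_pos h]; exact ih2 (0, me n)
      · rw [if_neg h, if_neg h, ih1]
    refine ⟨?_, fun q => ?_⟩
    · rw [iw, blk, rt, hif]
    · rw [iw, rt]
      by_cases h : Rs c
      · rw [if_pos h, hif, blk, dmm_res h]
      · obtain ⟨m, hm⟩ := dmm_inn (q := q) (b0 := b0) (φ := φ) h
        have h1 : jd v0 c0 q.1 c = 0 :=
          if_neg fun (h2 : q.1 = v0 ∧ c = c0) => h (by rw [h2.2]; exact hc0)
        rw [if_neg h, blk, hm, h1, zero_add]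
        exact ih2 (q.1 + (φ c : ZMod n), m)

/-- letters inside of blocks -/
theorem iw_bs {c0 : α} (hc0 : ¬ Rs c0) (v0 : ZMod n) (w : List α) :
    iw Rs φ b0 (jd v0 c0) none w =
      bs Rs b0 (W (adda fun x => (φ x : ZMod n)) c0 (ind v0) 0) none w ∧
    ∀ x : List α, bs Rs b0 (W (adda fun x => (φ x : ZMod n)) c0 (ind v0) 0) (some x) w =
      W (adda fun x => (φ x : ZMod n)) c0 (ind v0) 0 x +
        iw Rs φ b0 (jd v0 c0) (some (x.foldl (adda fun x => (φ x : ZMod n)) 0)) w := by
  classical
  induction w with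
  | nil =>
    refine ⟨rfl, fun x => ?_⟩
    rw [bs, iw, add_zero]
  | cons c w ih =>
    obtain ⟨ih1, ih2⟩ := ih
    have hif : iw Rs φ b0 (jd v0 c0) (if c = b0 then some (0 : ZMod n) else none) w =
        bs Rs b0 (W (adda fun x => (φ x : ZMod n)) c0 (ind v0) 0)
          (if c = b0 then some [] else none) w := by
      by_cases h : c = b0
      · rw [if_pos h, if_pos h, ih2, W_nil, zero_add]; rfl
      · rw [if_neg h, if_neg h, ih1]
    refine ⟨?_, fun x => ?_⟩
    · rw [iw, bs, rt, hif]
    · rw [bs, iw, rt]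
      by_cases h : Rs c
      · have h1 : jd v0 c0 (x.foldl (adda fun x => (φ x : ZMod n)) 0) c = 0 :=
          if_neg fun (h2 : _ = v0 ∧ c = c0) => hc0 (by rw [← h2.2]; exact h)
        rw [if_pos h, if_pos h, h1, zero_add, hif]
      · rw [if_neg h, if_neg h, ih2, W_snoc, List.foldl_append, add_assoc]
        congr 1
        by_cases h2 : c = c0
        · have h1 : jd v0 c0 (x.foldl (adda fun x => (φ x : ZMod n)) 0) c =
              ind v0 (x.foldl (adda fun x => (φ x : ZMod n)) 0) := by
            by_cases h3 : x.foldl (adda fun x => (φ x : ZMod n)) 0 = v0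
            · rw [h3, ind_self]
              exact if_pos ⟨rfl, h2⟩
            · rw [ind_ne h3]
              exact if_neg fun (h4 : _ = v0 ∧ c = c0) => h3 h4.1
          rw [if_pos h2, h1]
          rfl
        · have h1 : jd v0 c0 (x.foldl (adda fun x => (φ x : ZMod n)) 0) c = 0 :=
            if_neg fun (h4 : _ = v0 ∧ c = c0) => h2 h4.2
          rw [if_neg h2, h1]
          rfl

theorem iw_knZ [Finite α] (hb0 : Rs b0) (hφ : ∀ x, φ x = 0 ∨ φ x = 1 ∨ φ x = -1)
    (v0 : ZMod n) (c0 : α) : KnZ (iw Rs φ b0 (jd v0 c0) none) ∧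
      KnZ (iw Rs φ b0 (jd v0 c0) (some 0)) := by
  classical
  have hc : NoCyc (ein (dmm Rs φ b0) (0, me n)) := tot_ein (noCyc_false hφ)
  have hb : ∀ q : ZMod n × Mem n, dmm Rs φ b0 q b0 = none := fun q => dmm_res hb0
  by_cases h : Rs c0
  · refine ⟨?_, ?_⟩
    · exact (blk_knZ b0 (0, me n) hb hc (fun q c => jd v0 c0 q.1 c) none).congr fun w =>
        (iw_blk h v0 w).1
    · exact (blk_knZ b0 (0, me n) hb hc (fun q c => jd v0 c0 q.1 c) (some (0, me n))).congr
        fun w => (iw_blk h v0 w).2 (0, me n)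
  · have h1 := bk_core (b0 := b0) hb0 φ hφ c0 (ind v0)
    refine ⟨?_, ?_⟩
    · exact h1.1.congr fun w => (iw_bs h v0 w).1
    · refine h1.2.congr fun w => ?_
      rw [(iw_bs h v0 w).2 [], W_nil, zero_add]
      rfl

/-- weights in an abelian group -/
theorem iw_sum [Fintype α] {A : Type} [AddCommGroup A] (g : ZMod n → α → A) (w : List α) :
    ∀ x : Option (ZMod n), iw Rs φ b0 g x w =
      ∑ t : ZMod n × α, iw Rs φ b0 (jd t.1 t.2) x w • g t.1 t.2 := by
  induction w with
  | nil =>
    intro x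
    rw [iw]
    symm
    exact Finset.sum_eq_zero fun t _ => by rw [iw, zero_smul]
  | cons c w ih =>
    intro x
    cases x with
    | none =>
      rw [iw, ih]
      exact Finset.sum_congr rfl fun t _ => by rw [iw]
    | some v =>
      have h3 : ∀ t : ZMod n × α, iw Rs φ b0 (jd t.1 t.2) (some v) (c :: w) • g t.1 t.2 =
          jd t.1 t.2 v c • g t.1 t.2 +
            iw Rs φ b0 (jd t.1 t.2) (rt Rs φ b0 (some v) c) w • g t.1 t.2 :=
        fun t => by rw [iw, add_smul]
      rw [iw, ih, Finset.sum_congr rfl fun t _ => h3 t, Finset.sum_add_distrib]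
      congr 1
      have h2 : ∀ t : ZMod n × α, jd t.1 t.2 v c • g t.1 t.2 =
          if t = (v, c) then g v c else 0 := by
        intro t
        unfold jd
        by_cases h3 : t = (v, c)
        · rw [if_pos h3, h3, if_pos ⟨rfl, rfl⟩, one_smul]
        · rw [if_neg h3, if_neg fun h4 => h3 (Prod.ext h4.1.symm h4.2.symm), zero_smul]
      rw [Finset.sum_congr rfl fun t _ => h2 t, Finset.sum_ite_eq' Finset.univ (v, c),
        if_pos (Finset.mem_univ _)]

theorem iw_kn [Finite α] (hb0 : Rs b0) (hφ : ∀ x, φ x = 0 ∨ φ x = 1 ∨ φ x = -1)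
    {A : Type} [AddCommGroup A] [Finite A] (g : ZMod n → α → A) :
    Kn (iw Rs φ b0 g none) ∧ Kn (iw Rs φ b0 g (some 0)) := by
  classical
  have := Fintype.ofFinite α
  refine ⟨?_, ?_⟩
  · refine Eq.mp (congrArg Kn (funext fun w => (iw_sum g w none).symm))
      (kn_of_sum (fun (t : ZMod n × α) => iw Rs φ b0 (jd t.1 t.2) none)
        (fun t => (iw_knZ hb0 hφ t.1 t.2).1) fun t => g t.1 t.2)
  · refine Eq.mp (congrArg Kn (funext fun w => (iw_sum g w (some 0)).symm))
      (kn_of_sum (fun (t : ZMod n × α) => iw Rs φ b0 (jd t.1 t.2) (some 0))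
        (fun t => (iw_knZ hb0 hφ t.1 t.2).2) fun t => g t.1 t.2)

end iw

section all

variable {α A : Type} [DecidableEq α] [AddCommGroup A] (Rs : α → Prop) [DecidablePred Rs]
  {n : ℕ} (φ : α → ℤ)

/-- the last reset letter and the residue since then -/
def lz (x : α × ZMod n) (c : α) : α × ZMod n :=
  if Rs c then (c, 0) else (x.1, x.2 + (φ c : ZMod n))

/-- the sum of all weights -/
def tz (g : α → ZMod n → α → A) : α × ZMod n → List α → A
  | _, [] => 0
  | x, c :: w => g x.1 x.2 c + tz g (lz Rs φ x c) w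

/-- the state for `b` -/
def zs (b : α) (x : α × ZMod n) : Option (ZMod n) := if x.1 = b then some x.2 else none

theorem zs_step {b : α} (hb : Rs b) (x : α × ZMod n) (c : α) :
    rt Rs φ b (zs b x) c = zs b (lz Rs φ x c) := by
  unfold zs lz
  by_cases hx : x.1 = b
  · rw [if_pos hx, rt]
    by_cases h : Rs c
    · rw [if_pos h, if_pos h]
    · rw [if_neg h, if_neg h, if_pos hx]
  · rw [if_neg hx, rt]
    by_cases h : Rs c
    · rw [if_pos h]
    · rw [if_neg h, if_neg hx, if_neg]
      rintro rfl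
      exact h hb

theorem zs_fold {b : α} (hb : Rs b) (w : List α) : ∀ x : α × ZMod n,
    w.foldl (rt Rs φ b) (zs b x) = zs b (w.foldl (lz Rs φ) x) := by
  induction w with
  | nil => intro x; rfl
  | cons c w ih => intro x; rw [List.foldl_cons, List.foldl_cons, zs_step Rs φ hb, ih]

theorem tz_sum [Fintype α] (g : α → ZMod n → α → A) (w : List α) : ∀ x : α × ZMod n, Rs x.1 →
    tz Rs φ g x w = ∑ b : {b : α // Rs b}, iw Rs φ b.1 (g b.1) (zs b.1 x) w := by
  induction w with
  | nil =>
    intro x _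
    rw [tz]
    symm
    exact Finset.sum_eq_zero fun b _ => by rw [iw]
  | cons c w ih =>
    intro x hx
    have key : ∀ b : {b : α // Rs b}, iw Rs φ b.1 (g b.1) (zs b.1 x) (c :: w) =
        (if b = ⟨x.1, hx⟩ then g x.1 x.2 c else 0) +
          iw Rs φ b.1 (g b.1) (zs b.1 (lz Rs φ x c)) w := by
      intro b
      have h1 := zs_step Rs φ b.2 x c
      by_cases h : b = ⟨x.1, hx⟩
      · have h2 : x.1 = b.1 := by rw [h]
        have h3 : zs b.1 x = some x.2 := if_pos h2
        rw [h3] at h1 ⊢
        rw [if_pos h, iw, h1, h2]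
      · have h2 : x.1 ≠ b.1 := fun h3 => h (Subtype.ext h3.symm)
        have h3 : zs b.1 x = none := if_neg h2
        rw [h3] at h1 ⊢
        rw [if_neg h, iw, h1, zero_add]
    have hx' : Rs (lz Rs φ x c).1 := by
      unfold lz
      by_cases h : Rs c
      · rw [if_pos h]; exact h
      · rw [if_neg h]; exact hx
    rw [tz, ih _ hx', Finset.sum_congr rfl fun b _ => key b, Finset.sum_add_distrib]
    congr 1
    rw [Finset.sum_ite_eq' Finset.univ, if_pos (Finset.mem_univ _)]

variable {Rs φ} [NeZero n]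

theorem tz_kn [Finite α] [Finite A] (hφ : ∀ x, φ x = 0 ∨ φ x = 1 ∨ φ x = -1)
    (g : α → ZMod n → α → A) (b : α) (hb : Rs b) : Kn (tz Rs φ g (b, 0)) := by
  classical
  have := Fintype.ofFinite α
  have h1 : Kn fun w => fun b' : {b : α // Rs b} =>
      iw Rs φ b'.1 (g b'.1) (zs b'.1 (b, (0 : ZMod n))) w := by
    refine Kn.pi fun b' => ?_
    by_cases h : b = b'.1
    · rw [show zs b'.1 (b, (0 : ZMod n)) = some 0 from if_pos h]
      exact (iw_kn b'.2 hφ _).2
    · rw [show zs b'.1 (b, (0 : ZMod n)) = none from if_neg h]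
      exact (iw_kn b'.2 hφ _).1
  have h2 := h1.comp fun u => ∑ b', u b'
  refine Eq.mp (congrArg Kn ?_) h2
  funext w
  rw [tz_sum Rs φ g w (b, 0) hb]

theorem lz_sh [Finite α] (hφ : ∀ x, φ x = 0 ∨ φ x = 1 ∨ φ x = -1) (x y : α × ZMod n)
    (hx : Rs x.1) : SH 1 {w : List α | w.foldl (lz Rs φ) x = y} := by
  have hinv : ∀ (w : List α) (x : α × ZMod n), Rs x.1 → Rs (w.foldl (lz Rs φ) x).1 := by
    intro w
    induction w with
    | nil => intro x hx; exact hx
    | cons c w ih =>
      intro x hx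
      rw [List.foldl_cons]
      refine ih _ ?_
      unfold lz
      by_cases h : Rs c
      · rw [if_pos h]; exact h
      · rw [if_neg h]; exact hx
  by_cases hy : Rs y.1
  · refine Eq.mp (congrArg (SH 1) ?_) (rt_kn hy hφ (zs y.1 x) (some y.2))
    ext w
    simp only [Set.mem_setOf_eq]
    rw [zs_fold Rs φ hy]
    unfold zs
    constructor
    · intro h
      by_cases h1 : (w.foldl (lz Rs φ) x).1 = y.1
      · rw [if_pos h1] at h
        exact Prod.ext h1 (Option.some.inj h)
      · rw [if_neg h1] at h; cases h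
    · intro h
      rw [h, if_pos rfl]
  · refine Eq.mp (congrArg (SH 1) ?_) SH.empty
    ext w
    simp only [Set.mem_empty_iff_false, Set.mem_setOf_eq, false_iff]
    intro h
    exact hy (h ▸ hinv w x hx)

end all

end Vale.Agent.P329.H81
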