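import Vale.Agent.P329.H81.WCore
import Vale.Agent.P329.H81.WBlk
import Vale.Agent.P329.H81.Sym

/-!
P329: the wreath product of a finite abelian group and an automaton whose letters act as one map,
as the identity or as constants.
-/

set_option linter.all false

namespace Vale.Agent.P329.H81

open Vale.Agent.P329 Vale.Agent.P329.S4 Vale.Agent.P329.H550 Vale.Agent.P329.H211
  Vale.Agent.P329.H112 Vale.Agent.P329.H157 Vale.Agent.P329.H647 Vale.Agent.P329.H96

section iwp

variable {α Q : Type} [DecidableEq α] [DecidableEq Q]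

/-- the sum of the weights of all letters read in the blocks which start with `b0` -/
def iwp (δ : Q → α → Option Q) (q0 : Q) (b0 : α) {A : Type} [AddCommMonoid A] (g : Q → α → A) :
    Option Q → List α → A
  | _, [] => 0
  | none, c :: w => iwp δ q0 b0 g (trk δ q0 b0 none c) w
  | some q, c :: w => g q c + iwp δ q0 b0 g (trk δ q0 b0 (some q) c) w

/-- the indicator weight -/
def jq (q0 : Q) (c0 : α) (q : Q) (c : α) : ℤ := if q = q0 ∧ c = c0 then 1 else 0

variable {Rs : α → Prop} [DecidablePred Rs] {D : Q → α → Q} {q0 : Q} {b0 : α}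

theorem iwp_res {c0 : α} (hc0 : Rs c0) (q1 : Q) (w : List α) : ∀ x,
    iwp (dn Rs D) q0 b0 (jq q1 c0) x w = blk (dn Rs D) q0 b0 (jq q1 c0) x w := by
  induction w with
  | nil => intro x; rw [iwp, blk]
  | cons c w ih =>
    intro x
    cases x with
    | none => rw [iwp, blk, trk, ih]
    | some q =>
      rw [iwp]
      by_cases h : Rs c
      · have e1 : dn Rs D q c = none := if_pos h
        rw [blk, e1, trk, e1, ih]
      · have e1 : dn Rs D q c = some (D q c) := if_neg h
        have h1 : jq q1 c0 q c = 0 :=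
          if_neg fun (h2 : q = q1 ∧ c = c0) => h (by rw [h2.2]; exact hc0)
        rw [blk, e1, trk, e1, ih, h1, zero_add]

theorem iwp_inn {c0 : α} (hc0 : ¬ Rs c0) (q1 : Q) (w : List α) :
    iwp (dn Rs D) q0 b0 (jq q1 c0) none w =
      bs Rs b0 (W D c0 (ind q1) q0) none w ∧
    ∀ x : List α, bs Rs b0 (W D c0 (ind q1) q0) (some x) w =
      W D c0 (ind q1) q0 x +
        iwp (dn Rs D) q0 b0 (jq q1 c0) (some (x.foldl D q0)) w := by
  classical
  induction w with
  | nil =>
    refine ⟨rfl, fun x => ?_⟩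
    rw [bs, iwp, add_zero]
  | cons c w ih =>
    obtain ⟨ih1, ih2⟩ := ih
    have hif : iwp (dn Rs D) q0 b0 (jq q1 c0) (if c = b0 then some q0 else none) w =
        bs Rs b0 (W D c0 (ind q1) q0) (if c = b0 then some [] else none) w := by
      by_cases h : c = b0
      · rw [if_pos h, if_pos h, ih2, W_nil, zero_add]; rfl
      · rw [if_neg h, if_neg h, ih1]
    refine ⟨?_, fun x => ?_⟩
    · rw [iwp, bs, trk, hif]
    · rw [bs, iwp]
      by_cases h : Rs c
      · have e1 : dn Rs D (x.foldl D q0) c = none := if_pos h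
        have h1 : jq q1 c0 (x.foldl D q0) c = 0 :=
          if_neg fun (h2 : _ = q1 ∧ c = c0) => hc0 (by rw [← h2.2]; exact h)
        rw [if_pos h, trk, e1, h1, zero_add, hif]
      · have e1 : dn Rs D (x.foldl D q0) c = some (D (x.foldl D q0) c) := if_neg h
        rw [if_neg h, trk, e1, ih2, W_snoc, List.foldl_append, add_assoc]
        congr 1
        by_cases h2 : c = c0
        · have h1 : jq q1 c0 (x.foldl D q0) c = ind q1 (x.foldl D q0) := by
            by_cases h3 : x.foldl D q0 = q1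
            · rw [h3, ind_self]
              exact if_pos ⟨rfl, h2⟩
            · rw [ind_ne h3]
              exact if_neg fun (h4 : _ = q1 ∧ c = c0) => h3 h4.1
          rw [if_pos h2, h1]
          rfl
        · have h1 : jq q1 c0 (x.foldl D q0) c = 0 :=
            if_neg fun (h4 : _ = q1 ∧ c = c0) => h2 h4.2
          rw [if_neg h2, h1]
          rfl

theorem iwp_knZ [Finite α] [Finite Q] (hb0 : Rs b0) (hc : NoCyc (ein (dn Rs D) q0)) (q1 : Q)
    (c0 : α) (h : ¬ Rs c0 → BK Rs b0 (W D c0 (ind q1) q0)) :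
    KnZ (iwp (dn Rs D) q0 b0 (jq q1 c0) none) ∧
      KnZ (iwp (dn Rs D) q0 b0 (jq q1 c0) (some q0)) := by
  have hb : ∀ q, dn Rs D q b0 = none := fun q => if_pos hb0
  by_cases h1 : Rs c0
  · exact ⟨(blk_knZ b0 q0 hb hc (jq q1 c0) none).congr fun w => iwp_res h1 q1 w _,
      (blk_knZ b0 q0 hb hc (jq q1 c0) (some q0)).congr fun w => iwp_res h1 q1 w _⟩
  · refine ⟨(h h1).1.congr fun w => (iwp_inn h1 q1 w).1, (h h1).2.congr fun w => ?_⟩
    rw [(iwp_inn h1 q1 w).2 [], W_nil, zero_add]
    rfl

theorem iwp_sum [Fintype α] [Fintype Q] {A : Type} [AddCommGroup A] (δ : Q → α → Option Q)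
    (g : Q → α → A) (w : List α) :
    ∀ x : Option Q, iwp δ q0 b0 g x w =
      ∑ t : Q × α, iwp δ q0 b0 (jq t.1 t.2) x w • g t.1 t.2 := by
  induction w with
  | nil =>
    intro x
    rw [iwp]
    symm
    exact Finset.sum_eq_zero fun t _ => by rw [iwp, zero_smul]
  | cons c w ih =>
    intro x
    cases x with
    | none =>
      rw [iwp, ih]
      exact Finset.sum_congr rfl fun t _ => by rw [iwp]
    | some v =>
      have h3 : ∀ t : Q × α, iwp δ q0 b0 (jq t.1 t.2) (some v) (c :: w) • g t.1 t.2 =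
          jq t.1 t.2 v c • g t.1 t.2 +
            iwp δ q0 b0 (jq t.1 t.2) (trk δ q0 b0 (some v) c) w • g t.1 t.2 :=
        fun t => by rw [iwp, add_smul]
      rw [iwp, ih, Finset.sum_congr rfl fun t _ => h3 t, Finset.sum_add_distrib]
      congr 1
      have h2 : ∀ t : Q × α, jq t.1 t.2 v c • g t.1 t.2 =
          if t = (v, c) then g v c else 0 := by
        intro t
        unfold jq
        by_cases h3 : t = (v, c)
        · rw [if_pos h3, h3, if_pos ⟨rfl, rfl⟩, one_smul]
        · rw [if_neg h3, if_neg fun h4 => h3 (Prod.ext h4.1.symm h4.2.symm), zero_smul]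
      rw [Finset.sum_congr rfl fun t _ => h2 t, Finset.sum_ite_eq' Finset.univ (v, c),
        if_pos (Finset.mem_univ _)]

/-- the sums are known, the letters inside of blocks are needed for nonzero weights only -/
theorem iwp_kn [Finite α] [Finite Q] (hb0 : Rs b0) (hc : NoCyc (ein (dn Rs D) q0))
    {A : Type} [AddCommGroup A] [Finite A] (g : Q → α → A)
    (hg : ∀ q1 c0, ¬ Rs c0 → g q1 c0 = 0 ∨ BK Rs b0 (W D c0 (ind q1) q0)) (x : Option Q)
    (hx : x = none ∨ x = some q0) : Kn (iwp (dn Rs D) q0 b0 g x) := by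
  classical
  have := Fintype.ofFinite α
  have := Fintype.ofFinite Q
  have key : ∀ t : Q × α, KnZ fun w => (if g t.1 t.2 = 0 then 0
      else iwp (dn Rs D) q0 b0 (jq t.1 t.2) x w : ℤ) := by
    intro t
    by_cases h : g t.1 t.2 = 0
    · simp only [if_pos h]
      exact KnZ.const 0
    · simp only [if_neg h]
      have h1 := iwp_knZ hb0 hc t.1 t.2 fun h2 => (hg t.1 t.2 h2).resolve_left h
      rcases hx with rfl | rfl
      · exact h1.1
      · exact h1.2
  refine Eq.mp (congrArg Kn ?_) (kn_of_sum _ key fun t => g t.1 t.2)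
  funext w
  rw [iwp_sum]
  refine Finset.sum_congr rfl fun t _ => ?_
  by_cases h : g t.1 t.2 = 0
  · rw [h, smul_zero, smul_zero]
  · rw [if_neg h]

end iwp

/-! ### Numbers up to `t` -/

section cap

variable {α : Type} [DecidableEq α] (κ : α → Option ℕ)

/-- numbers up to `t`, the total automaton -/
def cpt (t : ℕ) (i : Fin (t + 1)) (c : α) : Fin (t + 1) := ⟨min (i.val + (κ c).getD 0) t, by omega⟩

/-- the event is the letter `c0` at `j` -/
def cpe (t : ℕ) (j : Fin (t + 1)) (c0 : α) (i : Fin (t + 1)) (c : α) : Option (Fin (t + 1)) :=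
  if i = j ∧ c = c0 then none else some (cpt κ t i c)

theorem cpt_mono (t : ℕ) (i : Fin (t + 1)) (c : α) : t - (cpt κ t i c).val < t - i.val ∨
    cpt κ t i c = i := by
  have h2 := i.isLt
  by_cases h3 : i.val = t ∨ (κ c).getD 0 = 0
  · right
    apply Fin.ext
    change min (i.val + (κ c).getD 0) t = i.val
    omega
  · left
    change t - min (i.val + (κ c).getD 0) t < t - i.val
    omega

theorem cpe_noCyc (t : ℕ) (j : Fin (t + 1)) (c0 : α) : NoCyc (cpe κ t j c0) := by
  refine noCyc_cl (ρ := fun i : Fin (t + 1) => t - i.val) fun a => Or.inl fun x y h => ?_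
  unfold cpe at h
  by_cases h1 : x = j ∧ a = c0
  · rw [if_pos h1] at h; cases h
  · rw [if_neg h1] at h
    cases h
    rcases cpt_mono κ t x a with h2 | h2
    · exact Or.inl h2
    · exact Or.inr h2

theorem cpe_cnt (t : ℕ) (j : Fin (t + 1)) (c0 : α) (w : List α) : ∀ i : Fin (t + 1),
    (cnt (cpe κ t j c0) (cpt κ t j c0) i w : ℤ) = W (cpt κ t) c0 (ind j) i w := by
  classical
  induction w with
  | nil => intro i; rw [cnt_nil, W_nil]; rfl
  | cons c w ih =>
    intro i
    rw [W_cons]
    by_cases h : i = j ∧ c = c0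
    · have e1 : cpe κ t j c0 i c = none := if_pos h
      rw [cnt_cons_none w e1, if_pos h.2]
      push_cast
      rw [ih, h.1, h.2, ind_self]
      ring
    · have e1 : cpe κ t j c0 i c = some (cpt κ t i c) := if_neg h
      rw [cnt_cons_some w e1, ih]
      by_cases h2 : c = c0
      · rw [if_pos h2, ind_ne fun h3 => h ⟨h3, h2⟩, zero_add]
      · rw [if_neg h2, zero_add]

theorem cpt_bk [Finite α] {Rs : α → Prop} [DecidablePred Rs] {b0 : α} (hb0 : Rs b0) (t : ℕ)
    (j : Fin (t + 1)) (c0 : α) : BK Rs b0 (W (cpt κ t) c0 (ind j) 0) :=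
  (BK.of_event Rs b0 (cpe κ t j c0) (cpt κ t j c0) 0 hb0 (cpe_noCyc κ t j c0)).congr fun w =>
    (cpe_cnt κ t j c0 w 0).symm

/-- the partial automata of `Sym` -/
theorem dt_dn (t : ℕ) : dt κ t = dn (fun c => κ c = none) (cpt κ t) := by
  funext i c
  unfold dt dn
  cases h : κ c with
  | none => rw [if_pos h]
  | some k =>
    rw [if_neg (show ¬ κ c = none by rw [h]; exact fun h2 => by cases h2)]
    change some (⟨min (i.val + k) t, _⟩ : Fin (t + 1)) =
      some (⟨min (i.val + (κ c).getD 0) t, _⟩ : Fin (t + 1))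
    congr 2
    rw [h]
    rfl

theorem dm_dn (m : ℕ) : dm κ m = dn (fun c => κ c = none)
    (adda fun c => ((((κ c).getD 0 : ℕ) : ℤ) : ZMod m)) := by
  funext i c
  unfold dm dn
  cases h : κ c with
  | none => rw [if_pos h]
  | some k =>
    rw [if_neg (show ¬ κ c = none by rw [h]; exact fun h2 => by cases h2)]
    change some (i + (k : ZMod m)) = some (i + ((((κ c).getD 0 : ℕ) : ℤ) : ZMod m))
    rw [h, Option.getD_some, Int.cast_natCast]

end cap

section t2

variable {α A : Type} [DecidableEq α] [AddCommGroup A] (κ : α → Option ℕ)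

/-- the sum of the weights of all letters -/
def t2 (g : α → ℕ → α → A) : α × ℕ → List α → A
  | _, [] => 0
  | x, c :: w => g x.1 x.2 c + t2 g (lt κ x c) w

theorem t2_sum [Fintype α] (m t : ℕ) (g : α → ℕ → α → A) (s1 : α → ZMod m → α → A)
    (s2 : α → Fin (t + 1) → α → A)
    (hs : ∀ c i d, g c i d = s1 c (i : ZMod m) d + s2 c ⟨min i t, by omega⟩ d)
    (w : List α) : ∀ x : α × ℕ, κ x.1 = none →
    t2 κ g x w = ∑ c : {c : α // κ c = none},
      (iwp (dm κ m) 0 c.1 (s1 c.1) (sm m c.1 x) w +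
        iwp (dt κ t) 0 c.1 (s2 c.1) (st t c.1 x) w) := by
  induction w with
  | nil =>
    intro x _
    rw [t2]
    symm
    exact Finset.sum_eq_zero fun c _ => by rw [iwp, iwp, add_zero]
  | cons a w ih =>
    intro x hx
    have key : ∀ c : {c : α // κ c = none},
        iwp (dm κ m) 0 c.1 (s1 c.1) (sm m c.1 x) (a :: w) +
          iwp (dt κ t) 0 c.1 (s2 c.1) (st t c.1 x) (a :: w) =
        (if c = ⟨x.1, hx⟩ then g x.1 x.2 a else 0) +
          (iwp (dm κ m) 0 c.1 (s1 c.1) (sm m c.1 (lt κ x a)) w +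
            iwp (dt κ t) 0 c.1 (s2 c.1) (st t c.1 (lt κ x a)) w) := by
      intro c
      have t1 := sm_fold κ m c.1 c.2 [a] x
      have t2 := st_fold κ t c.1 c.2 [a] x
      change trk (dm κ m) 0 c.1 (sm m c.1 x) a = sm m c.1 (lt κ x a) at t1
      change trk (dt κ t) 0 c.1 (st t c.1 x) a = st t c.1 (lt κ x a) at t2
      by_cases hcx : c = ⟨x.1, hx⟩
      · have hcx' : x.1 = c.1 := by rw [hcx]
        have e1 : sm m c.1 x = some (x.2 : ZMod m) := if_pos hcx'
        have e2 : st t c.1 x = some ⟨min x.2 t, by omega⟩ := if_pos hcx'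
        rw [e1] at t1 ⊢
        rw [e2] at t2 ⊢
        rw [if_pos hcx, iwp, iwp, t1, t2, ← hcx', hs x.1 x.2 a]
        abel
      · have hcx' : ¬ x.1 = c.1 := fun h => hcx (Subtype.ext h.symm)
        have e1 : sm m c.1 x = none := if_neg hcx'
        have e2 : st t c.1 x = none := if_neg hcx'
        rw [e1] at t1 ⊢
        rw [e2] at t2 ⊢
        rw [if_neg hcx, zero_add, iwp, iwp, t1, t2]
    have hx' : κ (lt κ x a).1 = none := by
      unfold lt
      cases h : κ a with
      | some k => exact hx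
      | none => exact h
    have h5 : ∑ c : {c : α // κ c = none}, (if c = ⟨x.1, hx⟩ then g x.1 x.2 a else 0) =
        g x.1 x.2 a := by
      rw [Finset.sum_ite_eq' Finset.univ, if_pos (Finset.mem_univ _)]
    calc t2 κ g x (a :: w) = g x.1 x.2 a + t2 κ g (lt κ x a) w := rfl
      _ = (∑ c : {c : α // κ c = none}, (if c = ⟨x.1, hx⟩ then g x.1 x.2 a else 0)) +
            ∑ c : {c : α // κ c = none},
              (iwp (dm κ m) 0 c.1 (s1 c.1) (sm m c.1 (lt κ x a)) w +
                iwp (dt κ t) 0 c.1 (s2 c.1) (st t c.1 (lt κ x a)) w) := by rw [h5, ih _ hx']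
      _ = _ := by
          rw [← Finset.sum_add_distrib]
          exact Finset.sum_congr rfl fun c _ => (key c).symm

theorem t2_kn [Finite α] [Finite A] (hκ : ∀ a k, κ a = some k → k ≤ 1) (m t : ℕ) [NeZero m]
    (g : α → ℕ → α → A) (s1 : α → ZMod m → α → A)
    (s2 : α → Fin (t + 1) → α → A)
    (hs : ∀ c i d, g c i d = s1 c (i : ZMod m) d + s2 c ⟨min i t, by omega⟩ d)
    (b : α) (hb : κ b = none) : Kn (t2 κ g (b, 0)) := by
  classical
  have := Fintype.ofFinite α
  have hm : 0 < m := Nat.pos_of_neZero m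
  have hφ : ∀ c : α, (((κ c).getD 0 : ℕ) : ℤ) = 0 ∨ (((κ c).getD 0 : ℕ) : ℤ) = 1 ∨
      (((κ c).getD 0 : ℕ) : ℤ) = -1 := by
    intro c
    cases h : κ c with
    | none => exact Or.inl rfl
    | some k =>
      have := hκ c k h
      rw [Option.getD_some]
      omega
  have h1 : Kn fun w => fun c : {c : α // κ c = none} =>
      iwp (dm κ m) 0 c.1 (s1 c.1) (sm m c.1 (b, 0)) w := by
    refine Kn.pi fun c => ?_
    have hc := dm_clean κ m hm (Or.inl hκ)
    rw [dm_dn] at hc ⊢
    refine iwp_kn (Rs := fun c => κ c = none) c.2 hc (s1 c.1) (fun q1 c0 _ => Or.inr ?_) _ ?_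
    · exact bk_core (Rs := fun c => κ c = none) (b0 := c.1) c.2
        (fun c => (((κ c).getD 0 : ℕ) : ℤ)) hφ c0 (ind q1)
    · unfold sm
      by_cases h : b = c.1
      · right
        rw [if_pos h]
        simp
      · left
        exact if_neg h
  have h2 : Kn fun w => fun c : {c : α // κ c = none} =>
      iwp (dt κ t) 0 c.1 (s2 c.1) (st t c.1 (b, 0)) w := by
    refine Kn.pi fun c => ?_
    have hc := dt_clean κ t
    rw [dt_dn] at hc ⊢
    refine iwp_kn (Rs := fun c => κ c = none) c.2 hc (s2 c.1) (fun q1 c0 _ => Or.inr ?_) _ ?_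
    · exact cpt_bk κ (Rs := fun c => κ c = none) (b0 := c.1) c.2 t q1 c0
    · unfold st
      by_cases h : b = c.1
      · right
        rw [if_pos h]
        congr 1
      · left
        exact if_neg h
  have h3 := h1.comp₂ h2 fun u v => ∑ c, (u c + v c)
  refine Eq.mp (congrArg Kn ?_) h3
  funext w
  rw [t2_sum κ m t g s1 s2 hs w (b, 0) hb]

end t2


end Vale.Agent.P329.H81
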