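import Vale.Agent.P329.H81.SymM

/-!
P329: components on which each letter acts as a power of one map or has values numbered by an
abelian group.
-/

set_option linter.all false

namespace Vale.Agent.P329.H81

open Vale.Agent.P329 Vale.Agent.P329.S4 Vale.Agent.P329.H112 Vale.Agent.P329.H157
  Vale.Agent.P329.H647 Vale.Agent.P329.H96 Vale.Agent.P329.H550

/-- The set `C` of states (of any size) has abelian resets: for some map `f` and some finite abelian
group `A` each letter `a`, where it does not lead out of `C`, either acts as the power `f^[k]`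
(`κ a = some k`) or is a reset letter (`κ a = none`) with values numbered by `A`, such that for all
reset letters `b`, `c` and all `i` the map which takes a value of `b`, applies `f` `i` times and
then the letter `c` is, where it stays in `C`, a translation of `A` or constant; and all powers `k`
are zero or one, or the powers of `f` have a prime period from some point on. -/
def SymFor {α σ : Type} (δ : σ → α → σ) (C : Set σ) : Prop :=
  ∃ (A : Type) (_ : AddCommGroup A) (_ : Finite A) (f : σ → σ) (κ : α → Option ℕ) (e : α → A → σ),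
    ((∀ a k, κ a = some k → k ≤ 1) ∨ ∃ t p : ℕ, p.Prime ∧ f^[t + p] = f^[t]) ∧
    (∀ a k, κ a = some k → ∀ x ∈ C, δ x a ∈ C → δ x a = f^[k] x) ∧
    (∀ c, κ c = none → ∀ x ∈ C, δ x c ∈ C → ∃ j, δ x c = e c j) ∧
    ∀ b c, κ b = none → κ c = none → ∀ i : ℕ,
      (∃ s, ∀ j, f^[i] (e b j) ∈ C → δ (f^[i] (e b j)) c ∈ C →
        δ (f^[i] (e b j)) c = e c (j + s)) ∨
      ∃ y, ∀ j, f^[i] (e b j) ∈ C → δ (f^[i] (e b j)) c ∈ C → δ (f^[i] (e b j)) c = y

/-- the automaton of a component with an additional letter -/
noncomputable def Pc {α X : Type} (δ : X → α → X) (C : Set X) (x : X) (l : Option α) :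
    Option X :=
  open Classical in
  match l with
  | none => none
  | some a => if x ∈ C ∧ δ x a ∈ C then some (δ x a) else none

theorem pc_some {α X : Type} {δ : X → α → X} {C : Set X} {x y : X} {a : α}
    (h : Pc δ C x (some a) = some y) : x ∈ C ∧ y ∈ C ∧ δ x a = y := by
  classical
  change (if x ∈ C ∧ δ x a ∈ C then some (δ x a) else none) = some y at h
  by_cases h1 : x ∈ C ∧ δ x a ∈ C
  · rw [if_pos h1] at h
    cases h
    exact ⟨h1.1, h1.2, rfl⟩
  · rw [if_neg h1] at h
    cases h

theorem comp_sym {α X : Type} [Finite α] [Finite X] (δ : X → α → X) (p z : X)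
    (hz : z ∈ Cmp δ p) (h : SymFor δ (Cmp δ p)) : SH 1 {w : List α | w.foldl δ p = z} := by
  classical
  have hpp : p ∈ Cmp δ p := ⟨Rch.refl δ p, Rch.refl δ p⟩
  obtain ⟨A, i1, i2, f, κ, e, hper, h0, hR, h2⟩ := h
  let κ' : Option α → Option ℕ := fun l => l.elim none κ
  let e' : Option α → A → X := fun l => l.elim (fun _ => p) e
  have hnone : ∀ x y, Pc δ (Cmp δ p) x none ≠ some y := by
    intro x y h3
    cases h3
  have key1 : ∃ t0 m : ℕ, 0 < m ∧ (∀ i, t0 ≤ i → f^[i + m] = f^[i]) ∧
      ((∀ a k, κ' a = some k → k ≤ 1) ∨ m.Prime) := by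
    rcases hper with h3 | ⟨t, q, hq, h3⟩
    · obtain ⟨t, m, hm, h4⟩ := exists_per f
      refine ⟨t, m, hm, h4, Or.inl fun l k hl => ?_⟩
      cases l with
      | none => cases hl
      | some a => exact h3 a k hl
    · refine ⟨t, q, hq.pos, fun i hi => ?_, Or.inr hq⟩
      have e1 : i + q = (i - t) + (t + q) := by omega
      have e2 : i = (i - t) + t := by omega
      rw [e1, Function.iterate_add, h3, ← Function.iterate_add, ← e2]
  obtain ⟨t0, m, hm, hp1, hp2⟩ := key1
  have m0 : MapLe 1 (H550.tr (bd (Pc δ (Cmp δ p)))) := by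
    refine sym_mapLe κ' (Pc δ (Cmp δ p)) f e' t0 m hm hp1 hp2 ?_ ?_ ?_ none rfl
    · intro l k hl x y h3
      cases l with
      | none => cases hl
      | some a =>
        obtain ⟨g1, g2, g3⟩ := pc_some h3
        rw [← g3]
        exact h0 a k hl x g1 (by rw [g3]; exact g2)
    · intro l hl x y h3
      cases l with
      | none => exact absurd h3 (hnone x y)
      | some a =>
        obtain ⟨g1, g2, g3⟩ := pc_some h3
        obtain ⟨j, hj⟩ := hR a hl x g1 (by rw [g3]; exact g2)
        exact ⟨j, by rw [← g3]; exact hj⟩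
    · intro l hl l' hl' i
      cases l' with
      | none => exact Or.inl ⟨0, fun j y h3 => absurd h3 (hnone _ y)⟩
      | some c =>
        cases l with
        | none =>
          refine Or.inr fun j j' y y' h3 h4 => ?_
          change Pc δ (Cmp δ p) (f^[i] p) (some c) = some y at h3
          change Pc δ (Cmp δ p) (f^[i] p) (some c) = some y' at h4
          rw [h3] at h4
          exact Option.some.inj h4
        | some b =>
          rcases h2 b c hl hl' i with ⟨s, h3⟩ | ⟨y0, h3⟩
          · refine Or.inl ⟨s, fun j y h4 => ?_⟩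
            obtain ⟨g1, g2, g3⟩ := pc_some h4
            change δ (f^[i] (e b j)) c = y at g3
            rw [← g3]
            exact h3 j g1 (by rw [g3]; exact g2)
          · refine Or.inr fun j j' y y' h4 h5 => ?_
            obtain ⟨g1, g2, g3⟩ := pc_some h4
            obtain ⟨g4, g5, g6⟩ := pc_some h5
            change δ (f^[i] (e b j)) c = y at g3
            change δ (f^[i] (e b j')) c = y' at g6
            rw [← g3, ← g6, h3 j g1 (by rw [g3]; exact g2), h3 j' g4 (by rw [g6]; exact g5)]
  have h3 := sh_map (α := α) some (H550.sh_of_mapLe _ m0 (some p) (some z))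
  have key : ∀ (w : List α) (y : X), y ∈ Cmp δ p →
      ((w.map some).foldl (bd (Pc δ (Cmp δ p))) (some y) = some z ↔ w.foldl δ y = z) := by
    intro w
    induction w with
    | nil =>
      intro y _
      rw [List.map_nil, List.foldl_nil, List.foldl_nil, Option.some.injEq]
    | cons a w ih =>
      intro y hy
      rw [List.map_cons, List.foldl_cons, List.foldl_cons]
      change (w.map some).foldl (bd (Pc δ (Cmp δ p)))
        (if y ∈ Cmp δ p ∧ δ y a ∈ Cmp δ p then some (δ y a) else none) = some z ↔ _
      by_cases h4 : δ y a ∈ Cmp δ p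
      · rw [if_pos ⟨hy, h4⟩]
        exact ih _ h4
      · rw [if_neg fun h5 => h4 h5.2, bd_none]
        constructor
        · intro h5; cases h5
        · intro h5
          exact absurd ⟨hy.1.trans (Rch.step _ _), Rch.trans (δ := δ) ⟨w, h5⟩ hz.2⟩ h4
  refine Eq.mp (congrArg (SH 1) ?_) h3
  ext w
  exact key w p hpp

end Vale.Agent.P329.H81
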