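import Vale.Agent.P329.H81.FiveM
import Vale.Agent.P329.H81.SymC
import Vale.Agent.P329.H81.Count

/-!
P329: automata with small components, the final forms.
-/

set_option linter.all false

namespace Vale.Agent.P329.H81

open Vale.Agent.P329 Vale.Agent.P329.S4 Vale.Agent.P329.H112 Vale.Agent.P329.H157
  Vale.Agent.P329.H647 Vale.Agent.P329.H96 Vale.Agent.P329.H550

/-- The map `f` permutes the set `C` and has at most one cycle of length at least two there. -/
def OneCycle {σ : Type} (C : Set σ) (f : σ → σ) : Prop :=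
  Set.BijOn f C C ∧ ∃ x ∈ C, ∀ y ∈ C, f y ≠ y → ∃ k : ℕ, f^[k] x = y

/-- The maps `f` and `g` act on `C` as invertible affine maps of the field with five elements. -/
def Affine5 {σ : Type} (C : Set σ) (f g : σ → σ) : Prop :=
  ∃ (e : σ → ZMod 5) (m s m' s' : ZMod 5), Set.InjOn e C ∧ m ≠ 0 ∧ m' ≠ 0 ∧
    ∀ x ∈ C, f x ∈ C ∧ g x ∈ C ∧ e (f x) = m * e x + s ∧ e (g x) = m' * e x + s'

/-- The set `C` of states is small: at most three states, or four states and all letters which map
`C` into `C` have fibres of equal size, or there are two maps `f` and `g` such that each letter,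
where it does not lead out of `C`, acts as `f`, as `g`, as the identity or has at most one value;
and `C` has at most four states, or `C` has five states and `f` and `g` are permutations with one
cycle or affine permutations; or `C` has any number of states and there is a map `f` such that each
letter, where it does not lead out of `C`, acts as `f`, as the identity or has at most two values;
or `C` has abelian resets. -/
def SmallFor {α σ : Type} (δ : σ → α → σ) (C : Set σ) : Prop :=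
  C.ncard ≤ 3 ∨
  (C.ncard = 4 ∧ ∀ a, (∀ x ∈ C, δ x a ∈ C) → ∀ x ∈ C, ∀ y ∈ C,
    {s | s ∈ C ∧ δ s a = δ x a}.ncard = {s | s ∈ C ∧ δ s a = δ y a}.ncard) ∨
  (∃ f g : σ → σ, (∀ a : α, (∀ x ∈ C, δ x a ∈ C → δ x a = f x) ∨
      (∀ x ∈ C, δ x a ∈ C → δ x a = g x) ∨ (∀ x ∈ C, δ x a ∈ C → δ x a = x) ∨
      ∃ y, ∀ x ∈ C, δ x a ∈ C → δ x a = y) ∧
    (C.ncard ≤ 4 ∨ (C.ncard = 5 ∧ OneCycle C f ∧ OneCycle C g) ∨ Affine5 C f g)) ∨
  (∃ f : σ → σ, ∀ a : α, (∀ x ∈ C, δ x a ∈ C → δ x a = f x) ∨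
    (∀ x ∈ C, δ x a ∈ C → δ x a = x) ∨ ∃ y z, ∀ x ∈ C, δ x a ∈ C → δ x a = y ∨ δ x a = z) ∨
  SymFor δ C

theorem res_val {X : Type} (C : Set X) (f : X → X) (hf : ∀ x ∈ C, f x ∈ C) (x : C) :
    (res C f x : X) = f x := by
  unfold res
  rw [dif_pos (hf x x.2)]

theorem res_iter {X : Type} (C : Set X) (f : X → X) (hf : ∀ x ∈ C, f x ∈ C) (k : ℕ) (x : C) :
    (((res C f)^[k] x : C) : X) = f^[k] x := by
  induction k with
  | zero => rfl
  | succ k ih =>
    rw [Function.iterate_succ_apply', Function.iterate_succ_apply', res_val C f hf, ih]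

theorem am_one {X : Type} [Finite X] (C : Set X) (hC : C.ncard = 5) (f g : X → X)
    (hf : OneCycle C f) (hg : OneCycle C g) : Am (res C f) (res C g) := by
  classical
  have hcard : Nat.card C = 5 := hC
  let e : C ≃ Fin 5 := Finite.equivFinOfCardEq hcard
  have key : ∀ f : X → X, OneCycle C f →
      Function.Injective (fun y : Fin 5 => e (res C f (e.symm y))) ∧
      ∃ x, ∀ y, (fun y : Fin 5 => e (res C f (e.symm y))) y ≠ y →
        ∃ k : ℕ, (fun y : Fin 5 => e (res C f (e.symm y)))^[k] x = y := by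
    intro f hf
    obtain ⟨h1, x, hx, h2⟩ := hf
    have hm : ∀ x ∈ C, f x ∈ C := fun x hx => h1.mapsTo hx
    have hit : ∀ (k : ℕ) (y : Fin 5), (fun y : Fin 5 => e (res C f (e.symm y)))^[k] y =
        e ((res C f)^[k] (e.symm y)) := by
      intro k
      induction k with
      | zero => intro y; exact (e.apply_symm_apply y).symm
      | succ k ih =>
        intro y
        rw [Function.iterate_succ_apply', Function.iterate_succ_apply', ih,
          e.symm_apply_apply]
    refine ⟨?_, e ⟨x, hx⟩, fun y hy => ?_⟩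
    · intro y z hyz
      have h3 := e.injective hyz
      have h4 := congrArg Subtype.val h3
      rw [res_val C f hm, res_val C f hm] at h4
      exact e.symm.injective (Subtype.ext (h1.injOn (e.symm y).2 (e.symm z).2 h4))
    · have h3 : f (e.symm y) ≠ (e.symm y : C) := by
        intro h4
        apply hy
        change e (res C f (e.symm y)) = y
        have h5 : res C f (e.symm y) = e.symm y := Subtype.ext (by
          rw [res_val C f hm]; exact h4)
        rw [h5, e.apply_symm_apply]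
      obtain ⟨k, hk⟩ := h2 _ (e.symm y).2 h3
      refine ⟨k, ?_⟩
      rw [hit, e.symm_apply_apply]
      have h5 : (res C f)^[k] ⟨x, hx⟩ = e.symm y := Subtype.ext (by
        rw [res_iter C f hm]; exact hk)
      rw [h5, e.apply_symm_apply]
  obtain ⟨f1, f2⟩ := key f hf
  obtain ⟨g1, g2⟩ := key g hg
  refine am_emb e e.injective _ _ _ _ (fun x => ?_) (fun x => ?_) (am_cyc _ _ f1 g1 f2 g2)
  · change _ = e (res C f (e.symm (e x)))
    rw [e.symm_apply_apply]
  · change _ = e (res C g (e.symm (e x)))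
    rw [e.symm_apply_apply]

theorem am_affine {X : Type} [Finite X] (C : Set X) (f g : X → X) (h : Affine5 C f g) :
    Am (res C f) (res C g) := by
  obtain ⟨e, m, s, m', s', he, hm, hm', h1⟩ := h
  have hf : ∀ x ∈ C, f x ∈ C := fun x hx => (h1 x hx).1
  have hg : ∀ x ∈ C, g x ∈ C := fun x hx => (h1 x hx).2.1
  refine am_emb (X := C) (Y := Fin 5) (fun x => e x) (fun x y hxy => ?_) _ _ _ _
    (fun x => ?_) (fun x => ?_) (am_aff m s m' s' hm hm')
  · exact Subtype.ext (he x.2 y.2 hxy)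
  · change e (res C f x) = _
    rw [res_val C f hf]
    exact (h1 x x.2).2.2.1
  · change e (res C g x) = _
    rw [res_val C g hg]
    exact (h1 x x.2).2.2.2

/-- one map, and letters with at most two values -/
theorem comp_one {α X : Type} [Finite α] [Finite X] (δ : X → α → X) (p z : X)
    (hz : z ∈ Cmp δ p) (f : X → X)
    (ha : ∀ a : α, (∀ x ∈ Cmp δ p, δ x a ∈ Cmp δ p → δ x a = f x) ∨
      (∀ x ∈ Cmp δ p, δ x a ∈ Cmp δ p → δ x a = x) ∨
      ∃ y z, ∀ x ∈ Cmp δ p, δ x a ∈ Cmp δ p → δ x a = y ∨ δ x a = z) :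
    SH 1 {w : List α | w.foldl δ p = z} := by
  classical
  have hpp : p ∈ Cmp δ p := ⟨Rch.refl δ p, Rch.refl δ p⟩
  have key : ∀ a : α, ∃ (l : Option (Option (Option α))) (e : ZMod 2 → Cmp δ p)
      (o : Cmp δ p → ZMod 2), (l = none ∨ l = some none ∨ l = some (some (some a))) ∧
      ∀ x y : Cmp δ p, δ x a = y → (l = none → x = y) ∧
        (l = some none → res (Cmp δ p) f x = y) ∧ (l = some (some (some a)) → e (o x) = y) := by
    intro a
    rcases ha a with h | h | ⟨y0, z0, h⟩
    · refine ⟨some none, fun _ => ⟨p, hpp⟩, fun _ => 0, Or.inr (Or.inl rfl), fun x y hxy => ?_⟩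
      refine ⟨fun h0 => (by cases h0), fun _ => ?_, fun h0 => (by cases h0)⟩
      have h1 : δ x a ∈ Cmp δ p := by rw [hxy]; exact y.2
      have h2 := h x x.2 h1
      rw [hxy] at h2
      unfold res
      rw [dif_pos (by rw [← h2]; exact y.2)]
      exact Subtype.ext h2.symm
    · refine ⟨none, fun _ => ⟨p, hpp⟩, fun _ => 0, Or.inl rfl, fun x y hxy => ?_⟩
      refine ⟨fun _ => Subtype.ext ?_, fun h0 => (by cases h0), fun h0 => (by cases h0)⟩
      have h1 : δ x a ∈ Cmp δ p := by rw [hxy]; exact y.2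
      exact (h x x.2 h1).symm.trans hxy
    · refine ⟨some (some (some a)),
        fun j => if j = 0 then (if h : y0 ∈ Cmp δ p then ⟨y0, h⟩ else ⟨p, hpp⟩)
          else (if h : z0 ∈ Cmp δ p then ⟨z0, h⟩ else ⟨p, hpp⟩),
        fun x => if δ x a = y0 then 0 else 1, Or.inr (Or.inr rfl), fun x y hxy => ?_⟩
      refine ⟨fun h0 => (by cases h0), fun h0 => (by cases h0), fun _ => ?_⟩
      have h1 : δ x a ∈ Cmp δ p := by rw [hxy]; exact y.2
      by_cases h2 : δ x a = y0
      · have h3 : y0 ∈ Cmp δ p := by rw [← h2]; exact h1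
        change (if (if δ x a = y0 then (0 : ZMod 2) else 1) = 0 then _ else _) = y
        rw [if_pos h2, if_pos rfl, dif_pos h3]
        exact Subtype.ext (h2.symm.trans hxy)
      · have h4 : δ x a = z0 := (h x x.2 h1).resolve_left h2
        have h3 : z0 ∈ Cmp δ p := by rw [← h4]; exact h1
        change (if (if δ x a = y0 then (0 : ZMod 2) else 1) = 0 then _ else _) = y
        rw [if_neg h2, if_neg (by decide), dif_pos h3]
        exact Subtype.ext (h4.symm.trans hxy)
  choose κ e o hκ hy using key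
  let e' : Option α → ZMod 2 → Cmp δ p := fun c => c.elim (fun _ => ⟨p, hpp⟩) e
  let o' : Option α → Cmp δ p → ZMod 2 := fun c => c.elim (fun _ => 0) o
  let F : Cmp δ p → α → Cmp δ p := fun x a => dd (res (Cmp δ p) f) e' o' x (κ a)
  have hF : ∀ x y : Cmp δ p, SH 1 {w : List α | w.foldl F x = y} := by
    intro x y
    refine Eq.mp (congrArg (SH 1) ?_)
      (sh_map κ (one_map (B := Option α) (res (Cmp δ p) f) e' o' x y))
    ext w
    simp only [Set.mem_setOf_eq]
    rw [List.foldl_map]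
  have h1 := off_sh (h := 1) (dC δ (Cmp δ p)) F (by
      intro x a y h
      change (if h : δ x a ∈ Cmp δ p then some ⟨δ x a, h⟩ else none) = some y at h
      have hxy : δ x a = y := by
        by_cases h2 : δ x a ∈ Cmp δ p
        · rw [dif_pos h2] at h
          exact congrArg Subtype.val (Option.some.inj h)
        · rw [dif_neg h2] at h
          cases h
      obtain ⟨g1, g2, g3⟩ := hy a x y hxy
      change dd (res (Cmp δ p) f) e' o' x (κ a) = y
      rcases hκ a with h0 | h0 | h0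
      · rw [h0]; exact g1 h0
      · rw [h0]; exact g2 h0
      · rw [h0]; exact g3 h0) hF ⟨p, hpp⟩ ⟨z, hz⟩
  have key : ∀ (w : List α) (y : Cmp δ p), w.foldl (H550.off (dC δ (Cmp δ p))) (some y) =
      some ⟨z, hz⟩ ↔ w.foldl δ y = z := by
    intro w
    induction w with
    | nil =>
      intro y
      rw [List.foldl_nil, List.foldl_nil, Option.some.injEq]
      exact ⟨fun h => by rw [h], fun h => Subtype.ext h⟩
    | cons a w ih =>
      intro y
      rw [List.foldl_cons, List.foldl_cons, H550.off_some]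
      change w.foldl (H550.off (dC δ (Cmp δ p)))
        (if h : δ y a ∈ Cmp δ p then some ⟨δ y a, h⟩ else none) = some ⟨z, hz⟩ ↔ _
      by_cases h : δ y a ∈ Cmp δ p
      · rw [dif_pos h]
        exact ih ⟨δ y a, h⟩
      · rw [dif_neg h, H550.off_none]
        constructor
        · intro h2; exact absurd h2 (by simp)
        · intro h2
          exfalso
          refine h ⟨y.2.1.trans (Rch.step _ _), ?_⟩
          exact Rch.trans (δ := δ) ⟨w, h2⟩ hz.2
  refine Eq.mp (congrArg (SH 1) ?_) h1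
  ext w
  exact key w ⟨p, hpp⟩

/-- **Small components.** -/
theorem small_for {α X : Type} [Finite α] [Finite X] (δ : X → α → X)
    (h : ∀ p, SmallFor δ (Cmp δ p)) (p q : X) : SH 1 {w : List α | w.foldl δ p = q} := by
  refine scc_sh δ (fun p z hz => ?_) _ p q le_rfl
  rcases h p with h | h | ⟨f, g, h1, h2⟩ | ⟨f, h1⟩ | h1
  · exact comp_sh δ 0 p z hz h
  · exact four_comp δ p z hz h
  · refine comp_two δ p z hz f g h1 ?_
    rcases h2 with h2 | ⟨h2, h3, h4⟩ | h2
    · exact am_four h2 _ _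
    · exact am_one _ h2 f g h3 h4
    · exact am_affine _ f g h2
  · exact comp_one δ p z hz f h1
  · exact comp_sym δ p z hz h1

/-- **Automata with an abelian group of symmetries.** -/
theorem sym_action {α X A : Type} [Finite α] [Finite X] [AddCommGroup A] [Finite A]
    [AddAction A X] (δ : X → α → X) (hδ : ∀ (g : A) (x : X) (a : α), δ (g +ᵥ x) a = g +ᵥ δ x a)
    (f : X → X) (hf : ∀ (g : A) (x : X), f (g +ᵥ x) = g +ᵥ f x)
    (h : ∀ a, (∀ x, δ x a = f x) ∨ (∀ x, δ x a = x) ∨ ∃ y, ∀ x, ∃ g : A, δ x a = g +ᵥ y)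
    (p q : X) : SH 1 {w : List α | w.foldl δ p = q} := by
  classical
  have hfi : ∀ (i : ℕ) (g : A) (x : X), f^[i] (g +ᵥ x) = g +ᵥ f^[i] x := by
    intro i
    induction i with
    | zero => intro g x; rfl
    | succ i ih => intro g x; rw [Function.iterate_succ_apply, hf, ih, Function.iterate_succ_apply]
  have key : ∀ a, ∃ (k : Option ℕ) (y : X), (∀ n, k = some n → n ≤ 1 ∧ ∀ x, δ x a = f^[n] x) ∧
      (k = none → ∀ x, ∃ g : A, δ x a = g +ᵥ y) := by
    intro a
    rcases h a with h1 | h1 | ⟨y, h1⟩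
    · exact ⟨some 1, p, fun n hn => by cases hn; exact ⟨le_rfl, h1⟩, fun h => by cases h⟩
    · exact ⟨some 0, p, fun n hn => by cases hn; exact ⟨Nat.zero_le _, h1⟩, fun h => by cases h⟩
    · exact ⟨none, y, fun n hn => (by cases hn), fun _ => h1⟩
  choose κ y hκ1 hκ2 using key
  refine small_for δ (fun p => Or.inr (Or.inr (Or.inr (Or.inr ?_)))) p q
  refine ⟨A, inferInstance, inferInstance, f, κ, fun c j => j +ᵥ y c,
    Or.inl fun a k hk => (hκ1 a k hk).1, fun a k hk x _ _ => (hκ1 a k hk).2 x,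
    fun c hc x _ _ => hκ2 c hc x, fun b c _ hc i => Or.inl ?_⟩
  obtain ⟨s, hs⟩ := hκ2 c hc (f^[i] (y b))
  refine ⟨s, fun j _ _ => ?_⟩
  rw [hfi, hδ, hs, vadd_vadd]

theorem dfa_height {α σ : Type} [Finite α] [Finite σ] {h : ℕ} (A : DFA α σ)
    (hA : ∀ p q : σ, SH h {w : List α | w.foldl A.step p = q}) :
    HeightLe h {w : List α | w ∈ A.accepts} := by
  have h1 : SH h (⋃ q : σ, ⋃ _ : q ∈ A.accept,
      {w : List α | w.foldl A.step A.start = q}) :=
    SH.iUnion fun q => SH.iUnion_prop fun _ => hA _ _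
  refine Eq.mp (congrArg (SH h) ?_) h1
  ext w
  simp only [Set.mem_iUnion, exists_prop, Set.mem_setOf_eq]
  rw [DFA.mem_accepts]
  constructor
  · rintro ⟨q, hq, rfl⟩; exact hq
  · intro h; exact ⟨_, h, rfl⟩

/-- Families of automata with small components, and groups. -/
theorem over_small {α ι κ : Type} [Finite α] [Finite ι] [Finite κ] (X : ι → Type)
    [∀ i, Finite (X i)] (δ : ∀ i, X i → α → X i) (hδ : ∀ i p, SmallFor (δ i) (Cmp (δ i) p))
    (H : κ → Type) [∀ k, Group (H k)] [∀ k, Finite (H k)] (F : α → ∀ k, H k)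
    (hH : ∀ k, DividesProduct (H k) ∨ ∃ (A : Subgroup (H k)) (g : H k), A.Normal ∧
      (∀ a ∈ A, ∀ b ∈ A, a * b = b * a) ∧ ∀ x, F x k ∈ A ∨ g⁻¹ * F x k ∈ A ∨ g * F x k ∈ A)
    (M : Type) [Monoid M] [Finite M] (φ : α → M)
    (hφ : ∀ v : List α, v ≠ [] → (v.map F).prod = 1 →
      (∀ i x, v.foldl (δ i) (v.foldl (δ i) x) = v.foldl (δ i) x) →
        ∃ k, (v.map φ).prod ^ (k + 1) = (v.map φ).prod ^ k) : MapLe 1 φ := by
  classical
  let D : (Σ i, X i) → α → (Σ i, X i) := fun x a => ⟨x.1, δ x.1 x.2 a⟩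
  have hD : ∀ (w : List α) (i : ι) (x : X i), w.foldl D ⟨i, x⟩ = ⟨i, w.foldl (δ i) x⟩ := by
    intro w
    induction w with
    | nil => intro i x; rfl
    | cons a w ih => intro i x; rw [List.foldl_cons, List.foldl_cons]; exact ih i _
  have s1 : MapLe 1 (H550.tr D) := by
    refine mapLe_tr D fun p q => ?_
    obtain ⟨i, x⟩ := p
    obtain ⟨j, y⟩ := q
    by_cases hij : i = j
    · subst hij
      refine Eq.mp (congrArg (SH 1) ?_) (small_for (δ i) (hδ i) x y)
      ext w
      simp only [Set.mem_setOf_eq]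
      rw [hD]
      constructor
      · intro h; rw [h]
      · intro h
        simpa using h
    · refine Eq.mp (congrArg (SH 1) ?_) SH.empty
      ext w
      simp only [Set.mem_empty_iff_false, Set.mem_setOf_eq, false_iff]
      rw [hD]
      intro h
      exact hij (congrArg Sigma.fst h)
  have s2 : MapLe 1 F := MapLe.pi F hH
  refine H162.Str.straubing _ (mapLe_prod s1 s2) φ fun v hv hid => ?_
  rw [prod_pair] at hid
  have h1 := congrArg Prod.fst hid
  have h2 := congrArg Prod.snd hid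
  simp only [Prod.fst_mul, Prod.snd_mul] at h1 h2
  refine hφ v hv (mul_eq_left.1 h2) fun i x => ?_
  have h3 := congrArg (fun m : Tr (Σ i, X i) => m.f ⟨i, x⟩) h1
  simp only [Tr.mul_f, H550.tr_prod] at h3
  rw [hD, hD] at h3
  simpa using h3

/-- permutations of five points -/
theorem perm_small {α : Type} [Finite α] (F : α → Equiv.Perm (Fin 5)) (g h : Equiv.Perm (Fin 5))
    (hF : ∀ a, F a = 1 ∨ F a = g ∨ F a = h) (hgh : Am (⇑g.symm) (⇑h.symm)) : MapLe 1 F := by
  have key : ∀ a : α, ∃ l : Option Bool, ∀ x : Fin 5,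
      am (⇑g.symm) (⇑h.symm) x l = (F a).symm x := by
    intro a
    rcases hF a with h1 | h1 | h1
    · exact ⟨none, fun x => by rw [h1]; rfl⟩
    · exact ⟨some true, fun x => by rw [h1]; rfl⟩
    · exact ⟨some false, fun x => by rw [h1]; rfl⟩
  choose κ hκ using key
  have hf : ∀ (w : List α) (x : Fin 5),
      (w.map κ).foldl (am (⇑g.symm) (⇑h.symm)) x = ((w.map F).prod).symm x := by
    intro w
    induction w with
    | nil => intro x; rfl
    | cons a w ih =>
      intro x
      rw [List.map_cons, List.foldl_cons, ih, hκ, List.map_cons, List.prod_cons]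
      rfl
  intro S
  have h1 : SH 1 (⋃ σ : Equiv.Perm (Fin 5), ⋃ _ : σ ∈ S,
      ⋂ x : Fin 5, {w : List α | w.map κ ∈
        {w : List (Option Bool) | w.foldl (am (⇑g.symm) (⇑h.symm)) x = σ.symm x}}) :=
    SH.iUnion fun σ => SH.iUnion_prop fun _ => SH.iInter fun x => sh_map κ (hgh _ _)
  refine Eq.mp (congrArg (SH 1) ?_) h1
  ext w
  simp only [Set.mem_iUnion, exists_prop, Set.mem_iInter, Set.mem_setOf_eq]
  constructor
  · rintro ⟨σ, hσ, h2⟩
    have h3 : (w.map F).prod = σ := by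
      have h4 : ((w.map F).prod).symm = σ.symm := Equiv.ext fun x => by rw [← hf, h2]
      exact Equiv.symm_bijective.injective h4
    rw [h3]; exact hσ
  · intro h2
    exact ⟨_, h2, fun x => hf w x⟩

theorem cyc_one (g : Equiv.Perm (Fin 5)) (hg : g.IsCycle) :
    ∃ x, ∀ y, g.symm y ≠ y → ∃ k : ℕ, (⇑g.symm)^[k] x = y := by
  have h1 : (g⁻¹).IsCycle := hg.inv
  obtain ⟨x, hx, h2⟩ := h1
  refine ⟨x, fun y hy => ?_⟩
  have h3 : (g⁻¹).SameCycle x y := h2 hy
  obtain ⟨k, -, hk⟩ := h3.exists_pow_eq'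
  refine ⟨k, ?_⟩
  rw [← hk, Equiv.Perm.coe_pow]
  rfl

/-- two cycles on five points -/
theorem perm_cyc {α : Type} [Finite α] (F : α → Equiv.Perm (Fin 5)) (g h : Equiv.Perm (Fin 5))
    (hg : g.IsCycle) (hh : h.IsCycle) (hF : ∀ a, F a = 1 ∨ F a = g ∨ F a = h) : MapLe 1 F :=
  perm_small F g h hF (am_cyc _ _ g.symm.injective h.symm.injective (cyc_one g hg)
    (cyc_one h hh))

theorem perm_aff5 {α : Type} [Finite α] (F : α → Equiv.Perm (Fin 5)) (g h : Equiv.Perm (Fin 5))
    (hg : ∃ m s : Fin 5, ∀ x, g x = m * x + s) (hh : ∃ m s : Fin 5, ∀ x, h x = m * x + s)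
    (hF : ∀ a, F a = 1 ∨ F a = g ∨ F a = h) : MapLe 1 F := by
  have key : ∀ g : Equiv.Perm (Fin 5), (∃ m s : Fin 5, ∀ x, g x = m * x + s) →
      ∃ m s : Fin 5, m ≠ 0 ∧ ∀ x, g.symm x = m * x + s := by
    rintro g ⟨m, s, h1⟩
    have hm : m ≠ 0 := by
      rintro rfl
      have h2 := g.injective ((h1 0).trans (by rw [h1 1]; simp) : g 0 = g 1)
      exact absurd h2 (by decide)
    have h2 : ∀ m s : Fin 5, m ≠ 0 → ∃ m' s' : Fin 5, m' ≠ 0 ∧
        ∀ x, m * (m' * x + s') + s = x := by decide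
    obtain ⟨m', s', h3, h4⟩ := h2 m s hm
    refine ⟨m', s', h3, fun x => ?_⟩
    rw [Equiv.symm_apply_eq, h1, h4]
  obtain ⟨m, s, hm, h1⟩ := key g hg
  obtain ⟨m', s', hm', h2⟩ := key h hh
  refine perm_small F g h hF ?_
  have e1 : (⇑(Equiv.symm g) : Fin 5 → Fin 5) = fun x => m * x + s := funext h1
  have e2 : (⇑(Equiv.symm h) : Fin 5 → Fin 5) = fun x => m' * x + s' := funext h2
  exact Eq.mpr (congrArg₂ Am e1 e2) (am_aff m s m' s' hm hm')

/-- two affine permutations -/
theorem perm_aff {α : Type} [Finite α] (F : α → Equiv.Perm (ZMod 5)) (g h : Equiv.Perm (ZMod 5))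
    (hg : ∃ m s : ZMod 5, ∀ x, g x = m * x + s) (hh : ∃ m s : ZMod 5, ∀ x, h x = m * x + s)
    (hF : ∀ a, F a = 1 ∨ F a = g ∨ F a = h) : MapLe 1 F :=
  perm_aff5 F g h hg hh hF

end Vale.Agent.P329.H81
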