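import Vale.Agent.P329.H81.Block
import Vale.Agent.P329.R3.H211.Main

/-!
P329: sums over blocks.  A system without nontrivial cycles stays such a system if letters are
added which act as constants.
-/

set_option linter.all false

namespace Vale.Agent.P329.H81

open Vale.Agent.P329 Vale.Agent.P329.S4 Vale.Agent.P329.H550

section snoc

variable {α Q : Type} (δ : Q → α → Option Q) (r : Q)

theorem cnt_snoc (x : List α) (c : α) : ∀ s : Q,
    cnt δ r s (x ++ [c]) = cnt δ r s x + (match δ (fin δ r s x) c with
      | none => 1
      | some _ => 0) := by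
  induction x with
  | nil =>
    intro s
    rw [List.nil_append, cnt_nil, fin_nil]
    cases h : δ s c with
    | none => rw [cnt_cons_none _ h, cnt_nil]
    | some t => rw [cnt_cons_some _ h, cnt_nil]; rfl
  | cons a x ih =>
    intro s
    rw [List.cons_append]
    cases h : δ s a with
    | none =>
      rw [cnt_cons_none _ h, cnt_cons_none _ h, fin_cons_none _ h, ih]
      omega
    | some t => rw [cnt_cons_some _ h, cnt_cons_some _ h, fin_cons_some _ h, ih]

theorem fin_snoc (x : List α) (c : α) : ∀ s : Q,
    fin δ r s (x ++ [c]) = (match δ (fin δ r s x) c with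
      | none => r
      | some t => t) := by
  induction x with
  | nil =>
    intro s
    rw [List.nil_append, fin_nil]
    cases h : δ s c with
    | none => rw [fin_cons_none _ h, fin_nil]
    | some t => rw [fin_cons_some _ h, fin_nil]
  | cons a x ih =>
    intro s
    rw [List.cons_append]
    cases h : δ s a with
    | none => rw [fin_cons_none _ h, fin_cons_none _ h, ih]
    | some t => rw [fin_cons_some _ h, fin_cons_some _ h, ih]

end snoc

section lift

variable {α : Type} [DecidableEq α] (Rs : α → Prop) [DecidablePred Rs] (b : α)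

/-- the sum over the blocks `b x`; `Rs` are the letters which end a block -/
def bs (F : List α → ℤ) : Option (List α) → List α → ℤ
  | none, [] => 0
  | some x, [] => F x
  | none, c :: w => bs F (if c = b then some [] else none) w
  | some x, c :: w => if Rs c then F x + bs F (if c = b then some [] else none) w
      else bs F (some (x ++ [c])) w

theorem bs_add (F G : List α → ℤ) (w : List α) : ∀ x,
    bs Rs b (fun x => F x + G x) x w = bs Rs b F x w + bs Rs b G x w := by
  induction w with
  | nil =>
    intro x
    cases x with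
    | none => rw [bs, bs, bs]; rfl
    | some x => rw [bs, bs, bs]
  | cons c w ih =>
    intro x
    cases x with
    | none => rw [bs, bs, bs, ih]
    | some x =>
      rw [bs, bs, bs]
      by_cases h : Rs c
      · rw [if_pos h, if_pos h, if_pos h, ih]; ring
      · rw [if_neg h, if_neg h, if_neg h, ih]

theorem bs_mul (k : ℤ) (F : List α → ℤ) (w : List α) : ∀ x,
    bs Rs b (fun x => k * F x) x w = k * bs Rs b F x w := by
  induction w with
  | nil =>
    intro x
    cases x with
    | none => rw [bs, bs, mul_zero]
    | some x => rw [bs, bs]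
  | cons c w ih =>
    intro x
    cases x with
    | none => rw [bs, bs, ih]
    | some x =>
      rw [bs, bs]
      by_cases h : Rs c
      · rw [if_pos h, if_pos h, ih]; ring
      · rw [if_neg h, if_neg h, ih]

/-- the sums over the blocks are known -/
def BK (F : List α → ℤ) : Prop :=
  KnZ (bs Rs b F none) ∧ KnZ (bs Rs b F (some []))

variable {Rs b}

theorem BK.congr {F G : List α → ℤ} (h : BK Rs b F) (hFG : ∀ x, G x = F x) : BK Rs b G := by
  have : G = F := funext hFG
  rw [this]; exact h

theorem BK.add {F G : List α → ℤ} (hF : BK Rs b F) (hG : BK Rs b G) :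
    BK Rs b fun x => F x + G x :=
  ⟨(hF.1.add hG.1).congr fun w => bs_add Rs b F G w _,
    (hF.2.add hG.2).congr fun w => bs_add Rs b F G w _⟩

theorem BK.mul_left {F : List α → ℤ} (hF : BK Rs b F) (k : ℤ) : BK Rs b fun x => k * F x :=
  ⟨(hF.1.mul_left k).congr fun w => bs_mul Rs b k F w _,
    (hF.2.mul_left k).congr fun w => bs_mul Rs b k F w _⟩

theorem BK.sub {F G : List α → ℤ} (hF : BK Rs b F) (hG : BK Rs b G) :
    BK Rs b fun x => F x - G x :=
  (hF.add (hG.mul_left (-1))).congr fun x => by ring

theorem BK.div {F : List α → ℤ} {c : ℕ} (hc : 0 < c) (h : BK Rs b fun x => (c : ℤ) * F x) :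
    BK Rs b F :=
  ⟨KnZ.div hc (h.1.congr fun w => (bs_mul Rs b c F w _).symm),
    KnZ.div hc (h.2.congr fun w => (bs_mul Rs b c F w _).symm)⟩

section ev

variable {Q : Type} (Rs b) (δ : Q → α → Option Q) (r s : Q)

/-- the system with the additional letters -/
def lf : Option Q → α → Option (Option Q)
  | none, c => some (if c = b then some s else none)
  | some q, c => if Rs c then some (if c = b then some s else none) else (δ q c).map some

theorem lf_no (z : List α) (hz : ∀ c ∈ z, ¬ Rs c) (hb : Rs b) :
    run (lf Rs b δ s) none z = some none ∧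
      ∀ q, run (lf Rs b δ s) (some q) z = (run δ q z).map some := by
  induction z with
  | nil => exact ⟨rfl, fun q => rfl⟩
  | cons c z ih =>
    have hc : ¬ Rs c := hz c List.mem_cons_self
    have hcb : c ≠ b := by rintro rfl; exact hc hb
    obtain ⟨h1, h2⟩ := ih fun c hc => hz c (List.mem_cons_of_mem _ hc)
    refine ⟨?_, fun q => ?_⟩
    · rw [run_cons_some z (show lf Rs b δ s none c = some none by rw [lf, if_neg hcb])]
      exact h1
    · cases h : δ q c with
      | none =>
        have e1 : lf Rs b δ s (some q) c = none := by rw [lf, if_neg hc, h]; rfl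
        rw [run_cons_none z e1, run_cons_none z h]; rfl
      | some q' =>
        have e1 : lf Rs b δ s (some q) c = some (some q') := by rw [lf, if_neg hc, h]; rfl
        rw [run_cons_some z e1, run_cons_some z h, h2]

theorem lf_res (z : List α) (hz : ∃ c ∈ z, Rs c) (hb : Rs b) :
    ∃ y0, ∀ x y, run (lf Rs b δ s) x z = some y → y = y0 := by
  induction z with
  | nil => obtain ⟨c, hc, -⟩ := hz; exact absurd hc (by simp)
  | cons c z ih =>
    by_cases h : ∃ c ∈ z, Rs c
    · obtain ⟨y0, h1⟩ := ih h
      refine ⟨y0, fun x y h2 => ?_⟩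
      obtain ⟨x', h3, h4⟩ := run_cons_eq_some h2
      exact h1 x' y h4
    · have hc : Rs c := by
        obtain ⟨d, hd, hd'⟩ := hz
        rcases List.mem_cons.1 hd with h1 | h1
        · rw [← h1]; exact hd'
        · exact absurd ⟨d, h1, hd'⟩ h
      have hstep : ∀ x, lf Rs b δ s x c = some (if c = b then some s else none) := by
        intro x
        cases x with
        | none => rfl
        | some q => rw [lf, if_pos hc]
      cases h2 : run (lf Rs b δ s) (if c = b then some s else none) z with
      | none =>
        refine ⟨none, fun x y h3 => ?_⟩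
        rw [run_cons_some z (hstep x), h2] at h3
        cases h3
      | some y0 =>
        refine ⟨y0, fun x y h3 => ?_⟩
        rw [run_cons_some z (hstep x), h2] at h3
        exact (Option.some.inj h3).symm

theorem lf_noCyc (hb : Rs b) (hc : NoCyc δ) : NoCyc (lf Rs b δ s) := by
  intro z x n hn hs
  obtain ⟨m, rfl⟩ : ∃ m, n = m + 1 := ⟨n - 1, by omega⟩
  by_cases hz : ∃ c ∈ z, Rs c
  · obtain ⟨y0, h1⟩ := lf_res Rs b δ s z hz hb
    have h2 := hs
    rw [List.replicate_succ, List.flatten_cons] at h2
    obtain ⟨s', h3, -⟩ := run_append_eq_some h2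
    have h4 := hs
    rw [List.replicate_succ', List.flatten_append, List.flatten_singleton] at h4
    obtain ⟨s'', -, h5⟩ := run_append_eq_some h4
    rw [h3, h1 _ _ h3, h1 _ _ h5]
  · push Not at hz
    have hz' : ∀ c ∈ (List.replicate (m + 1) z).flatten, ¬ Rs c := by
      intro c hc
      rw [List.mem_flatten] at hc
      obtain ⟨l, hl, h2⟩ := hc
      rw [List.eq_of_mem_replicate hl] at h2
      exact hz c h2
    cases x with
    | none => exact (lf_no Rs b δ s z hz hb).1
    | some q =>
      rw [(lf_no Rs b δ s _ hz' hb).2] at hs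
      rw [(lf_no Rs b δ s z hz hb).2]
      cases h3 : run δ q (List.replicate (m + 1) z).flatten with
      | none => rw [h3] at hs; cases hs
      | some q' =>
        rw [h3] at hs
        have h4 : q' = q := Option.some.inj (Option.some.inj hs)
        rw [h4] at h3
        rw [hc z q (m + 1) hn h3]
        rfl

theorem lf_cnt (hb : Rs b) (w : List α) :
    bs Rs b (fun x => (cnt δ r s x : ℤ)) none w = cnt (lf Rs b δ s) (some r) none w ∧
    ∀ x, bs Rs b (fun x => (cnt δ r s x : ℤ)) (some x) w =
      cnt δ r s x + cnt (lf Rs b δ s) (some r) (some (fin δ r s x)) w := by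
  induction w with
  | nil =>
    refine ⟨?_, fun x => ?_⟩
    · rw [bs, cnt_nil]; rfl
    · rw [bs, cnt_nil]; simp
  | cons c w ih =>
    obtain ⟨ih1, ih2⟩ := ih
    have hstep : ∀ x, lf Rs b δ s x c = some (if c = b then some s else none) →
        bs Rs b (fun x => (cnt δ r s x : ℤ)) (if c = b then some [] else none) w =
          cnt (lf Rs b δ s) (some r) x (c :: w) := by
      intro x hx
      rw [cnt_cons_some w hx]
      by_cases h : c = b
      · rw [if_pos h, if_pos h, ih2, cnt_nil, fin_nil]; simp
      · rw [if_neg h, if_neg h, ih1]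
    refine ⟨?_, fun x => ?_⟩
    · rw [bs, hstep none rfl]
    · rw [bs]
      by_cases h : Rs c
      · rw [if_pos h, hstep (some (fin δ r s x)) (by rw [lf, if_pos h])]
      · rw [if_neg h, ih2, cnt_snoc, fin_snoc]
        cases h1 : δ (fin δ r s x) c with
        | none =>
          have e1 : lf Rs b δ s (some (fin δ r s x)) c = none := by
            rw [lf, if_neg h, h1]; rfl
          rw [cnt_cons_none w e1]
          push_cast
          ring
        | some t =>
          have e1 : lf Rs b δ s (some (fin δ r s x)) c = some (some t) := by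
            rw [lf, if_neg h, h1]; rfl
          rw [cnt_cons_some w e1]
          push_cast
          ring

theorem BK.of_event [Finite α] [Finite Q] (hb : Rs b) (hc : NoCyc δ) :
    BK Rs b fun x => (cnt δ r s x : ℤ) := by
  refine ⟨?_, ?_⟩
  · exact (KnZ.of_event (lf_noCyc Rs b δ s hb hc) (some r) none).congr fun w =>
      (lf_cnt Rs b δ r s hb w).1
  · refine (KnZ.of_event (lf_noCyc Rs b δ s hb hc) (some r) (some s)).congr fun w => ?_
    rw [(lf_cnt Rs b δ r s hb w).2 [], cnt_nil, fin_nil]
    simp

end ev

section st

variable {Q : Type} [DecidableEq Q] (Rs b) (D : Q → α → Q) (q0 : Q) (Ψ : Q → ℤ)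

/-- the inner automaton -/
def dn (q : Q) (c : α) : Option Q := if Rs c then none else some (D q c)

/-- the value at the end -/
def lastv : Option Q → ℤ
  | none => 0
  | some q => Ψ q

theorem st_bs (w : List α) :
    bs Rs b (fun x => Ψ (x.foldl D q0)) none w =
      blk (dn Rs D) q0 b (fun q _ => Ψ q) none w +
        lastv Ψ (w.foldl (trk (dn Rs D) q0 b) none) ∧
    ∀ x, bs Rs b (fun x => Ψ (x.foldl D q0)) (some x) w =
      blk (dn Rs D) q0 b (fun q _ => Ψ q) (some (x.foldl D q0)) w +
        lastv Ψ (w.foldl (trk (dn Rs D) q0 b) (some (x.foldl D q0))) := by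
  induction w with
  | nil =>
    refine ⟨?_, fun x => ?_⟩
    · rw [bs, blk]; rfl
    · rw [bs, blk, zero_add]; rfl
  | cons c w ih =>
    obtain ⟨ih1, ih2⟩ := ih
    have hif : bs Rs b (fun x => Ψ (x.foldl D q0)) (if c = b then some [] else none) w =
        blk (dn Rs D) q0 b (fun q _ => Ψ q) (if c = b then some q0 else none) w +
          lastv Ψ (w.foldl (trk (dn Rs D) q0 b) (if c = b then some q0 else none)) := by
      by_cases h : c = b
      · rw [if_pos h, if_pos h, ih2]; rfl
      · rw [if_neg h, if_neg h, ih1]
    refine ⟨?_, fun x => ?_⟩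
    · rw [bs, blk, List.foldl_cons, trk, hif]
    · rw [bs, List.foldl_cons]
      by_cases h : Rs c
      · have e1 : dn Rs D (x.foldl D q0) c = none := if_pos h
        rw [if_pos h, hif, blk, e1, trk, e1]
        change Ψ (x.foldl D q0) + (_ + _) = Ψ (x.foldl D q0) + _ + _
        ring
      · have e1 : dn Rs D (x.foldl D q0) c = some (D (x.foldl D q0) c) := if_neg h
        rw [if_neg h, ih2, blk, e1, trk, e1, List.foldl_append]
        rfl

/-- sums of integer weights of blocks -/
theorem blk_knZ [Finite α] [Finite Q] {δ : Q → α → Option Q} (hb : ∀ q, δ q b = none)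
    (hc : NoCyc (ein δ q0)) (s : Q → α → ℤ) (x : Option Q) : KnZ (blk δ q0 b s x) := by
  classical
  have := Fintype.ofFinite α
  have := Fintype.ofFinite Q
  have h1 : KnZ fun w => ∑ t : Q × α, s t.1 t.2 * blk δ q0 b (ind1 t) x w :=
    KnZ.sum Finset.univ fun t _ => (ind_kn hb hc t x).mul_left _
  refine h1.congr fun w => ?_
  rw [blk_sum]
  exact Finset.sum_congr rfl fun t _ => by rw [smul_eq_mul, mul_comm]

theorem BK.of_state [Finite α] [Finite Q] (hb : Rs b) (hc : NoCyc (ein (dn Rs D) q0)) :
    BK Rs b fun x => Ψ (x.foldl D q0) := by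
  have hb' : ∀ q, dn Rs D q b = none := fun q => if_pos hb
  refine ⟨?_, ?_⟩
  · exact ((blk_knZ b q0 hb' hc (fun q _ => Ψ q) none).add
      (KnZ.of_kn (trk_kn hb' hc none) (lastv Ψ))).congr fun w => (st_bs Rs b D q0 Ψ w).1
  · exact ((blk_knZ b q0 hb' hc (fun q _ => Ψ q) (some q0)).add
      (KnZ.of_kn (trk_kn hb' hc (some q0)) (lastv Ψ))).congr fun w =>
        (st_bs Rs b D q0 Ψ w).2 []

end st

theorem BK.const [Finite α] (hb : Rs b) (k : ℤ) : BK Rs b fun _ => k :=
  BK.of_state Rs b (fun (_ : Unit) _ => ()) () (fun _ => k) hb noCyc_subsingleton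

theorem BK.sum [Finite α] (hb : Rs b) {ι : Type*} (s : Finset ι) {F : ι → List α → ℤ}
    (h : ∀ i ∈ s, BK Rs b (F i)) : BK Rs b fun x => ∑ i ∈ s, F i x := by
  classical
  induction s using Finset.induction_on with
  | empty => simpa using BK.const hb 0
  | insert a s ha ih =>
    have h1 := (h a (Finset.mem_insert_self a s)).add
      (ih fun i hi => h i (Finset.mem_insert_of_mem hi))
    exact h1.congr fun x => Finset.sum_insert ha

end lift

/-- a part of a system -/
theorem noCyc_sub {α Q : Type} {δ ε : Q → α → Option Q}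
    (h : ∀ q a q', ε q a = some q' → δ q a = some q') (hδ : NoCyc δ) : NoCyc ε := by
  have h1 : ∀ (w : List α) (q q' : Q), run ε q w = some q' → run δ q w = some q' := by
    intro w
    induction w with
    | nil => intro q q' h2; exact h2
    | cons a w ih =>
      intro q q' h2
      obtain ⟨q1, h3, h4⟩ := run_cons_eq_some h2
      rw [run_cons_some w (h q a q1 h3)]
      exact ih q1 q' h4
  intro z s n hn hs
  have h2 := hδ z s n hn (h1 _ _ _ hs)
  obtain ⟨m, rfl⟩ : ∃ m, n = m + 1 := ⟨n - 1, by omega⟩
  rw [List.replicate_succ, List.flatten_cons] at hs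
  obtain ⟨s', h3, -⟩ := run_append_eq_some hs
  rw [h1 _ _ _ h3] at h2
  rw [h3, h2]

end Vale.Agent.P329.H81
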