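import Vale.Agent.P329.H81.Comp

/-!
P329: automata in which each letter acts as one fixed map, as the identity, or has at most two
values.

For a letter `b` with at most two values let `i` be the number of letters `a` (acting as the fixed
map) since the last letter with at most two values, if this was `b`.  The automaton `n1` knows `i`
modulo `m` and adds up weights modulo two; if `i` passes `m` there is an additional weight one, so
that the letter `a` has a single cycle.  Therefore this automaton is monotone off one state.  The
difference of two such automata has no additional weights.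
-/

set_option linter.all false

namespace Vale.Agent.P329.H81

open Vale.Agent.P329 Vale.Agent.P329.S4 Vale.Agent.P329.H112 Vale.Agent.P329.H157
  Vale.Agent.P329.H647 Vale.Agent.P329.H96 Vale.Agent.P329.H550

section aut

variable {B : Type} [DecidableEq B]

/-- residues since the last letter `b`, a sum of weights modulo two, and the weight `k` if the
residue returns to zero -/
def n1 (m : ℕ) [NeZero m] (k : ZMod 2) (b : B) (s : ZMod m → B → ZMod 2) :
    Option (ZMod m) × ZMod 2 → Option (Option B) → Option (ZMod m) × ZMod 2
  | x, none => x
  | (none, p), some none => (none, p)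
  | (some r, p), some none => (some (r + 1), if r + 1 = 0 then p + k else p)
  | (none, p), some (some c) => (if c = b then some 0 else none, p)
  | (some r, p), some (some c) => (if c = b then some 0 else none, p + s r c)

/-- the number since the last letter `b`, at most `t`, a sum of weights modulo two -/
def n2 (t : ℕ) (b : B) (s : Fin (t + 1) → B → ZMod 2) :
    Option (Fin (t + 1)) × ZMod 2 → Option (Option B) → Option (Fin (t + 1)) × ZMod 2
  | x, none => x
  | (none, p), some none => (none, p)
  | (some i, p), some none => (some ⟨min (i.val + 1) t, by omega⟩, p)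
  | (none, p), some (some c) => (if c = b then some 0 else none, p)
  | (some i, p), some (some c) => (if c = b then some 0 else none, p + s i c)

/-- the rank of the states of `n1` -/
def rk1 (m : ℕ) : Option (ZMod m) × ZMod 2 → ℕ
  | (none, _) => 0
  | (some r, p) => 2 * m - (r.val + m * p.val)

/-- the rank of the states of `n2` -/
def rk2 (t : ℕ) : Option (Fin (t + 1)) × ZMod 2 → ℕ
  | (none, _) => 0
  | (some i, _) => t + 1 - i.val

theorem z2 (p : ZMod 2) : p = 0 ∨ p = 1 := by revert p; decide

theorem n1_cl (m : ℕ) [NeZero m] (b : B) (s : ZMod m → B → ZMod 2) :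
    ClS (rk1 m) (n1 m 1 b s) (some 0, 0) := by
  have hm : 0 < m := Nat.pos_of_neZero m
  have hv : ∀ (r : ZMod m) (p : ZMod 2), r.val + m * p.val < 2 * m := by
    intro r p
    have h1 := ZMod.val_lt r
    rcases z2 p with rfl | rfl
    · rw [ZMod.val_zero]; omega
    · rw [ZMod.val_one]; omega
  intro l
  match l with
  | none => exact Or.inl fun x => Or.inr (Or.inl rfl)
  | some none =>
    refine Or.inl fun x => ?_
    obtain ⟨q, p⟩ := x
    cases q with
    | none => exact Or.inr (Or.inl rfl)
    | some r =>
      change (some (r + 1), if r + 1 = 0 then p + 1 else p) = (some 0, 0) ∨ _ ∨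
        rk1 m (some (r + 1), if r + 1 = 0 then p + 1 else p) < rk1 m (some r, p)
      by_cases h : r + 1 = 0
      · rw [if_pos h, h]
        rcases z2 p with rfl | rfl
        · refine Or.inr (Or.inr ?_)
          have h1 : r.val + 1 = m := by
            have h2 : r = -1 := eq_neg_of_add_eq_zero_left h
            have h3 := ZMod.val_neg_one (m - 1)
            obtain ⟨j, rfl⟩ : ∃ j, m = j + 1 := ⟨m - 1, by omega⟩
            rw [h2, ZMod.val_neg_one j]
          change 2 * m - ((0 : ZMod m).val + m * (0 + 1 : ZMod 2).val) <
            2 * m - (r.val + m * (0 : ZMod 2).val)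
          rw [zero_add, ZMod.val_zero, ZMod.val_zero, ZMod.val_one]
          omega
        · exact Or.inl (by
            rw [show (1 : ZMod 2) + 1 = 0 from rfl])
      · rw [if_neg h]
        refine Or.inr (Or.inr ?_)
        have h1 : (r + 1).val = r.val + 1 := by
          have h2 := ZMod.val_lt r
          rcases Nat.lt_or_ge (r.val + 1) m with h3 | h3
          · have h4 : r + 1 = ((r.val + 1 : ℕ) : ZMod m) := by
              rw [Nat.cast_add, Nat.cast_one, ZMod.natCast_zmod_val]
            rw [h4, ZMod.val_natCast_of_lt h3]
          · exfalso
            apply h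
            have h4 : r + 1 = ((r.val + 1 : ℕ) : ZMod m) := by
              rw [Nat.cast_add, Nat.cast_one, ZMod.natCast_zmod_val]
            rw [h4, show r.val + 1 = m by omega, ZMod.natCast_self]
        have h2 := hv (r + 1) p
        have h3 := hv r p
        change 2 * m - ((r + 1).val + m * p.val) < 2 * m - (r.val + m * p.val)
        omega
  | some (some c) =>
    by_cases hc : c = b
    · refine Or.inr ⟨(some 0, 1), fun x => ?_⟩
      obtain ⟨q, p⟩ := x
      cases q with
      | none =>
        change (if c = b then some 0 else none, p) = _ ∨ (if c = b then some 0 else none, p) = _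
        rw [if_pos hc]
        rcases z2 p with rfl | rfl
        · exact Or.inl rfl
        · exact Or.inr rfl
      | some r =>
        change (if c = b then some 0 else none, p + s r c) = _ ∨
          (if c = b then some 0 else none, p + s r c) = _
        rw [if_pos hc]
        rcases z2 (p + s r c) with h | h
        · rw [h]; exact Or.inl rfl
        · rw [h]; exact Or.inr rfl
    · refine Or.inl fun x => ?_
      obtain ⟨q, p⟩ := x
      cases q with
      | none =>
        refine Or.inr (Or.inl ?_)
        change (if c = b then some 0 else none, p) = _
        rw [if_neg hc]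
      | some r =>
        refine Or.inr (Or.inr ?_)
        change rk1 m (if c = b then some 0 else none, p + s r c) < rk1 m (some r, p)
        rw [if_neg hc]
        have h3 := hv r p
        change 0 < 2 * m - (r.val + m * p.val)
        omega

theorem n2_cl (t : ℕ) (b : B) (s : Fin (t + 1) → B → ZMod 2) :
    ClS (rk2 t) (n2 t b s) (some 0, 0) := by
  intro l
  match l with
  | none => exact Or.inl fun x => Or.inr (Or.inl rfl)
  | some none =>
    refine Or.inl fun x => ?_
    obtain ⟨q, p⟩ := x
    cases q with
    | none => exact Or.inr (Or.inl rfl)
    | some i =>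
      have h0 := i.isLt
      by_cases h : i.val = t
      · refine Or.inr (Or.inl ?_)
        change (some (⟨min (i.val + 1) t, _⟩ : Fin (t + 1)), p) = (some i, p)
        congr 2
        apply Fin.ext
        change min (i.val + 1) t = i.val
        omega
      · refine Or.inr (Or.inr ?_)
        change t + 1 - min (i.val + 1) t < t + 1 - i.val
        omega
  | some (some c) =>
    by_cases hc : c = b
    · refine Or.inr ⟨(some 0, 1), fun x => ?_⟩
      obtain ⟨q, p⟩ := x
      cases q with
      | none =>
        change (if c = b then some 0 else none, p) = _ ∨ (if c = b then some 0 else none, p) = _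
        rw [if_pos hc]
        rcases z2 p with rfl | rfl
        · exact Or.inl rfl
        · exact Or.inr rfl
      | some r =>
        change (if c = b then some 0 else none, p + s r c) = _ ∨
          (if c = b then some 0 else none, p + s r c) = _
        rw [if_pos hc]
        rcases z2 (p + s r c) with h | h
        · rw [h]; exact Or.inl rfl
        · rw [h]; exact Or.inr rfl
    · refine Or.inl fun x => ?_
      obtain ⟨q, p⟩ := x
      cases q with
      | none =>
        refine Or.inr (Or.inl ?_)
        change (if c = b then some 0 else none, p) = _
        rw [if_neg hc]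
      | some r =>
        refine Or.inr (Or.inr ?_)
        change rk2 t (if c = b then some 0 else none, p + s r c) < rk2 t (some r, p)
        rw [if_neg hc]
        have h0 := r.isLt
        change 0 < t + 1 - r.val
        omega

theorem n2_sh [Finite B] (t : ℕ) (b : B) (s : Fin (t + 1) → B → ZMod 2)
    (x y : Option (Fin (t + 1)) × ZMod 2) :
    SH 1 {w : List (Option (Option B)) | w.foldl (n2 t b s) x = y} :=
  fold_cl (n2_cl t b s) x y

theorem n1_sh [Finite B] (m : ℕ) [NeZero m] (b : B) (s : ZMod m → B → ZMod 2)
    (x y : Option (ZMod m) × ZMod 2) :
    SH 1 {w : List (Option (Option B)) | w.foldl (n1 m 0 b s) x = y} := by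
  have h1 : Kn fun w : List (Option (Option B)) => w.foldl (n1 m 1 b s) x :=
    fold_cl (n1_cl m b s) x
  have h2 : Kn fun w : List (Option (Option B)) => w.foldl (n1 m 1 b fun _ _ => 0) (x.1, 0) :=
    fold_cl (n1_cl m b fun _ _ => 0) (x.1, 0)
  have h3 := h1.comp₂ h2 fun u v => (u.1, u.2 - v.2)
  have key : ∀ (w : List (Option (Option B))) (q : Option (ZMod m)) (p p' : ZMod 2),
      w.foldl (n1 m 0 b s) (q, p - p') =
        ((w.foldl (n1 m 1 b s) (q, p)).1, (w.foldl (n1 m 1 b s) (q, p)).2 -
          (w.foldl (n1 m 1 b fun _ _ => 0) (q, p')).2) ∧
      (w.foldl (n1 m 1 b s) (q, p)).1 = (w.foldl (n1 m 1 b fun _ _ => 0) (q, p')).1 := by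
    intro w
    induction w with
    | nil => intro q p p'; exact ⟨rfl, rfl⟩
    | cons l w ih =>
      intro q p p'
      simp only [List.foldl_cons]
      match l, q with
      | none, q => exact ih q p p'
      | some none, none => exact ih none p p'
      | some none, some r =>
        change w.foldl (n1 m 0 b s) (some (r + 1), if r + 1 = 0 then p - p' + 0 else p - p') =
            ((w.foldl (n1 m 1 b s) (some (r + 1), if r + 1 = 0 then p + 1 else p)).1,
              (w.foldl (n1 m 1 b s) (some (r + 1), if r + 1 = 0 then p + 1 else p)).2 -
                (w.foldl (n1 m 1 b fun _ _ => 0)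
                  (some (r + 1), if r + 1 = 0 then p' + 1 else p')).2) ∧
            (w.foldl (n1 m 1 b s) (some (r + 1), if r + 1 = 0 then p + 1 else p)).1 =
              (w.foldl (n1 m 1 b fun _ _ => 0)
                (some (r + 1), if r + 1 = 0 then p' + 1 else p')).1
        by_cases h : r + 1 = 0
        · rw [if_pos h, if_pos h, if_pos h]
          have e : p - p' + 0 = (p + 1) - (p' + 1) := by ring
          rw [e]
          exact ih _ _ _
        · rw [if_neg h, if_neg h, if_neg h]
          exact ih _ _ _
      | some (some c), none => exact ih (if c = b then some 0 else none) p p'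
      | some (some c), some r =>
        have h4 := ih (if c = b then some 0 else none) (p + s r c) (p' + 0)
        have e : p - p' + s r c = p + s r c - (p' + 0) := by ring
        change w.foldl (n1 m 0 b s) (if c = b then some 0 else none, p - p' + s r c) = _ ∧ _
        rw [e]
        exact h4
  refine Eq.mp (congrArg (SH 1) ?_) (h3 y)
  ext w
  simp only [Set.mem_setOf_eq]
  have h5 := (key w x.1 x.2 0).1
  rw [sub_zero] at h5
  change _ ↔ w.foldl (n1 m 0 b s) (x.1, x.2) = y
  rw [h5]

end aut

end Vale.Agent.P329.H81
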