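import Vale.Agent.P329.H81.WBlk

/-!
P329: automata with an abelian group of symmetries whose letters act on the orbits as the identity,
as one permutation, as its inverse or as constants.
-/

set_option linter.all false

namespace Vale.Agent.P329.H81

open Vale.Agent.P329 Vale.Agent.P329.S4 Vale.Agent.P329.H550 Vale.Agent.P329.H211
  Vale.Agent.P329.H112 Vale.Agent.P329.H157 Vale.Agent.P329.H647 Vale.Agent.P329.H96

section act

variable {α X A : Type} [Finite α] [Finite X] [AddCommGroup A] [Finite A] [AddAction A X]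

/-- **A permutation on the orbits.** -/
theorem sym_perm (δ : X → α → X) (hδ : ∀ (g : A) (x : X) (a : α), δ (g +ᵥ x) a = g +ᵥ δ x a)
    (f : Equiv.Perm X) (hf : ∀ (g : A) (x : X), f (g +ᵥ x) = g +ᵥ f x)
    (h : ∀ a, (∀ x, ∃ g : A, δ x a = g +ᵥ x) ∨ (∀ x, ∃ g : A, δ x a = g +ᵥ f x) ∨
      (∀ x, ∃ g : A, δ x a = g +ᵥ f.symm x) ∨ ∃ y : X, ∀ x, ∃ g : A, δ x a = g +ᵥ y)
    (p q : X) : SH 1 {w : List α | w.foldl δ p = q} := by
  classical
  have hn : 0 < orderOf f := orderOf_pos f
  obtain ⟨n, hnn⟩ : ∃ n, n = orderOf f := ⟨_, rfl⟩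
  have : NeZero n := ⟨by omega⟩
  let F : ZMod n → Equiv.Perm X := fun v => f ^ v.val
  have hF0 : F 0 = 1 := by
    change f ^ (0 : ZMod n).val = 1
    rw [ZMod.val_zero, pow_zero]
  have hmod : ∀ k : ℕ, f ^ (k % n) = f ^ k := by
    intro k
    rw [hnn]
    exact pow_mod_orderOf f k
  have hFadd : ∀ u v, F (u + v) = F u * F v := by
    intro u v
    change f ^ (u + v).val = f ^ u.val * f ^ v.val
    rw [ZMod.val_add, ← pow_add, hmod]
  have hFint : ∀ k : ℤ, F (k : ZMod n) = f ^ k := by
    intro k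
    change f ^ (k : ZMod n).val = f ^ k
    rw [← zpow_natCast, zpow_eq_zpow_iff_modEq, ← hnn, ← ZMod.intCast_eq_intCast_iff,
      Int.cast_natCast, ZMod.natCast_zmod_val]
  have hFv : ∀ (v : ZMod n) (g : A) (x : X), F v (g +ᵥ x) = g +ᵥ F v x := by
    intro v g x
    change (f ^ v.val) (g +ᵥ x) = g +ᵥ (f ^ v.val) x
    induction v.val generalizing x with
    | zero => rfl
    | succ k ih => rw [pow_succ, Equiv.Perm.mul_apply, hf, ih, Equiv.Perm.mul_apply]
  have key : ∀ a, ∃ (e : Option ℤ) (y : X),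
      (∀ k, e = some k → (k = 0 ∨ k = 1 ∨ k = -1) ∧ ∀ x, ∃ g : A, δ x a = g +ᵥ (f ^ k) x) ∧
      (e = none → ∀ x, ∃ g : A, δ x a = g +ᵥ y) := by
    intro a
    rcases h a with h1 | h1 | h1 | ⟨y, h1⟩
    · refine ⟨some 0, p, fun k hk => ?_, fun h => (by cases h)⟩
      cases hk
      refine ⟨Or.inl rfl, fun x => ?_⟩
      rw [zpow_zero]
      exact h1 x
    · refine ⟨some 1, p, fun k hk => ?_, fun h => (by cases h)⟩
      cases hk
      refine ⟨Or.inr (Or.inl rfl), fun x => ?_⟩
      rw [zpow_one]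
      exact h1 x
    · refine ⟨some (-1), p, fun k hk => ?_, fun h => (by cases h)⟩
      cases hk
      refine ⟨Or.inr (Or.inr rfl), fun x => ?_⟩
      rw [zpow_neg_one]
      exact h1 x
    · exact ⟨none, y, fun k hk => (by cases hk), fun _ => h1⟩
  choose e y he1 he2 using key
  let Rs : Option α → Prop := fun l => l.elim True fun a => e a = none
  let φ : Option α → ℤ := fun l => l.elim 0 fun a => (e a).getD 0
  let y' : Option α → X := fun l => l.elim p y
  have hφ : ∀ l, φ l = 0 ∨ φ l = 1 ∨ φ l = -1 := by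
    intro l
    cases l with
    | none => exact Or.inl rfl
    | some a =>
      change (e a).getD 0 = 0 ∨ (e a).getD 0 = 1 ∨ (e a).getD 0 = -1
      cases h1 : e a with
      | none => exact Or.inl rfl
      | some k => exact (he1 a k h1).1
  -- one step
  have step : ∀ (x : Option α × ZMod n) (a : α), ∃ g : A,
      δ (F x.2 (y' x.1)) a = g +ᵥ F (lz Rs φ x (some a)).2 (y' (lz Rs φ x (some a)).1) := by
    intro x a
    cases h1 : e a with
    | none =>
      have h2 : lz Rs φ x (some a) = (some a, 0) := if_pos h1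
      rw [h2]
      obtain ⟨g, hg⟩ := he2 a h1 (F x.2 (y' x.1))
      refine ⟨g, ?_⟩
      rw [hg]
      change g +ᵥ y a = g +ᵥ F 0 (y a)
      rw [hF0]; rfl
    | some k =>
      have h2 : lz Rs φ x (some a) = (x.1, x.2 + (φ (some a) : ZMod n)) :=
        if_neg (fun h3 : e a = none => by rw [h1] at h3; cases h3)
      have h3 : φ (some a) = k := by
        change (e a).getD 0 = k
        rw [h1]; rfl
      rw [h2, h3]
      obtain ⟨g, hg⟩ := (he1 a k h1).2 (F x.2 (y' x.1))
      refine ⟨g, ?_⟩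
      rw [hg]
      change g +ᵥ (f ^ k) (F x.2 (y' x.1)) = g +ᵥ F (x.2 + (k : ZMod n)) (y' x.1)
      rw [add_comm x.2, hFadd, hFint, Equiv.Perm.mul_apply]
  choose G hG using step
  let g' : Option α → ZMod n → Option α → A := fun b v l => l.elim 0 fun a => G (b, v) a
  have hw : ∀ (w : List α) (g : A) (x : X), w.foldl δ (g +ᵥ x) = g +ᵥ w.foldl δ x := by
    intro w
    induction w with
    | nil => intro g x; rfl
    | cons a w ih => intro g x; rw [List.foldl_cons, List.foldl_cons, hδ, ih]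
  have hst : ∀ (w : List α) (x : Option α × ZMod n), w.foldl δ (F x.2 (y' x.1)) =
      tz Rs φ g' x (w.map some) +ᵥ F ((w.map some).foldl (lz Rs φ) x).2
        (y' ((w.map some).foldl (lz Rs φ) x).1) := by
    intro w
    induction w with
    | nil => intro x; rw [List.map_nil, tz, zero_vadd]; rfl
    | cons a w ih =>
      intro x
      rw [List.foldl_cons, List.map_cons, List.foldl_cons, tz, hG x a, hw, ih, vadd_vadd]
      rfl
  have h1 : SH 1 (⋃ z : Option α × ZMod n, ⋃ T : A, ⋃ _ : T +ᵥ F z.2 (y' z.1) = q,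
      {w : List (Option α) | w.foldl (lz Rs φ) (none, 0) = z} ∩
        {w : List (Option α) | tz Rs φ g' (none, 0) w = T}) :=
    SH.iUnion fun z => SH.iUnion fun T => SH.iUnion_prop fun _ =>
      SH.inter (lz_sh hφ (none, 0) z trivial) (tz_kn hφ g' none trivial T)
  refine Eq.mp (congrArg (SH 1) ?_) (sh_map (α := α) some h1)
  ext w
  simp only [Set.mem_iUnion, exists_prop, Set.mem_inter_iff, Set.mem_setOf_eq]
  have h2 := hst w (none, 0)
  have h3 : F (0 : ZMod n) (y' none) = p := by rw [hF0]; rfl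
  rw [h3] at h2
  rw [h2]
  constructor
  · rintro ⟨z, T, h4, h5, h6⟩
    rw [h5, h6]; exact h4
  · intro h4
    exact ⟨_, _, h4, rfl, rfl⟩

end act

/-- the sum of the weights along a run -/
def rsum {α Y A : Type} [AddCommMonoid A] (δ : Y → α → Y) (s : Y → α → A) : Y → List α → A
  | _, [] => 0
  | y, a :: w => s y a + rsum δ s (δ y a) w

/-- **Wreath products of an abelian group with one permutation and constants.** -/
theorem wreath_perm {α Y A : Type} [Finite α] [Finite Y] [AddCommGroup A] [Finite A]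
    (δ : Y → α → Y) (f : Equiv.Perm Y)
    (h : ∀ a, (∀ y, δ y a = y) ∨ (∀ y, δ y a = f y) ∨ (∀ y, δ y a = f.symm y) ∨
      ∃ z, ∀ y, δ y a = z)
    (s : Y → α → A) (y z : Y) (g : A) :
    SH 1 {w : List α | w.foldl δ y = z ∧ rsum δ s y w = g} := by
  letI act : AddAction A (A × Y) :=
    { vadd := fun g x => (g + x.1, x.2)
      zero_vadd := fun x => by
        change (0 + x.1, x.2) = x
        rw [zero_add]
      add_vadd := fun g g' x => by
        change (g + g' + x.1, x.2) = (g + (g' + x.1), x.2)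
        rw [add_assoc] }
  have hv : ∀ (g h : A) (y : Y), g +ᵥ (h, y) = (g + h, y) := fun g h y => rfl
  let D : A × Y → α → A × Y := fun x a => (x.1 + s x.2 a, δ x.2 a)
  let F : Equiv.Perm (A × Y) := (Equiv.refl A).prodCongr f
  have h1 := sym_perm (A := A) D (fun g x a => by
      obtain ⟨u, v⟩ := x
      change (g + u + s v a, δ v a) = (g + (u + s v a), δ v a)
      rw [add_assoc]) F (fun g x => rfl) (fun a => by
      rcases h a with h2 | h2 | h2 | ⟨z, h2⟩
      · refine Or.inl fun x => ⟨s x.2 a, ?_⟩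
        obtain ⟨u, v⟩ := x
        rw [hv]
        change (u + s v a, δ v a) = _
        rw [h2, add_comm]
      · refine Or.inr (Or.inl fun x => ⟨s x.2 a, ?_⟩)
        obtain ⟨u, v⟩ := x
        change (u + s v a, δ v a) = (s v a + u, f v)
        rw [h2, add_comm]
      · refine Or.inr (Or.inr (Or.inl fun x => ⟨s x.2 a, ?_⟩))
        obtain ⟨u, v⟩ := x
        change (u + s v a, δ v a) = (s v a + u, f.symm v)
        rw [h2, add_comm]
      · refine Or.inr (Or.inr (Or.inr ⟨(0, z), fun x => ⟨x.1 + s x.2 a, ?_⟩⟩))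
        obtain ⟨u, v⟩ := x
        rw [hv]
        change (u + s v a, δ v a) = (u + s v a + 0, z)
        rw [h2, add_zero]) (0, y) (g, z)
  refine Eq.mp (congrArg (SH 1) ?_) h1
  have key : ∀ (w : List α) (u : A) (v : Y), w.foldl D (u, v) =
      (u + rsum δ s v w, w.foldl δ v) := by
    intro w
    induction w with
    | nil => intro u v; rw [rsum, add_zero]; rfl
    | cons a w ih =>
      intro u v
      rw [List.foldl_cons, List.foldl_cons, rsum, ← add_assoc]
      exact ih _ _
  ext w
  simp only [Set.mem_setOf_eq]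
  rw [key, zero_add, Prod.mk.injEq]
  exact ⟨fun h3 => ⟨h3.2, h3.1⟩, fun h3 => ⟨h3.2, h3.1⟩⟩

theorem wreath_fold {α Y A : Type} [Finite α] [Finite Y] [AddCommGroup A] [Finite A]
    (δ : Y → α → Y) (f : Equiv.Perm Y)
    (h : ∀ a, (∀ y, δ y a = y) ∨ (∀ y, δ y a = f y) ∨ (∀ y, δ y a = f.symm y) ∨
      ∃ z, ∀ y, δ y a = z)
    (s : Y → α → A) (p q : Y × A) :
    SH 1 {w : List α | w.foldl (fun (x : Y × A) a => (δ x.1 a, x.2 + s x.1 a)) p = q} := by
  refine Eq.mp (congrArg (SH 1) ?_) (wreath_perm δ f h s p.1 q.1 (q.2 - p.2))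
  have key : ∀ (w : List α) (p : Y × A),
      w.foldl (fun (x : Y × A) a => (δ x.1 a, x.2 + s x.1 a)) p =
        (w.foldl δ p.1, p.2 + rsum δ s p.1 w) := by
    intro w
    induction w with
    | nil => intro p; rw [rsum, add_zero]; rfl
    | cons a w ih =>
      intro p
      rw [List.foldl_cons, List.foldl_cons, rsum, ← add_assoc]
      exact ih _
  ext w
  simp only [Set.mem_setOf_eq]
  rw [key]
  constructor
  · rintro ⟨h1, h2⟩
    rw [h1, h2]
    exact Prod.ext rfl (add_sub_cancel _ _)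
  · intro h1
    rw [← h1]
    exact ⟨rfl, (add_sub_cancel_left _ _).symm⟩

end Vale.Agent.P329.H81
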