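import Vale.Agent.P329.H81.Last
import Vale.Agent.P329.H81.WAct
import Vale.Agent.P329.H81.GAct

/-!
P329: monoids over automata of height one and groups, and wreath products in one form.
-/

set_option linter.all false

namespace Vale.Agent.P329.H81

open Vale.Agent.P329 Vale.Agent.P329.S4 Vale.Agent.P329.H112 Vale.Agent.P329.H157
  Vale.Agent.P329.H647 Vale.Agent.P329.H96 Vale.Agent.P329.H550

/-- Families of automata of height one, and groups. -/
theorem over_reach {α ι κ : Type} [Finite α] [Finite ι] [Finite κ] (X : ι → Type)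
    [∀ i, Finite (X i)] (δ : ∀ i, X i → α → X i) (hδ : ∀ i, ReachLe 1 (δ i))
    (H : κ → Type) [∀ k, Group (H k)] [∀ k, Finite (H k)] (F : α → ∀ k, H k)
    (hH : ∀ k, DividesProduct (H k) ∨ ∃ (A : Subgroup (H k)) (g : H k), A.Normal ∧
      (∀ a ∈ A, ∀ b ∈ A, a * b = b * a) ∧ ∀ x, F x k ∈ A ∨ g⁻¹ * F x k ∈ A ∨ g * F x k ∈ A)
    (M : Type) [Monoid M] [Finite M] (φ : α → M)
    (hφ : ∀ v : List α, v ≠ [] → (v.map F).prod = 1 →
      (∀ i x, v.foldl (δ i) (v.foldl (δ i) x) = v.foldl (δ i) x) →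
        ∃ k, (v.map φ).prod ^ (k + 1) = (v.map φ).prod ^ k) : MapLe 1 φ := by
  classical
  let D : (Σ i, X i) → α → (Σ i, X i) := fun x a => ⟨x.1, δ x.1 x.2 a⟩
  have hD : ∀ (w : List α) (i : ι) (x : X i), w.foldl D ⟨i, x⟩ = ⟨i, w.foldl (δ i) x⟩ := by
    intro w
    induction w with
    | nil => intro i x; rfl
    | cons a w ih => intro i x; rw [List.foldl_cons, List.foldl_cons]; exact ih i _
  have s1 : MapLe 1 (H550.tr D) := by
    refine mapLe_tr D fun p q => ?_
    obtain ⟨i, x⟩ := p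
    obtain ⟨j, y⟩ := q
    by_cases hij : i = j
    · subst hij
      refine Eq.mp (congrArg (SH 1) ?_) (hδ i x y)
      ext w
      simp only [Set.mem_setOf_eq]
      rw [hD]
      constructor
      · intro h; rw [h]
      · intro h
        simpa using h
    · refine Eq.mp (congrArg (SH 1) ?_) SH.empty
      ext w
      simp only [Set.mem_empty_iff_false, Set.mem_setOf_eq, false_iff]
      rw [hD]
      intro h
      exact hij (congrArg Sigma.fst h)
  have s2 : MapLe 1 F := MapLe.pi F hH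
  refine H162.Str.straubing _ (mapLe_prod s1 s2) φ fun v hv hid => ?_
  rw [prod_pair] at hid
  have h1 := congrArg Prod.fst hid
  have h2 := congrArg Prod.snd hid
  simp only [Prod.fst_mul, Prod.snd_mul] at h1 h2
  refine hφ v hv (mul_eq_left.1 h2) fun i x => ?_
  have h3 := congrArg (fun m : Tr (Σ i, X i) => m.f ⟨i, x⟩) h1
  simp only [Tr.mul_f, H550.tr_prod] at h3
  rw [hD, hD] at h3
  simpa using h3

/-- **Automata with an abelian group of symmetries.** -/
theorem sym_all {α X A : Type} [Finite α] [Finite X] [AddCommGroup A] [Finite A] [AddAction A X]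
    (δ : X → α → X) (hδ : ∀ (g : A) (x : X) (a : α), δ (g +ᵥ x) a = g +ᵥ δ x a)
    (f : X → X) (hf : ∀ (g : A) (x : X), f (g +ᵥ x) = g +ᵥ f x)
    (h : ∀ a, (∀ x, ∃ g : A, δ x a = g +ᵥ x) ∨ (∀ x, ∃ g : A, δ x a = g +ᵥ f x) ∨
      (∃ y : X, ∀ x, ∃ g : A, δ x a = g +ᵥ y) ∨
      (Function.Injective f ∧ ∀ x, ∃ g : A, f (δ x a) = g +ᵥ x))
    (p q : X) : SH 1 {w : List α | w.foldl δ p = q} := by
  by_cases hinj : Function.Injective f
  · refine sym_perm (A := A) δ hδ (Equiv.ofBijective f (Finite.injective_iff_bijective.1 hinj))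
      (fun g x => hf g x) (fun a => ?_) p q
    rcases h a with h1 | h1 | h1 | ⟨-, h1⟩
    · exact Or.inl h1
    · exact Or.inr (Or.inl h1)
    · exact Or.inr (Or.inr (Or.inr h1))
    · refine Or.inr (Or.inr (Or.inl fun x => ?_))
      obtain ⟨g, hg⟩ := h1 x
      refine ⟨g, hinj ?_⟩
      rw [hg, hf]
      congr 1
      exact ((Equiv.ofBijective f (Finite.injective_iff_bijective.1 hinj)).apply_symm_apply x).symm
  · refine sym_map (A := A) δ hδ f hf (fun a => ?_) p q
    rcases h a with h1 | h1 | h1 | ⟨h1, -⟩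
    · exact Or.inl h1
    · exact Or.inr (Or.inl h1)
    · exact Or.inr (Or.inr h1)
    · exact absurd h1 hinj

/-- **Wreath products.** -/
theorem wreath_all {α Y A : Type} [Finite α] [Finite Y] [AddCommGroup A] [Finite A]
    (δ : Y → α → Y) (f : Y → Y)
    (h : ∀ a, (∀ y, δ y a = y) ∨ (∀ y, δ y a = f y) ∨ (∃ z, ∀ y, δ y a = z) ∨
      (Function.Injective f ∧ ∀ y, f (δ y a) = y))
    (s : Y → α → A) (p q : Y × A) :
    SH 1 {w : List α | w.foldl (fun (x : Y × A) a => (δ x.1 a, x.2 + s x.1 a)) p = q} := by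
  by_cases hinj : Function.Injective f
  · refine wreath_fold δ (Equiv.ofBijective f (Finite.injective_iff_bijective.1 hinj))
      (fun a => ?_) s p q
    rcases h a with h1 | h1 | h1 | ⟨-, h1⟩
    · exact Or.inl h1
    · exact Or.inr (Or.inl h1)
    · exact Or.inr (Or.inr (Or.inr h1))
    · refine Or.inr (Or.inr (Or.inl fun y => hinj ?_))
      rw [h1]
      exact ((Equiv.ofBijective f (Finite.injective_iff_bijective.1 hinj)).apply_symm_apply y).symm
  · refine wreath_map δ f (fun a => ?_) s p q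
    rcases h a with h1 | h1 | h1 | ⟨h1, -⟩
    · exact Or.inl h1
    · exact Or.inr (Or.inl h1)
    · exact Or.inr (Or.inr h1)
    · exact absurd h1 hinj

end Vale.Agent.P329.H81
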