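import Vale.Agent.P329.H81.Sym

/-!
P329: one map, the identity, and letters which transform their values by an abelian group.
-/

set_option linter.all false

namespace Vale.Agent.P329.H81

open Vale.Agent.P329 Vale.Agent.P329.S4 Vale.Agent.P329.H112 Vale.Agent.P329.H157
  Vale.Agent.P329.H647 Vale.Agent.P329.H96 Vale.Agent.P329.H550

section fam

theorem fam_fold {α R Y : Type} (D : R → Y → α → Y) (w : List α) : ∀ (c : R) (x : Y),
    w.foldl (fun (x : R × Y) a => (x.1, D x.1 x.2 a)) (c, x) = (c, w.foldl (D c) x) := by
  induction w with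
  | nil => intro c x; rfl
  | cons a w ih => intro c x; rw [List.foldl_cons, List.foldl_cons]; exact ih c _

/-- families of automata -/
theorem mapLe_fam {α R Y : Type} [Finite α] [Finite R] [Finite Y] (D : R → Y → α → Y)
    (h : ∀ c x y, SH 1 {w : List α | w.foldl (D c) x = y}) :
    MapLe 1 (H550.tr fun (x : R × Y) a => (x.1, D x.1 x.2 a)) := by
  refine mapLe_tr _ fun p q => ?_
  obtain ⟨c, x⟩ := p
  obtain ⟨d, y⟩ := q
  by_cases hcd : c = d
  · refine Eq.mp (congrArg (SH 1) ?_) (h c x y)
    ext w
    simp only [Set.mem_setOf_eq]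
    rw [fam_fold, Prod.mk.injEq]
    exact ⟨fun h2 => ⟨hcd, h2⟩, fun h2 => h2.2⟩
  · refine Eq.mp (congrArg (SH 1) ?_) SH.empty
    ext w
    simp only [Set.mem_empty_iff_false, Set.mem_setOf_eq, false_iff]
    rw [fam_fold, Prod.mk.injEq]
    exact fun h2 => hcd h2.1

end fam

section dq

variable {α Q A : Type} [DecidableEq α] [DecidableEq Q] [AddCommGroup A] (δ : Q → α → Option Q)
  (q0 : Q) (b : α) (s : Q → α → A)

/-- the weight of one step -/
def wg : Option Q → α → A
  | none, _ => 0
  | some q, x => match δ q x with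
    | none => s q x
    | some _ => 0

/-- the tracker with the sum of the weights -/
def dq (x : Option Q × A) (a : α) : Option Q × A := (trk δ q0 b x.1 a, x.2 + wg δ s x.1 a)

theorem dq_fold (w : List α) : ∀ x : Option Q × A,
    w.foldl (dq δ q0 b s) x = (w.foldl (trk δ q0 b) x.1, x.2 + blk δ q0 b s x.1 w) := by
  induction w with
  | nil => intro x; rw [blk, add_zero]; rfl
  | cons a w ih =>
    intro x
    obtain ⟨x, p⟩ := x
    rw [List.foldl_cons, List.foldl_cons, ih]
    unfold dq
    cases x with
    | none =>
      change (_, p + 0 + _) = (_, _)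
      rw [add_zero, blk, trk]
    | some q =>
      cases h : δ q a with
      | none =>
        have e1 : wg δ s (some q) a = s q a := by rw [wg, h]
        have e2 : trk δ q0 b (some q) a = if a = b then some q0 else none := by rw [trk, h]
        have e3 : blk δ q0 b s (some q) (a :: w) =
          s q a + blk δ q0 b s (if a = b then some q0 else none) w := by rw [blk, h]
        rw [e1, e2, e3, add_assoc]
      | some q' =>
        have e1 : wg δ s (some q) a = 0 := by rw [wg, h]
        have e2 : trk δ q0 b (some q) a = some q' := by rw [trk, h]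
        have e3 : blk δ q0 b s (some q) (a :: w) = blk δ q0 b s (some q') w := by rw [blk, h]
        rw [e1, e2, e3, add_zero]

theorem dq_sh [Finite α] [Finite Q] [Finite A] (hb : ∀ q, δ q b = none)
    (hc : NoCyc (ein δ q0)) (x y : Option Q × A) :
    SH 1 {w : List α | w.foldl (dq δ q0 b s) x = y} := by
  have h1 := (trk_kn (b := b) hb hc x.1).comp₂ (blk_kn hb hc s x.1) fun u v => (u, x.2 + v)
  refine Eq.mp (congrArg (SH 1) ?_) (h1 y)
  ext w
  simp only [Set.mem_setOf_eq]
  rw [dq_fold]

end dq

/-- a sequence of partial iterates -/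
theorem stab {X : Type} (V : Option X → Option X) (hV : V none = none) (n : ℕ)
    (h : ∀ (z : Option X) (y : X), V^[n + 1] z = some y → V^[n] z = some y) (z : Option X) :
    V^[n + 2] z = V^[n + 1] z := by
  cases h1 : V^[n + 1] z with
  | none => rw [Function.iterate_succ_apply', h1, hV]
  | some y =>
    have h2 := h z y h1
    have h3 := Function.iterate_succ_apply' V n z
    rw [h1, h2] at h3
    replace h3 : V (some y) = some y := h3.symm
    rw [Function.iterate_succ_apply', h1, h3]

section main

variable {α X A : Type} [Finite α] [Finite X] [AddCommGroup A] [Finite A]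

/-- powers of one map, and letters with values transformed by an abelian group -/
theorem sym_mapLe (κ : α → Option ℕ) (P : X → α → Option X) (f : X → X) (e : α → A → X)
    (t0 m : ℕ) (hm : 0 < m) (hper : ∀ i, t0 ≤ i → f^[i + m] = f^[i])
    (hcl : (∀ a k, κ a = some k → k ≤ 1) ∨ m.Prime)
    (h1 : ∀ a k, κ a = some k → ∀ x y, P x a = some y → y = f^[k] x)
    (hr : ∀ a, κ a = none → ∀ x y, P x a = some y → ∃ j, y = e a j)
    (h2 : ∀ b, κ b = none → ∀ c, κ c = none → ∀ i : ℕ,
      (∃ s, ∀ j y, P (f^[i] (e b j)) c = some y → y = e c (j + s)) ∨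
      (∀ j j' y y', P (f^[i] (e b j)) c = some y →
        P (f^[i] (e b j')) c = some y' → y = y'))
    (c0 : α) (hc0 : κ c0 = none) : MapLe 1 (H550.tr (bd P)) := by
  classical
  have := Fintype.ofFinite α
  have : NeZero m := ⟨hm.ne'⟩
  obtain ⟨t, ht⟩ : ∃ t, t = t0 := ⟨_, rfl⟩
  have hmul : ∀ k i, t0 ≤ i → f^[i + m * k] = f^[i] := by
    intro k
    induction k with
    | zero => intro i _; rfl
    | succ k ih =>
      intro i hi
      have e1 : i + m * (k + 1) = (i + m * k) + m := by ring
      rw [e1, hper _ (by omega), ih i hi]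
  have hcong : ∀ i j, t0 ≤ i → t0 ≤ j → (i : ZMod m) = (j : ZMod m) → f^[i] = f^[j] := by
    have h1 : ∀ i j, i ≤ j → t0 ≤ i → (i : ZMod m) = (j : ZMod m) → f^[i] = f^[j] := by
      intro i j hij hi h
      rw [ZMod.natCast_eq_natCast_iff] at h
      obtain ⟨k, hk⟩ := (Nat.modEq_iff_dvd' hij).1 h
      have e1 : j = i + m * k := by omega
      rw [e1, hmul k i hi]
    intro i j hi hj h
    rcases Nat.le_total i j with h2 | h2
    · exact h1 i j h2 hi h
    · exact (h1 j i h2 hj h.symm).symm
  -- weights
  let S : (X → X) → α → α → A := fun F b c =>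
    if h : ∃ s, ∀ j y, P (F (e b j)) c = some y → y = e c (j + s) then h.choose else 0
  let s : α → ℕ → α → A := fun b i c => S (f^[i]) b c
  have hs0 : ∀ i j, t ≤ i → t ≤ j → (i : ZMod m) = (j : ZMod m) → ∀ b c, s b i c = s b j c := by
    intro i j hi hj h b c
    change S (f^[i]) b c = S (f^[j]) b c
    rw [hcong i j (by omega) (by omega) h]
  have h2' : ∀ b, κ b = none → ∀ c, κ c = none → ∀ i : ℕ,
      (∀ j y, P (f^[i] (e b j)) c = some y → y = e c (j + s b i c)) ∨
      (∀ j j' y y', P (f^[i] (e b j)) c = some y →
        P (f^[i] (e b j')) c = some y' → y = y') := by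
    intro b hb c hc i
    rcases h2 b hb c hc i with h | h
    · left
      have h3 : s b i c = h.choose := dif_pos h
      rw [h3]
      exact h.choose_spec
    · exact Or.inr h
  let s1 : α → ZMod m → α → A := fun b r c => s b (r.val + m * t) c
  let s2 : α → Fin (t + 1) → α → A := fun b i c =>
    if i.val < t then s b i.val c - s1 b (i.val : ZMod m) c else 0
  have hs : ∀ b i c, s b i c = s1 b (i : ZMod m) c + s2 b ⟨min i t, by omega⟩ c := by
    intro b i c
    by_cases h : i < t
    · change s b i c = s1 b (i : ZMod m) c +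
        (if min i t < t then s b (min i t) c - s1 b ((min i t : ℕ) : ZMod m) c else 0)
      rw [min_eq_left h.le, if_pos h]
      abel
    · change s b i c = s1 b (i : ZMod m) c +
        (if min i t < t then s b (min i t) c - s1 b ((min i t : ℕ) : ZMod m) c else 0)
      rw [min_eq_right (by omega), if_neg (lt_irrefl t), add_zero]
      change s b i c = s b ((i : ZMod m).val + m * t) c
      have ht' : t ≤ m * t := Nat.le_mul_of_pos_left t hm
      exact hs0 i ((i : ZMod m).val + m * t) (by omega) (by omega) (by
        rw [Nat.cast_add, Nat.cast_mul, ZMod.natCast_self, zero_mul, add_zero,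
          ZMod.natCast_zmod_val]) b c
  -- the known automata
  let D1 : {c : α // κ c = none} → Option (ZMod m) × A → α → Option (ZMod m) × A :=
    fun c => dq (dm κ m) 0 c.1 (s1 c.1)
  let D2 : {c : α // κ c = none} → Option (Fin (t + 1)) × A → α →
      Option (Fin (t + 1)) × A := fun c => dq (dt κ t) 0 c.1 (s2 c.1)
  have m1 := mapLe_fam D1 fun c x y => dq_sh (dm κ m) 0 c.1 (s1 c.1)
    (fun q => by unfold dm; rw [c.2]) (dm_clean κ m hm hcl) x y
  have m2 := mapLe_fam D2 fun c x y => dq_sh (dt κ t) 0 c.1 (s2 c.1)
    (fun q => by unfold dt; rw [c.2]) (dt_clean κ t) x y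
  refine H162.Str.straubing _ (mapLe_prod m1 m2) _ fun v hv hid => ?_
  rw [prod_pair] at hid
  have i1 := congrArg Prod.fst hid
  have i2 := congrArg Prod.snd hid
  simp only [Prod.fst_mul, Prod.snd_mul] at i1 i2
  have j1 : ∀ (c : {c : α // κ c = none}) (x : Option (ZMod m) × A),
      v.foldl (D1 c) (v.foldl (D1 c) x) = v.foldl (D1 c) x := by
    intro c x
    have h3 := congrArg (fun g : Tr ({c : α // κ c = none} × (Option (ZMod m) × A)) =>
      g.f (c, x)) i1
    simp only [Tr.mul_f, H550.tr_prod] at h3
    rw [fam_fold, fam_fold] at h3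
    exact congrArg Prod.snd h3
  have j2 : ∀ (c : {c : α // κ c = none}) (x : Option (Fin (t + 1)) × A),
      v.foldl (D2 c) (v.foldl (D2 c) x) = v.foldl (D2 c) x := by
    intro c x
    have h3 := congrArg (fun g : Tr ({c : α // κ c = none} ×
      (Option (Fin (t + 1)) × A)) => g.f (c, x)) i2
    simp only [Tr.mul_f, H550.tr_prod] at h3
    rw [fam_fold, fam_fold] at h3
    exact congrArg Prod.snd h3
  have hpf : ∀ (k : ℕ) (z : Option X), ((v.map (H550.tr (bd P))).prod ^ k).f z =
      (fun z => v.foldl (bd P) z)^[k] z := by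
    intro k z
    rw [Tr.pow_f]
    congr 2
    funext z
    exact H550.tr_prod _ v z
  have hV : (fun z => v.foldl (bd P) z) none = none := bd_none P v
  by_cases hres : ∃ c ∈ v, κ c = none
  · -- a reset letter
    obtain ⟨b, i, hb, g1, g2⟩ := sym_end κ P f e h1 hr v hres
    have t1 : ∀ c : {c : α // κ c = none},
        blk (dm κ m) 0 c.1 (s1 c.1) (sm m c.1 (b, i)) v = 0 := by
      intro c
      have h3 := j1 c (sm m c.1 (b, i), 0)
      change v.foldl (dq (dm κ m) 0 c.1 (s1 c.1)) (v.foldl (dq (dm κ m) 0 c.1 (s1 c.1)) _) =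
        v.foldl (dq (dm κ m) 0 c.1 (s1 c.1)) _ at h3
      rw [dq_fold, dq_fold] at h3
      simp only [] at h3
      rw [sm_fold κ m c.1 c.2, g1, sm_fold κ m c.1 c.2, g1, Prod.mk.injEq] at h3
      exact add_eq_left.1 h3.2
    have t2 : ∀ c : {c : α // κ c = none},
        blk (dt κ t) 0 c.1 (s2 c.1) (st t c.1 (b, i)) v = 0 := by
      intro c
      have h3 := j2 c (st t c.1 (b, i), 0)
      change v.foldl (dq (dt κ t) 0 c.1 (s2 c.1)) (v.foldl (dq (dt κ t) 0 c.1 (s2 c.1)) _) =
        v.foldl (dq (dt κ t) 0 c.1 (s2 c.1)) _ at h3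
      rw [dq_fold, dq_fold] at h3
      simp only [] at h3
      rw [st_fold κ t c.1 c.2, g1, st_fold κ t c.1 c.2, g1, Prod.mk.injEq] at h3
      exact add_eq_left.1 h3.2
    have t3 : tw κ s (b, i) v = 0 := by
      rw [tw_sum κ m t s s1 s2 hs v (b, i) hb]
      exact Finset.sum_eq_zero fun c _ => by rw [t1, t2, add_zero]
    refine ⟨3, Tr.ext' fun z => ?_⟩
    rw [hpf, hpf]
    refine stab _ hV 2 (fun z y h3 => ?_) z
    have h4 := sym_run κ P f e h1 s h2' v (b, i) hb
    rw [g1, t3] at h4
    simp only [add_zero] at h4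
    -- the states after one, two and three words
    rw [Function.iterate_succ_apply'] at h3
    cases z2 : (fun z => v.foldl (bd P) z)^[2] z with
    | none => rw [z2, bd_none] at h3; cases h3
    | some y2 =>
      rw [z2] at h3
      rw [Function.iterate_succ_apply'] at z2
      cases z1 : (fun z => v.foldl (bd P) z)^[1] z with
      | none => rw [z1, bd_none] at z2; cases z2
      | some y1 =>
        rw [z1] at z2
        rw [Function.iterate_one] at z1
        cases z with
        | none =>
          change v.foldl (bd P) none = some y1 at z1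
          rw [bd_none] at z1
          cases z1
        | some z =>
          obtain ⟨j1', e1⟩ := g2 z y1 z1
          obtain ⟨j2', e2⟩ := g2 y1 y2 z2
          rcases h4 with h4 | h4
          · rw [e1] at z2
            rw [e2] at h3
            have h5 := h4 j1' j2' y2 y z2 h3
            rw [h5]
          · rw [e2] at h3
            have h5 := h4 j2' y h3
            rw [h5, e2]
  · -- no reset letter
    push Not at hres
    obtain ⟨k, g1, g2⟩ := sym_no κ P f h1 v hres
    have h3 : (k : ZMod m) = 0 := by
      have h4 := j1 ⟨c0, hc0⟩ (sm m c0 (c0, 0), 0)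
      change v.foldl (dq (dm κ m) 0 c0 (s1 c0)) (v.foldl (dq (dm κ m) 0 c0 (s1 c0)) _) =
        v.foldl (dq (dm κ m) 0 c0 (s1 c0)) _ at h4
      rw [dq_fold, dq_fold] at h4
      simp only [] at h4
      rw [sm_fold κ m c0 hc0, g1, sm_fold κ m c0 hc0, g1, Prod.mk.injEq] at h4
      have h5 := h4.1
      simp only [sm, if_true, Option.some.injEq, Nat.zero_add, Nat.cast_add] at h5
      exact add_eq_left.1 h5
    have h4 : ∀ (n : ℕ) (z y : X), (fun z => v.foldl (bd P) z)^[n] (some z) = some y →
        y = f^[k * n] z := by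
      intro n
      induction n with
      | zero => intro z y h; exact (Option.some.inj h).symm
      | succ n ih =>
        intro z y h
        rw [Function.iterate_succ_apply'] at h
        cases h5 : (fun z => v.foldl (bd P) z)^[n] (some z) with
        | none => rw [h5, bd_none] at h; cases h
        | some y1 =>
          rw [h5] at h
          rw [g2 y1 y h, ih z y1 h5, ← Function.iterate_add_apply,
            show k * (n + 1) = k + k * n by ring]
    refine ⟨t + 1, Tr.ext' fun z => ?_⟩
    rw [hpf, hpf]
    refine stab _ hV t (fun z y h5 => ?_) z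
    cases z with
    | none =>
      have h6 : ∀ n, (fun z => v.foldl (bd P) z)^[n] none = none := by
        intro n
        induction n with
        | zero => rfl
        | succ n ih => rw [Function.iterate_succ_apply', ih, bd_none]
      rw [h6] at h5
      cases h5
    | some z =>
      have h6 := h4 _ z y h5
      rw [Function.iterate_succ_apply'] at h5
      cases h7 : (fun z => v.foldl (bd P) z)^[t] (some z) with
      | none => rw [h7, bd_none] at h5; cases h5
      | some y1 =>
        rw [h4 _ z y1 h7, h6]
        congr 1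
        rcases Nat.eq_zero_or_pos k with hk | hk
        · rw [hk, Nat.zero_mul, Nat.zero_mul]
        · have h8 : t ≤ k * t := Nat.le_mul_of_pos_left t hk
          have h9 : k * (t + 1) = k * t + k := by ring
          rw [hcong (k * (t + 1)) (k * t) (by omega) (by omega) (by
            rw [h9, Nat.cast_add, h3, add_zero])]

end main

end Vale.Agent.P329.H81
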