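import Vale.Agent.P329.H81.Comp
import Mathlib.GroupTheory.SpecificGroups.Dihedral

/-!
P329: five states: two permutations with one cycle, or two affine permutations.
-/

set_option linter.all false

namespace Vale.Agent.P329.H81

open Vale.Agent.P329 Vale.Agent.P329.S4 Vale.Agent.P329.H112 Vale.Agent.P329.H157
  Vale.Agent.P329.H647 Vale.Agent.P329.H96 Vale.Agent.P329.H550

/-- the automaton of two codes as an automaton of two maps -/
theorem au_am (B : ℕ) [NeZero B] (a b : ℕ) : au B a b = am (ev B a) (ev B b) := by
  funext x l
  match l with
  | none => rfl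
  | some true => rfl
  | some false => rfl

/-- `S` is a proper nonempty set of points, closed under the two maps -/
def cl5 (S a b : ℕ) : Bool :=
  ((List.range 5).any fun s => S.testBit s) && (((List.range 5).any fun s => !S.testBit s) &&
  (List.range 5).all fun s => !S.testBit s || (S.testBit (dg 5 a s) && S.testBit (dg 5 b s)))

theorem cl5_gd (S a b : ℕ) (h : cl5 S a b = true) : Gd 5 a b := by
  unfold cl5 at h
  simp only [Bool.and_eq_true, List.any_eq_true, List.mem_range, List.all_eq_true] at h
  obtain ⟨⟨x, hx, hx1⟩, ⟨y, hy, hy1⟩, h3⟩ := h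
  have hcl : ∀ (w : List (Option Bool)) (x : Fin 5), S.testBit x.val = true →
      S.testBit (w.foldl (au 5 a b) x).val = true := by
    intro w
    induction w with
    | nil => intro x hx; exact hx
    | cons l w ih =>
      intro x hx
      rw [List.foldl_cons]
      apply ih
      have h4 := h3 x.val x.isLt
      rw [hx] at h4
      simp only [Bool.not_true, Bool.false_or, Bool.and_eq_true] at h4
      match l with
      | none => exact hx
      | some true => exact h4.1
      | some false => exact h4.2
  have hC : ∀ p, (Cmp (au 5 a b) p).ncard ≤ 4 := by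
    intro p
    by_contra h2
    have h3 : (Cmp (au 5 a b) p).ncard = 5 := by
      have h4 := Set.ncard_le_card (Cmp (au 5 a b) p)
      rw [Nat.card_eq_fintype_card, Fintype.card_fin] at h4
      omega
    have h5 : Cmp (au 5 a b) p = Set.univ := by
      refine Set.eq_of_subset_of_ncard_le (Set.subset_univ _) ?_ (Set.toFinite _)
      rw [Set.ncard_univ, Nat.card_eq_fintype_card, Fintype.card_fin, h3]
    have h6 : (⟨x, hx⟩ : Fin 5) ∈ Cmp (au 5 a b) p := by rw [h5]; trivial
    have h7 : (⟨y, hy⟩ : Fin 5) ∈ Cmp (au 5 a b) p := by rw [h5]; trivial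
    obtain ⟨w, hw⟩ := Rch.trans (δ := au 5 a b) h6.2 h7.1
    have h8 := hcl w ⟨x, hx⟩ hx1
    rw [hw] at h8
    change S.testBit y = true at h8
    rw [h8] at hy1
    exact absurd hy1 (by simp)
  intro p q
  refine scc_sh (au 5 a b) (fun p z hz => ?_) _ p q le_rfl
  refine comp_two_four (au 5 a b) p z hz (hC p) (ev 5 a) (ev 5 b) (fun l => ?_)
  match l with
  | none => exact Or.inr (Or.inr (Or.inl fun x _ _ => rfl))
  | some true => exact Or.inl fun x _ _ => rfl
  | some false => exact Or.inr (Or.inl fun x _ _ => rfl)

/-- conjugation, five points -/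
def cj5 (p q c : ℕ) : ℕ := ml 5 (ml 5 q c 5) p 5

/-- `q` is a left inverse of `p` -/
def lin5 (p q : ℕ) : Bool := (List.range 5).all fun s => dg 5 q (dg 5 p s) == s

theorem lin5_ev {p q : ℕ} (h : lin5 p q = true) (x : Fin 5) : ev 5 q (ev 5 p x) = x :=
  Fin.ext (beq_iff_eq.1 (List.all_eq_true.1 h x.val (List.mem_range.2 x.isLt)))

theorem cj5_gd (p q a b : ℕ) (h : lin5 p q = true) (h1 : Gd 5 (cj5 p q a) (cj5 p q b)) :
    Gd 5 a b := by
  refine gd_iso 5 a b _ _ (ev 5 p) (ev 5 q) (lin5_ev h) (fun x => ?_) (fun x => ?_) h1
  · unfold cj5
    rw [ev_ml, ev_ml, lin5_ev h]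
  · unfold cj5
    rw [ev_ml, ev_ml, lin5_ev h]

/-! ### Two elements of the affine group -/

/-- the values of two automata with ten states -/
def vd (c1 c2 s1 s2 : ℕ) : ℕ :=
  if s1 / 5 = 0 then (c1 * (s1 % 5) + c2 * (s2 % 5)) % 5
  else (5 - (c1 * (s1 % 5) + c2 * (s2 % 5)) % 5) % 5

/-- the states of the two automata give the state of the given one -/
def rl (c1 c2 s1 s2 x : ℕ) : Bool := s1 / 5 == s2 / 5 && vd c1 c2 s1 s2 == x

theorem ten_gd (a b a1 b1 a2 b2 c1 c2 : ℕ) (h1 : Gd 10 a1 b1) (h2 : Gd 10 a2 b2)
    (hi : ∀ x : Fin 5, ∃ s1 s2 : Fin 10, rl c1 c2 s1.val s2.val x.val = true)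
    (hs : ∀ l : Option Bool, ∀ s1 s2 : Fin 10, ∀ x : Fin 5,
      rl c1 c2 s1.val s2.val x.val = true →
      rl c1 c2 (au 10 a1 b1 s1 l).val (au 10 a2 b2 s2 l).val (au 5 a b x l).val = true) :
    Gd 5 a b := by
  intro p q
  obtain ⟨x1, x2, hx⟩ := hi p
  have key : ∀ (w : List (Option Bool)) (s1 s2 : Fin 10) (x : Fin 5),
      rl c1 c2 s1.val s2.val x.val = true → rl c1 c2 (w.foldl (au 10 a1 b1) s1).val
        (w.foldl (au 10 a2 b2) s2).val (w.foldl (au 5 a b) x).val = true := by
    intro w
    induction w with
    | nil => intro s1 s2 x h; exact h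
    | cons l w ih =>
      intro s1 s2 x h
      rw [List.foldl_cons, List.foldl_cons, List.foldl_cons]
      exact ih _ _ _ (hs l s1 s2 x h)
  have hU : SH 1 (⋃ z1 : Fin 10, ⋃ z2 : Fin 10, ⋃ _ : rl c1 c2 z1.val z2.val q.val = true,
        {w : List (Option Bool) | w.foldl (au 10 a1 b1) x1 = z1} ∩
          {w : List (Option Bool) | w.foldl (au 10 a2 b2) x2 = z2}) :=
    SH.iUnion fun z1 => SH.iUnion fun z2 => SH.iUnion_prop fun _ => (h1 _ _).inter (h2 _ _)
  refine Eq.mp (congrArg (SH 1) ?_) hU
  ext w
  simp only [Set.mem_iUnion, exists_prop, Set.mem_inter_iff, Set.mem_setOf_eq]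
  have hk := key w x1 x2 p hx
  constructor
  · rintro ⟨z1, z2, h, e1, e2⟩
    rw [e1, e2] at hk
    unfold rl at hk h
    rw [Bool.and_eq_true, beq_iff_eq, beq_iff_eq] at hk h
    exact Fin.ext (hk.2.symm.trans h.2)
  · intro h
    rw [h] at hk
    exact ⟨_, _, hk, rfl, rfl⟩

set_option maxRecDepth 100000 in
theorem ten_two_1 : Gd 10 4321059876 2413042031 :=
  clo_gd 10 4321059876 2413042031 4321059870 2413042030 0 (by decide +kernel) (by decide +kernel)
    [4321059870, 2413042030, 5987004320, 4203002410, 8579058090, 432040020, 432005980, 241004200,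
    5809008570, 4002000430, 3024003040, 4012004020, 598050080, 420040000, 598000430, 420000240,
    857005800, 43004000, 304003020, 402004010, 5008000590, 4000000420, 9085009050, 2004002040,
    5078005080, 4030004000, 43000030, 24000040, 580050000, 400040000, 43000590, 24000420,
    580000850, 400000040, 302000300, 401000400, 59005000, 42004000, 905009080, 204002000,
    508005070, 400004030, 3000040, 4000020, 5000000580, 4000000400, 2040002000, 8005008050,
    4000040, 23000030, 14000040, 5090005000, 4020004000, 59000090, 42000020, 85000050, 30000000,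
    40000000, 500050000, 59000040, 85000580, 4000400, 30000300, 40000400, 500000050, 908000900,
    200000200, 507000500, 403000400, 4000000, 2000000, 58005000, 40004000, 200002040, 805008000,
    3000020, 4000010, 500005090, 400004020, 9000050, 2000040, 5000080, 30, 40, 5000000500,
    8050008000, 3000003000, 4000004000, 5000050, 89000090, 2000020, 75000050, 34000040, 20000000,
    5080005000, 58000080, 90000000, 50000000, 0, 4000050, 30000030, 40000040, 5000500, 90000900,
    20000200, 50000500, 204000200, 800000800, 1000000, 509000500, 402000400, 5000000, 8000000,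
    3000000, 50005000, 800008050, 300003000, 400004000, 9000080, 5000070, 4000030, 20, 500005080,
    8000050, 90, 50, 9000009000, 2000002000, 5000005000, 8000080, 10000000, 95000050, 80000000,
    3000030, 90000090, 20000020, 50000050, 80000800, 805000800, 300000300, 400000400, 7000000,
    508000500, 9000000, 900009000, 200002000, 500005000, 10, 5000090, 80, 8000008000, 70000000,
    9000090, 80000080, 900000900, 500000500, 800008000, 70] (by decide +kernel)

set_option maxRecDepth 100000 in
theorem ten_two_2 : Gd 10 4321065987 3024114203 :=
  clo_gd 10 4321065987 3024114203 4321065980 3024114200 0 (by decide +kernel) (by decide +kernel)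
    [4321065980, 3024114200, 6598010430, 1420041300, 5096886900, 4021001200, 1043080650,
    4130000140, 8690068500, 120010400, 41331400, 1034004300, 6098008900, 1020000200, 8065030100,
    14000410, 6850000860, 1040000010, 3140013000, 430040100, 890080600, 20000100, 68558600,
    10440100, 8056006500, 41001400, 1043003400, 4030000300, 8090000900, 20000200, 3010050800,
    41040000, 86000680, 1000100, 1300000310, 4010000040, 8060000080, 10000000, 5860085000,
    4010004000, 650060800, 140010000, 340030100, 30000400, 90000800, 20000000, 13003100,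
    40110400, 80660800, 110000, 3001001000, 14004100, 68008600, 10000100, 8065005600, 6050000500,
    1040000400, 3040000400, 30000300, 90000900, 5080000300, 4000010000, 68060000, 10010000,
    31000130, 4000400, 8000800, 0, 8500000580, 400000400, 6080000060, 1000000010, 3010000030,
    40000000, 80000000, 310030000, 1040001000, 6080006000, 1000001000, 100010300, 410040000,
    860080000, 560050800, 50000600, 40000100, 40000300, 30000000, 90000000, 85005800, 4004000,
    60880600, 30110300, 440000, 880000, 5008008000, 4000000000, 86006800, 1001000, 40000400,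
    80000800, 3010000100, 1000000000, 4010000100, 8060000600, 5060000600, 50000500, 30000500,
    1000000400, 6000080000, 13010000, 40040000, 80080000, 58000850, 40000040, 6000600, 3000300,
    3000000030, 100000100, 600000600, 1030000010, 4000000040, 8000000080, 5080000050, 60000000,
    580050000, 400040000, 8060008000, 1030001000, 4000004000, 8000008000, 800080500, 400,
    680060000, 100010000, 10000300, 100, 10000400, 60000800, 60000500, 50000000, 6006000,
    10330100, 50880500, 660000, 330000, 3003000, 6000000000, 31001300, 8008000, 60000600,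
    5080000800, 8000000000, 6080000800, 8000000600, 1000030000, 85080000, 4000000, 60060000,
    30030000, 10000010, 60000060, 5000500, 5000000050, 800000800, 8050000080, 6000000060,
    600060000, 3010003000, 8050008000, 6000006000, 3000003000, 300030000, 600, 130010000,
    800080000, 80000500, 800, 80000600, 80550800, 550000, 5005000, 58008500, 3000000000,
    1030000300, 3000000100, 8000050000, 40000, 1000000, 6000000, 50050000, 80000080, 300000300,
    5080005000, 5000005000, 500050000, 850080000, 300, 30000100, 5000000000, 8050000500,
    5000000800, 10000, 60000, 8000000, 30000030, 500000500, 500, 50000800, 80000, 3000000,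
    50000050, 30000, 5000000, 50000] (by decide +kernel)

set_option maxRecDepth 100000 in
theorem aff_two : Gd 5 970 2766 :=
  ten_gd 970 2766 4321059876 2413042031 4321065987 3024114203 3 1 ten_two_1 ten_two_2 (by decide +kernel) (by decide +kernel)

set_option maxRecDepth 100000 in
theorem ten_three_1 : Gd 10 432159876 3142030241 :=
  clo_gd 10 432159876 3142030241 432159870 3142030240 0 (by decide +kernel) (by decide +kernel)
    [432159870, 3142030240, 598710430, 302403140, 9758090850, 432000230, 104370590, 31440300,
    908509750, 2300430, 314000410, 3401030100, 598000890, 302000200, 705930100, 403040030,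
    97550900, 4330000, 4100310, 301003400, 8900590, 2000300, 975000570, 43000340, 9507090700,
    304000400, 104000400, 31000130, 908000800, 2000200, 301090700, 400300400, 509050090,
    300030000, 3110000, 34000300, 5990000, 3000000, 5700970, 3400040, 907009500, 4000300,
    4000100, 1300030, 8000900, 2000000, 340000040, 59000950, 30000030, 103000300, 3004030400,
    905000500, 3000300, 705000500, 403000300, 97000790, 4000400, 301000100, 8000800, 907000300,
    4030400, 500900500, 300000300, 100010000, 3000030, 900090000, 0, 9770000, 440000, 95000900,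
    1000000, 330000, 9000000, 400340, 9500050, 300030, 3000100, 304003000, 5000900, 5000700,
    3000400, 7900090, 4000000, 1000300, 8000000, 950000050, 10000010, 90000090, 709000900,
    400000000, 9005090500, 1000100, 300000000, 9000900, 509000900, 34000430, 5000500, 907000700,
    3000900, 304000000, 5090500, 100000100, 300000, 900000900, 700070000, 400040000, 9000090,
    3440000, 550000, 30000300, 7000000, 990000, 500950, 100010, 900090, 9000700, 400, 905009000,
    300, 9000500, 4300030, 5000000, 7000900, 70000070, 40000040, 500000000, 3000030000, 7000700,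
    900000000, 100000000, 95000590, 905000000, 30000, 700000700, 400000400, 900000, 500050000,
    9550000, 110000, 90000900, 700070, 400040, 500, 300003000, 900, 100, 5900090, 50000050,
    9000090000, 700000000, 90000, 500000500, 770000, 500050, 900009000, 700] (by decide +kernel)

set_option maxRecDepth 100000 in
theorem ten_three_2 : Gd 10 432159876 4203141302 :=
  clo_gd 10 432159876 4203141302 432159870 4203141300 0 (by decide +kernel) (by decide +kernel)
    [432159870, 4203141300, 598710430, 413014200, 5809757900, 4301040100, 104370590, 142000410,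
    579075800, 401004300, 1400313000, 1204010400, 5907050700, 4100040000, 705930100, 4100140,
    758000570, 43000400, 130031400, 104001200, 507005900, 400004100, 7500979000, 400101000,
    7805070500, 304000400, 1003010300, 1400010000, 5700050000, 4000040000, 301090700, 1410000,
    5700750, 4000040, 314000130, 12000100, 59000500, 41000400, 790097500, 10010400, 705007800,
    4000300, 103001000, 100001400, 500005700, 400004000, 3100030000, 100404000, 500707000,
    400000000, 3401030100, 201000100, 905000500, 104000400, 7009070900, 1000100, 7500070000,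
    1300010000, 1000010000, 5000050000, 907000300, 100040000, 7570000, 400000, 1300310, 1000010,
    5000050, 975000790, 104000010, 78000700, 3000000, 10000100, 14000100, 57000500, 40000400,
    300003100, 40040100, 70070500, 400, 301003400, 1000200, 5000900, 4000100, 709007000, 1000000,
    700007500, 100001300, 100001000, 500005000, 9700090000, 700505000, 404000, 100303000,
    100000000, 500000000, 9507090700, 807000700, 300000000, 401000100, 705000500, 4000400,
    3000030000, 7000700, 0, 7900070000, 7000070000, 3000900, 400000100, 700050000, 40000,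
    3130000, 100000, 500000, 7900970, 100100, 7000070, 31000300, 401000040, 705000070, 4000000,
    34000300, 2000000, 9000000, 70000700, 75000700, 13000100, 50000500, 900009700, 50050700,
    40040000, 30030100, 100, 500, 907009500, 7000800, 300, 1000400, 5000700, 300003000, 7000000,
    700007900, 700007000, 300101000, 101000, 505000, 700909000, 700000000, 103000300, 403000300,
    200000000, 900000000, 507000700, 301000100, 5000500, 9000090000, 3000300, 500000700,
    300010000, 10000, 50000, 9790000, 1010000, 700000, 3000030, 400400, 700700, 97000900,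
    507000050, 400000040, 301000030, 5000000, 95000900, 8000000, 30000300, 79000700, 10010300,
    10010000, 50050000, 90090700, 700, 3000100, 3000400, 200, 900, 7000500, 1000300, 900009000,
    900707000, 707000, 709000900, 509000900, 800000000, 907000700, 9000900, 100000300, 900070000,
    70000, 300000, 4040000, 7070000, 9000090, 500500, 300300, 103000010, 100000010, 500000050,
    907000090, 90000900, 70070900, 70070000, 9000700, 9000500, 800, 7000900, 303000, 700000900,
    30000, 900000, 5050000, 3030000, 900900, 709000070, 700000070, 30030000, 909000, 90000,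
    9090000, 300000030, 90090000, 900000090] (by decide +kernel)

set_option maxRecDepth 100000 in
theorem aff_three : Gd 5 970 1946 :=
  ten_gd 970 1946 432159876 3142030241 432159876 4203141302 4 1 ten_three_1 ten_three_2 (by decide +kernel) (by decide +kernel)

/-- the rotations -/
def rot5 : Subgroup (DihedralGroup 5) where
  carrier := {x | ∃ i, x = DihedralGroup.r i}
  mul_mem' := by
    rintro _ _ ⟨i, rfl⟩ ⟨j, rfl⟩
    exact ⟨i + j, DihedralGroup.r_mul_r i j⟩
  one_mem' := ⟨0, rfl⟩
  inv_mem' := by
    rintro _ ⟨i, rfl⟩
    exact ⟨-i, rfl⟩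

/-- the action of the dihedral group -/
def dact : ZMod 5 → DihedralGroup 5 → ZMod 5
  | y, DihedralGroup.r i => y + i
  | y, DihedralGroup.sr i => -y + i

theorem dact_mul (y : ZMod 5) (g h : DihedralGroup 5) : dact y (g * h) = dact (dact y g) h := by
  match g, h with
  | DihedralGroup.r i, DihedralGroup.r j => rw [DihedralGroup.r_mul_r]; simp only [dact]; ring
  | DihedralGroup.r i, DihedralGroup.sr j => rw [DihedralGroup.r_mul_sr]; simp only [dact]; ring
  | DihedralGroup.sr i, DihedralGroup.r j => rw [DihedralGroup.sr_mul_r]; simp only [dact]; ring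
  | DihedralGroup.sr i, DihedralGroup.sr j =>
    rw [DihedralGroup.sr_mul_sr]; simp only [dact]; ring

theorem dih_gd (a b : ℕ) (F : Option Bool → DihedralGroup 5)
    (hF : ∀ l, (∃ i, F l = DihedralGroup.r i) ∨ ∃ i, F l = DihedralGroup.sr i)
    (h : ∀ (x : Fin 5) (l : Option Bool),
      ((au 5 a b x l).val : ZMod 5) = dact (x.val : ZMod 5) (F l)) : Gd 5 a b := by
  have h1 : MapLe 1 (fun (l : Option Bool) (_ : Unit) => F l) := by
    refine MapLe.pi (H := fun _ => DihedralGroup 5) _ fun _ => Or.inr
      ⟨rot5, DihedralGroup.sr 0, ⟨?_⟩, ?_, ?_⟩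
    · rintro _ ⟨i, rfl⟩ g
      match g with
      | DihedralGroup.r j => exact ⟨i, by
          change DihedralGroup.r (j + i + -j) = _
          congr 1
          ring⟩
      | DihedralGroup.sr j => exact ⟨-i, by
          change DihedralGroup.r (j - (j + i)) = _
          congr 1
          ring⟩
    · rintro _ ⟨i, rfl⟩ _ ⟨j, rfl⟩
      rw [DihedralGroup.r_mul_r, DihedralGroup.r_mul_r, add_comm]
    · intro l
      rcases hF l with ⟨i, hi⟩ | ⟨i, hi⟩
      · exact Or.inl ⟨i, hi⟩
      · refine Or.inr (Or.inl ⟨i - 0, ?_⟩)
        change (DihedralGroup.sr 0)⁻¹ * F l = _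
        rw [hi]
        rfl
  intro x y
  have h2 : ∀ (w : List (Option Bool)) (x : Fin 5),
      ((w.foldl (au 5 a b) x).val : ZMod 5) = dact (x.val : ZMod 5) (w.map F).prod := by
    intro w
    induction w with
    | nil =>
      intro x
      change _ = (x.val : ZMod 5) + 0
      rw [add_zero]
      rfl
    | cons l w ih =>
      intro x
      rw [List.foldl_cons, ih, h, List.map_cons, List.prod_cons, dact_mul]
  have h3 : ∀ w : List (Option Bool),
      ((w.map fun (l : Option Bool) (_ : Unit) => F l).prod) () = (w.map F).prod := by
    intro w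
    induction w with
    | nil => rfl
    | cons l w ih => rw [List.map_cons, List.prod_cons, Pi.mul_apply, ih]; rfl
  have h4 := h1 {f | dact (x.val : ZMod 5) (f ()) = (y.val : ZMod 5)}
  refine Eq.mp (congrArg (SH 1) ?_) h4
  ext w
  simp only [Set.mem_setOf_eq]
  rw [h3, ← h2]
  have h5 : ∀ u v : Fin 5, (u.val : ZMod 5) = (v.val : ZMod 5) → u = v := by decide
  exact ⟨fun h => h5 _ _ h, fun h => by rw [h]⟩

/-- the letters of the dihedral pairs -/
def dl5 (g h : DihedralGroup 5) : Option Bool → DihedralGroup 5
  | none => 1
  | some true => g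
  | some false => h

theorem aff_one : Gd 5 970 586 := by
  refine dih_gd _ _ (dl5 (DihedralGroup.sr 0) (DihedralGroup.r 1)) (fun l => ?_)
    (fun x l => ?_)
  · match l with
    | none => exact Or.inl ⟨0, rfl⟩
    | some true => exact Or.inr ⟨0, rfl⟩
    | some false => exact Or.inl ⟨1, rfl⟩
  · revert x l
    decide +kernel

theorem aff_four : Gd 5 970 1726 := by
  refine dih_gd _ _ (dl5 (DihedralGroup.sr 0) (DihedralGroup.sr 1)) (fun l => ?_)
    (fun x l => ?_)
  · match l with
    | none => exact Or.inl ⟨0, rfl⟩
    | some true => exact Or.inr ⟨0, rfl⟩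
    | some false => exact Or.inr ⟨1, rfl⟩
  · revert x l
    decide +kernel

end Vale.Agent.P329.H81
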