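import Vale.Agent.P329.H81.Lift

/-!
P329: the counting functions of walks in `ZMod n` with steps `0, 1, -1`, summed over blocks.  The
identities and the systems are those of `R3/H211`.
-/

set_option linter.all false

namespace Vale.Agent.P329.H81

open Vale.Agent.P329 Vale.Agent.P329.S4 Vale.Agent.P329.H550 Vale.Agent.P329.H211

section known

variable {α : Type} [DecidableEq α] {Rs : α → Prop} [DecidablePred Rs] {b0 : α}
  {n : ℕ} [NeZero n] {φ : α → ℤ}

theorem bk_sil {τ : Type} {m0 : τ} {μ : ZMod n → τ → α → τ} {sil : ZMod n → τ → α → Prop}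
    [Finite α] [Finite τ] (hb0 : Rs b0) (h0 : NoCyc (exc φ m0 μ (fun _ _ _ => False)))
    (h1 : NoCyc (exc φ m0 μ sil)) (s : ZMod n × τ) :
    BK Rs b0 (Sm φ m0 μ (fun s x => s.1 + (φ x : ZMod n) = 0 ∧ sil s.1 s.2 x) s) := by
  have k0 := BK.of_event Rs b0 _ (0, m0) s hb0 h0
  have k1 := BK.of_event Rs b0 _ (0, m0) s hb0 h1
  apply (k0.sub k1).congr
  intro w
  rw [cnt_eq_Sm, cnt_eq_Sm]
  rw [Sm_add (E := fun s x => s.1 + (φ x : ZMod n) = 0 ∧ ¬ False)
    (E1 := fun s x => s.1 + (φ x : ZMod n) = 0 ∧ sil s.1 s.2 x)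
    (E2 := fun s x => s.1 + (φ x : ZMod n) = 0 ∧ ¬ sil s.1 s.2 x)]
  · ring
  · intro s x; tauto
  · intro s x; tauto

/-- the total automaton without its returns to the base -/
theorem tot_ein {τ : Type} [DecidableEq τ] {m0 : τ} {μ : ZMod n → τ → α → τ}
    (h0 : NoCyc (exc φ m0 μ (fun _ _ _ => False))) :
    NoCyc (ein (dn Rs (tot φ m0 μ)) (0, m0)) := by
  classical
  refine noCyc_sub (fun q a q' h => ?_) h0
  unfold ein dn at h
  by_cases hR : Rs a
  · rw [if_pos hR] at h; cases h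
  · rw [if_neg hR] at h
    change (if tot φ m0 μ q a = (0, m0) then none else some (tot φ m0 μ q a)) = some q' at h
    by_cases h1 : q.1 + (φ a : ZMod n) = 0
    · have ht : tot φ m0 μ q a = (0, m0) := if_pos h1
      rw [if_pos ht] at h; cases h
    · have ht : tot φ m0 μ q a = (q.1 + (φ a : ZMod n), μ q.1 q.2 a) := if_neg h1
      rw [exc_ne h1]
      by_cases h2 : tot φ m0 μ q a = (0, m0)
      · rw [if_pos h2] at h; cases h
      · rw [if_neg h2, ht] at h; exact h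

theorem bk_fin {τ : Type} {m0 : τ} {μ : ZMod n → τ → α → τ} [Finite α] [Finite τ] (hb0 : Rs b0)
    (h0 : NoCyc (exc φ m0 μ (fun _ _ _ => False))) (Ψ : ZMod n × τ → ℤ) :
    BK Rs b0 fun w => Ψ (w.foldl (tot φ m0 μ) (0, m0)) := by
  classical
  exact BK.of_state Rs b0 (tot φ m0 μ) (0, m0) Ψ hb0 (tot_ein h0)

variable {b : α} {r : ZMod n}

theorem s0_zero : s0 (0 : ZMod n) = (0, me n) := if_pos rfl

theorem bk_diff_r [Finite α] (hb0 : Rs b0) (hφ : ∀ x, φ x = 0 ∨ φ x = 1 ∨ φ x = -1)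
    (hb : φ b = 1) (r : ZMod n) :
    BK Rs b0 fun w => W (adda fun x => (φ x : ZMod n)) b (ind (r - 1)) 0 w -
      Sm φ (me n) (mu φ b) (eret φ b r) (s0 0) w := by
  by_cases hr : r = 0
  · subst hr
    apply (BK.const hb0 0).congr
    intro w
    have h1 := ident_zero hb w (s0 (0 : ZMod n))
    rw [s0_fst] at h1
    rw [← h1, sub_self]
  · have k1 := bk_sil (b0 := b0) hb0 (noCyc4_false (r := r) hφ) (noCyc4 (b := b) hφ hr)
      ((0 : ZMod n) - r, z0 (0 : ZMod n))
    have k2 := bk_fin (b0 := b0) (m0 := me n) (μ := mu φ b) hb0 (noCyc_false hφ) (psi r)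
    apply ((k1.add k2).sub (BK.const hb0 (psi r (s0 0)))).congr
    intro w
    have h1 := ident1 hφ hb hr w (val_s0 0) (jc_s0 (r := r) 0)
    have h2 := ident2 hφ hb hr w (val_s0 0)
    rw [s0_fst] at h1
    have h3 : Sm φ (me n) (mu φ b) (eret φ b r) (s0 0) w =
        Sm φ (me n) (mu φ b) (evr φ r) (s0 0) w := by
      apply Sm_congr
      intro s x
      unfold eret lab evr
      rw [Function.update_of_ne hr]
    rw [h3]
    rw [← s0_zero (n := n)]
    linarith

theorem bk_orth [Finite α] (hb0 : Rs b0) (hφ : ∀ x, φ x = 0 ∨ φ x = 1 ∨ φ x = -1)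
    (hb : φ b = 1) (Φ : ZMod n → ℤ) (hΦ : ∀ t : ZMod n → Bool,
      (∃ q : ℕ, q.Prime ∧ q ∣ n ∧ ∀ v, t (v + ((n / q : ℕ) : ZMod n)) = t v) →
        ∑ r : ZMod n, (if t r = true then Φ (r - 1) else 0) = 0) :
    BK Rs b0 (W (adda fun x => (φ x : ZMod n)) b Φ 0) := by
  classical
  have k1 : BK Rs b0 fun w => ∑ r : ZMod n, Φ (r - 1) *
      (W (adda fun x => (φ x : ZMod n)) b (ind (r - 1)) 0 w -
        Sm φ (me n) (mu φ b) (eret φ b r) (s0 0) w) :=
    BK.sum hb0 Finset.univ fun r _ => (bk_diff_r hb0 hφ hb r).mul_left _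
  have k2 : BK Rs b0 fun w => ∑ r : ZMod n, Φ (r - 1) *
      Sm φ (me n) (mu φ b) (fun s x => s.1 + (φ x : ZMod n) = 0 ∧
        (lev s.1 s.2 + φ x = 0 ∧ lab b s.2 x r = true)) (s0 0) w :=
    BK.sum hb0 Finset.univ fun r _ => (bk_sil hb0 (noCyc_false hφ)
      (noCyc_nw hφ (fun v m x => lab b m x r = true)) (s0 0)).mul_left _
  have k3 : BK Rs b0 fun w => ∑ t : ZMod n → Bool,
      (∑ r : ZMod n, (if t r = true then Φ (r - 1) else 0)) *
      Sm φ (me n) (mu φ b) (fun s x => s.1 + (φ x : ZMod n) = 0 ∧ silw φ b t s.1 s.2 x)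
        (s0 0) w := by
    apply BK.sum hb0
    intro t _
    by_cases ht : ∃ q : ℕ, q.Prime ∧ q ∣ n ∧ ∀ v, t (v + ((n / q : ℕ) : ZMod n)) = t v
    · rw [hΦ t ht]
      apply (BK.const hb0 0).congr
      intro w
      rw [zero_mul]
    · exact (bk_sil hb0 (noCyc_false hφ) (noCyc_wrap hφ hb ht) (s0 0)).mul_left _
  apply ((k1.add k2).add k3).congr
  intro w
  have h1 : W (adda fun x => (φ x : ZMod n)) b Φ 0 w =
      ∑ r : ZMod n, Φ (r - 1) * W (adda fun x => (φ x : ZMod n)) b (ind (r - 1)) 0 w := by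
    have h2 : Φ = fun v => ∑ r : ZMod n, Φ (r - 1) * ind (r - 1) v := by
      funext v
      rw [Finset.sum_eq_single (v + 1)]
      · rw [add_sub_cancel_right, ind_self, mul_one]
      · intro r _ hr
        rw [ind_ne, mul_zero]
        intro h3
        apply hr
        rw [h3]; ring
      · intro h; exact absurd (Finset.mem_univ _) h
    conv_lhs => rw [h2]
    rw [W_sum]
    refine Finset.sum_congr rfl fun r _ => ?_
    rw [W_mul]
  rw [h1]
  have h4 : ∑ t : ZMod n → Bool, (∑ r : ZMod n, (if t r = true then Φ (r - 1) else 0)) *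
      Sm φ (me n) (mu φ b) (fun s x => s.1 + (φ x : ZMod n) = 0 ∧ silw φ b t s.1 s.2 x)
        (s0 0) w = ∑ r : ZMod n, Φ (r - 1) * ∑ t : ZMod n → Bool,
        (if t r = true then 1 else 0) * Sm φ (me n) (mu φ b)
          (fun s x => s.1 + (φ x : ZMod n) = 0 ∧ silw φ b t s.1 s.2 x) (s0 0) w := by
    simp only [Finset.sum_mul, Finset.mul_sum]
    rw [Finset.sum_comm]
    refine Finset.sum_congr rfl fun r _ => Finset.sum_congr rfl fun t _ => ?_
    split_ifs <;> ring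
  rw [h4, ← Finset.sum_add_distrib, ← Finset.sum_add_distrib]
  refine Finset.sum_congr rfl fun r _ => ?_
  rw [ident3 (r := r) w (s0 0)]
  ring

theorem bk_val_zero [Finite α] (hb0 : Rs b0) (hφ : ∀ x, φ x = 0 ∨ φ x = 1 ∨ φ x = -1)
    (hb : φ b = 0) (Φ : ZMod n → ℤ) : BK Rs b0 (W (adda fun x => (φ x : ZMod n)) b Φ 0) := by
  classical
  have k1 : ∀ r : ZMod n, BK Rs b0 (W (adda fun x => (φ x : ZMod n)) b (ind r) 0) := by
    intro r
    have k := bk_sil (b0 := b0) hb0 (noCyc_false (b := b) hφ)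
      (noCyc_nw (b := b) hφ (fun v m x => v = 0 ∧ x = b)) (s0 (0 - r))
    apply k.congr
    intro w
    rw [W_shift, ← zero_count hb w (s0 (0 - r)), s0_fst]
  have k2 : BK Rs b0 fun w =>
      ∑ r : ZMod n, Φ r * W (adda fun x => (φ x : ZMod n)) b (ind r) 0 w :=
    BK.sum hb0 Finset.univ fun r _ => (k1 r).mul_left _
  apply k2.congr
  intro w
  have h2 : Φ = fun v => ∑ r : ZMod n, Φ r * ind r v := by
    funext v
    rw [Finset.sum_eq_single v]
    · rw [ind_self, mul_one]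
    · intro r _ hr
      rw [ind_ne (Ne.symm hr), mul_zero]
    · intro h; exact absurd (Finset.mem_univ _) h
  conv_lhs => rw [h2]
  rw [W_sum]
  refine Finset.sum_congr rfl fun r _ => ?_
  rw [W_mul]

end known

theorem bk_core_aux (α : Type) [DecidableEq α] [Finite α] (Rs : α → Prop) [DecidablePred Rs]
    (b0 : α) (hb0 : Rs b0) (φ : α → ℤ) (hφ : ∀ x, φ x = 0 ∨ φ x = 1 ∨ φ x = -1)
    (b : α) (hb : φ b = 1) (N : ℕ) : ∀ (n : ℕ) [NeZero n], n ≤ N → ∀ (Φ : ZMod n → ℤ),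
    BK Rs b0 (W (adda fun x => (φ x : ZMod n)) b Φ 0) := by
  induction N with
  | zero => intro n _ hn; exact absurd (Nat.le_zero.mp hn) (NeZero.ne n)
  | succ N ih =>
    intro n _ hn Φ
    have hn0 : 0 < n := Nat.pos_of_ne_zero (NeZero.ne n)
    apply all_mem (fun Φ => BK Rs b0 (W (adda fun x => (φ x : ZMod n)) b Φ 0))
    · intro Φ Ψ h1 h2
      exact (h1.add h2).congr fun w => W_add Φ Ψ 0 w
    · intro c Φ h1
      exact (h1.mul_left c).congr fun w => W_mul c Φ 0 w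
    · intro c Φ hc h1
      apply BK.div hc
      exact h1.congr fun w => (W_mul (c : ℤ) Φ 0 w).symm
    · intro q hq hqn Φ hΦ
      have hm : n / q ∣ n := Nat.div_dvd_of_dvd hqn
      have hm0 : 0 < n / q := Nat.div_pos (Nat.le_of_dvd hn0 hqn) hq.pos
      have hmlt : n / q < n := Nat.div_lt_self hn0 hq.one_lt
      have : NeZero (n / q) := ⟨hm0.ne'⟩
      obtain ⟨Ψ, rfl⟩ := periodic_cast hm Φ hΦ
      apply (ih (n / q) (by omega) Ψ).congr
      intro w
      have h1 := W_cast hm φ b Ψ w (0 : ZMod n)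
      rw [map_zero] at h1
      exact h1
    · intro Φ hΦ
      exact bk_orth hb0 hφ hb Φ hΦ

/-- **Walks in blocks.** -/
theorem bk_core {α : Type} [DecidableEq α] [Finite α] {Rs : α → Prop} [DecidablePred Rs]
    {b0 : α} (hb0 : Rs b0) {n : ℕ} [NeZero n] (φ : α → ℤ)
    (hφ : ∀ x, φ x = 0 ∨ φ x = 1 ∨ φ x = -1) (b : α) (Φ : ZMod n → ℤ) :
    BK Rs b0 (W (adda fun x => (φ x : ZMod n)) b Φ 0) := by
  rcases hφ b with hb | hb | hb
  · exact bk_val_zero hb0 hφ hb Φ
  · exact bk_core_aux α Rs b0 hb0 φ hφ b hb n n le_rfl Φ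
  · have hφ' : ∀ x, (fun x => -φ x) x = 0 ∨ (fun x => -φ x) x = 1 ∨ (fun x => -φ x) x = -1 := by
      intro x
      have := hφ x
      simp only
      omega
    have h1 := bk_core_aux α Rs b0 hb0 (fun x => -φ x) hφ' b (by rw [hb]; norm_num) n n le_rfl
      (fun v => Φ (-v))
    refine h1.congr fun w => ?_
    have h2 := W_neg φ b Φ w 0
    rw [neg_zero] at h2
    exact h2

end Vale.Agent.P329.H81
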